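import Vale.Agent.P050.Lev.SGoodCore

/-!
The cone rule: a new vertex below everything, joined to a set of vertices.
-/

namespace Vale.Agent.P050.Lev

open Finset

namespace Chain

variable {U : Type} [Fintype U] (C : Chain U)

theorem co_ker (x : U) (i n : ℕ) : (C.cond x).ker i n = C.ker (i + 1) n := by
  induction n with
  | zero => rfl
  | succ n ih =>
    funext y z
    simp only [ker, ih]
    have : (C.cond x).step (i + n) = C.step (i + 1 + n) := by
      show C.step (i + n + 1) = C.step (i + 1 + n)
      rw [show i + n + 1 = i + 1 + n by omega]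
    rw [this]

theorem co_law (x : U) (n : ℕ) : (C.cond x).law n = C.ker 0 (n + 1) x := by
  induction n with
  | zero =>
    funext y
    rw [show (0 : ℕ) + 1 = 1 from rfl, C.fo_ker_one 0 x y]
    rfl
  | succ n ih =>
    funext y
    have h1 : (C.cond x).law (n + 1) y = ∑ w, (C.cond x).law n w * (C.cond x).step n w y := rfl
    have h2 : C.ker 0 (n + 1 + 1) x y = ∑ w, C.ker 0 (n + 1) x w * C.step (0 + (n + 1)) w y := rfl
    rw [h1, h2, ih, zero_add]
    rfl

/-- averaging the conditional laws -/
theorem co_avg_law (n : ℕ) (y : U) : ∑ x, C.init x * (C.cond x).law n y = C.law (n + 1) y := by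
  simp_rw [co_law]
  have := C.fo_law_ker 0 (n + 1) y
  rw [zero_add] at this
  exact this

theorem co_avg_pair {i j : ℕ} (x y z : U) :
    (C.cond x).pair i j y z = (C.cond x).law i y * C.ker (i + 1) (j - i) y z := by
  unfold pair
  rw [co_ker]

theorem co_avg_pair' {i j : ℕ} (y z : U) :
    ∑ x, C.init x * (C.cond x).pair i j y z = C.pair (i + 1) (j + 1) y z := by
  simp_rw [co_avg_pair, ← mul_assoc]
  rw [← Finset.sum_mul, co_avg_law]
  unfold pair
  rw [show j + 1 - (i + 1) = j - i by omega]

/-- the mutual information through the transition probabilities -/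
theorem info_eq {i j : ℕ} (h : i ≤ j) : C.info i j =
    ∑ y, ∑ z, C.pair i j y z * Real.log (C.ker i (j - i) y z)
      - ∑ z, C.law j z * Real.log (C.law j z) := by
  have h1 : ∑ z, C.law j z * Real.log (C.law j z)
      = ∑ y, ∑ z, C.pair i j y z * Real.log (C.law j z) := by
    rw [Finset.sum_comm]
    refine Finset.sum_congr rfl fun z _ => ?_
    rw [← Finset.sum_mul, C.fo_pair_snd h]
  rw [h1, ← Finset.sum_sub_distrib]
  unfold info
  refine Finset.sum_congr rfl fun y _ => ?_
  rw [← Finset.sum_sub_distrib]
  refine Finset.sum_congr rfl fun z _ => ?_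
  rw [← mul_sub]
  by_cases h0 : C.pair i j y z = 0
  · rw [h0, zero_mul, zero_mul]
  congr 2
  have h0' : C.law i y * C.ker i (j - i) y z ≠ 0 := h0
  have ha : C.law i y ≠ 0 := left_ne_zero_of_mul h0'
  have hb : C.ker i (j - i) y z ≠ 0 := right_ne_zero_of_mul h0'
  unfold pair
  rw [Real.log_mul ha hb]
  ring

theorem info_nonneg {i j : ℕ} (h : i ≤ j) : 0 ≤ C.info i j := by
  have hg := gibbs' (Z := U × U) (p := fun p => C.pair i j p.1 p.2)
    (q := fun p => C.law i p.1 * C.law j p.2) (fun p => C.fo_pair_nonneg _ _ _ _)
    (fun p => mul_nonneg (C.fo_law_nonneg _ _) (C.fo_law_nonneg _ _)) ?_ ?_ ?_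
  · have e : C.info i j = ∑ p : U × U, C.pair i j p.1 p.2 * Real.log (C.pair i j p.1 p.2)
        - ∑ p : U × U, C.pair i j p.1 p.2 * Real.log (C.law i p.1 * C.law j p.2) := by
      rw [← Finset.sum_sub_distrib, Fintype.sum_prod_type]
      unfold info
      refine Finset.sum_congr rfl fun y _ => Finset.sum_congr rfl fun z _ => ?_
      rw [← mul_sub]
      by_cases h0 : C.pair i j y z = 0
      · simp [h0]
      have h0' : C.law i y * C.ker i (j - i) y z ≠ 0 := h0
      have ha : C.law i y ≠ 0 := left_ne_zero_of_mul h0'
      have hb : C.law j z ≠ 0 := by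
        rw [← C.fo_pair_snd h z]
        intro h1
        exact h0 ((Finset.sum_eq_zero_iff_of_nonneg
          (fun y _ => C.fo_pair_nonneg _ _ _ _)).1 h1 y (mem_univ y))
      simp only
      rw [Real.log_mul ha hb]
      ring
    rw [e]
    exact sub_nonneg.2 hg
  · rintro ⟨y, z⟩ h0
    rcases mul_eq_zero.1 h0 with h1 | h1
    · simp only at h1 ⊢
      unfold pair
      rw [h1, zero_mul]
    · simp only at h1 ⊢
      have h2 := C.fo_pair_snd h z
      rw [h1] at h2
      exact (Finset.sum_eq_zero_iff_of_nonneg
          (fun y _ => C.fo_pair_nonneg _ _ _ _)).1 h2 y (mem_univ y)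
  · rw [Fintype.sum_prod_type]
    simp_rw [C.fo_pair_fst]
    exact C.fo_law_sum _
  · rw [Fintype.sum_prod_type]
    simp_rw [← Finset.mul_sum, C.fo_law_sum, mul_one]
    exact (C.fo_law_sum _).le

theorem info_zero_eq (n : ℕ) : C.info 0 (n + 1) =
    ∑ x, C.init x * (∑ y, (C.cond x).law n y * Real.log ((C.cond x).law n y))
      - ∑ y, C.law (n + 1) y * Real.log (C.law (n + 1) y) := by
  rw [C.info_eq (Nat.zero_le _)]
  congr 1
  refine Finset.sum_congr rfl fun x _ => ?_
  rw [Finset.mul_sum]
  refine Finset.sum_congr rfl fun y _ => ?_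
  rw [co_law]
  unfold pair
  rw [Nat.sub_zero, mul_assoc]
  rfl

/-- the chain rule: the average conditional mutual information -/
theorem avg_info {i j : ℕ} (h : i ≤ j) : ∑ x, C.init x * (C.cond x).info i j
    = C.info (i + 1) (j + 1) - C.info 0 (j + 1) := by
  rw [C.info_eq (Nat.succ_le_succ h), C.info_zero_eq]
  simp_rw [(C.cond _).info_eq h, mul_sub, Finset.sum_sub_distrib]
  have h1 : ∑ x, C.init x * ∑ y, ∑ z, (C.cond x).pair i j y z *
      Real.log ((C.cond x).ker i (j - i) y z)
      = ∑ y, ∑ z, C.pair (i + 1) (j + 1) y z *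
        Real.log (C.ker (i + 1) (j + 1 - (i + 1)) y z) := by
    simp_rw [← C.co_avg_pair' (i := i) (j := j), co_ker]
    rw [show j + 1 - (i + 1) = j - i by omega]
    simp_rw [Finset.mul_sum, Finset.sum_mul]
    rw [Finset.sum_comm]
    refine Finset.sum_congr rfl fun y _ => ?_
    rw [Finset.sum_comm]
    refine Finset.sum_congr rfl fun z _ => Finset.sum_congr rfl fun x _ => ?_
    ring
  rw [h1]
  ring

end Chain

section cone

variable {V : Type} [Fintype V] [DecidableEq V]

/-- the edges of the cone -/
def coneEdges (E : Finset (V × V)) (D : Finset V) : Finset (Option V × Option V) :=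
  E.image (fun e => (some e.1, some e.2)) ∪ D.image (fun d => (none, some d))

/-- the tied pairs of the cone -/
def coneRel (R : V → V → Prop) : Option V → Option V → Prop
  | none, some _ => True
  | some a, some b => R a b
  | _, none => False

/-- the levels of the cone -/
def coneLev (lev : V → ℕ) : Option V → ℕ
  | none => 0
  | some v => lev v + 1

/-- functions on `Option V` -/
theorem sum_option {U : Type} [Fintype U] (g : (Option V → U) → ℝ) :
    ∑ z : Option V → U, g z = ∑ x : U, ∑ w : V → U, g (fun o => o.elim x w) := by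
  rw [← Fintype.sum_prod_type (f := fun p : U × (V → U) => g (fun o => o.elim p.1 p.2))]
  refine Fintype.sum_equiv
    ⟨fun z => (z none, fun v => z (some v)), fun p o => o.elim p.1 p.2, fun z => ?_, fun p => ?_⟩
    _ _ fun z => ?_
  · funext o
    cases o <;> rfl
  · rfl
  · congr 1
    funext o
    cases o <;> rfl

/-- **The cone rule.** -/
theorem Good.cone {E : Finset (V × V)} {R : V → V → Prop} {lev : V → ℕ} (hg : Good E R lev)
    (D : Finset V) (hD : ∀ v, v ∈ D ∨ ∃ u, (u, v) ∈ E) :
    Good (coneEdges E D) (coneRel R) (coneLev lev) := by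
  obtain ⟨hER, hlev, hC⟩ := hg
  refine ⟨?_, ?_, ?_⟩
  · intro e he
    rcases Finset.mem_union.1 he with he | he
    · obtain ⟨e', he', rfl⟩ := Finset.mem_image.1 he
      exact hER e' he'
    · obtain ⟨d, hd, rfl⟩ := Finset.mem_image.1 he
      trivial
  · rintro (_ | u) (_ | v) huv
    · exact huv.elim
    · simp [coneLev]
    · exact huv.elim
    · exact Nat.succ_lt_succ (hlev u v huv)
  · intro U _ C
    choose ν hν using fun x => hC U (C.cond x)
    refine ⟨fun z => C.init (z none) * ν (z none) (fun v => z (some v)), ?_, ?_, ?_, ?_, ?_⟩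
    · intro z
      exact mul_nonneg (C.init_nonneg _) ((hν _).nonneg _)
    · rw [sum_option]
      simp only [Option.elim]
      simp_rw [← Finset.mul_sum, (hν _).total, mul_one]
      exact C.init_sum
    · rintro (_ | v) f
      · rw [sum_option]
        simp only [Option.elim, coneLev]
        refine Finset.sum_congr rfl fun x _ => ?_
        rw [← Finset.sum_mul, ← Finset.mul_sum, (hν _).total, mul_one]
        rfl
      · rw [sum_option]
        simp only [Option.elim, coneLev]
        simp_rw [mul_assoc, ← Finset.mul_sum, (hν _).vertex v f]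
        simp_rw [← C.co_avg_law, Finset.mul_sum, Finset.sum_mul]
        rw [Finset.sum_comm]
        refine Finset.sum_congr rfl fun y _ => Finset.sum_congr rfl fun x _ => ?_
        ring
    · rintro (_ | u) (_ | v) huv f
      · exact huv.elim
      · rw [sum_option]
        simp only [Option.elim, coneLev]
        simp_rw [mul_assoc, ← Finset.mul_sum]
        have h1 : ∀ x, ∑ w, ν x w * f x (w v) = ∑ y, (C.cond x).law (lev v) y * f x y :=
          fun x => (hν x).vertex v (f x)
        simp_rw [h1, Finset.mul_sum]
        refine Finset.sum_congr rfl fun x _ => Finset.sum_congr rfl fun y _ => ?_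
        rw [C.co_law, ← mul_assoc]
        rfl
      · exact huv.elim
      · rw [sum_option]
        simp only [Option.elim, coneLev]
        simp_rw [mul_assoc, ← Finset.mul_sum, (hν _).tied u v huv f]
        simp_rw [← C.co_avg_pair', Finset.mul_sum, Finset.sum_mul]
        rw [Finset.sum_comm]
        refine Finset.sum_congr rfl fun y _ => ?_
        rw [Finset.sum_comm]
        refine Finset.sum_congr rfl fun z _ => Finset.sum_congr rfl fun x _ => ?_
        ring
    · -- the total correlation
      have hcorr : corr (coneLev lev) C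
          (fun z => C.init (z none) * ν (z none) (fun v => z (some v)))
          = ∑ x, C.init x * corr lev (C.cond x) (ν x) + ∑ v, C.info 0 (lev v + 1) := by
        have hv : ∀ v, C.info 0 (lev v + 1) = ∑ x, C.init x * ∑ w, ν x w *
            (Real.log ((C.cond x).law (lev v) (w v)) - Real.log (C.law (lev v + 1) (w v))) := by
          intro v
          rw [C.info_zero_eq]
          have h1 : ∀ x, ∑ w, ν x w * (Real.log ((C.cond x).law (lev v) (w v))
              - Real.log (C.law (lev v + 1) (w v)))
              = ∑ y, (C.cond x).law (lev v) y * (Real.log ((C.cond x).law (lev v) y)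
                - Real.log (C.law (lev v + 1) y)) := fun x =>
            (hν x).vertex v (fun y => Real.log ((C.cond x).law (lev v) y)
              - Real.log (C.law (lev v + 1) y))
          simp_rw [h1, mul_sub, Finset.sum_sub_distrib, mul_sub, Finset.sum_sub_distrib]
          congr 1
          simp_rw [← C.co_avg_law (lev v), Finset.mul_sum, Finset.sum_mul]
          rw [Finset.sum_comm]
          refine Finset.sum_congr rfl fun y _ => Finset.sum_congr rfl fun x _ => ?_
          ring
        simp_rw [hv]
        unfold corr
        rw [sum_option]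
        rw [Finset.sum_comm (s := (univ : Finset V)), ← Finset.sum_add_distrib]
        refine Finset.sum_congr rfl fun x _ => ?_
        rw [← Finset.mul_sum, ← mul_add, Finset.sum_comm (s := (univ : Finset V)),
          ← Finset.sum_add_distrib, Finset.mul_sum]
        refine Finset.sum_congr rfl fun w _ => ?_
        simp only [Option.elim, Fintype.sum_option, coneLev]
        rw [← Finset.mul_sum, ← mul_add, mul_assoc]
        by_cases h0 : C.init x = 0
        · rw [h0, zero_mul, zero_mul]
        by_cases h1 : ν x w = 0
        · rw [h1, zero_mul, zero_mul]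
        congr 2
        rw [Real.log_mul h0 h1, Finset.sum_sub_distrib]
        have : C.law 0 x = C.init x := rfl
        rw [this]
        ring
      rw [hcorr]
      have hb : ∑ x, C.init x * corr lev (C.cond x) (ν x)
          ≤ ∑ e ∈ E, (C.info (lev e.1 + 1) (lev e.2 + 1) - C.info 0 (lev e.2 + 1)) := by
        calc _ ≤ ∑ x, C.init x * ∑ e ∈ E, (C.cond x).info (lev e.1) (lev e.2) :=
              Finset.sum_le_sum fun x _ =>
                mul_le_mul_of_nonneg_left (hν x).bound (C.init_nonneg x)
          _ = _ := by
            simp_rw [Finset.mul_sum]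
            rw [Finset.sum_comm]
            refine Finset.sum_congr rfl fun e he => ?_
            exact C.avg_info (hlev _ _ (hER e he)).le
      have hsumE : ∑ e ∈ coneEdges E D, C.info (coneLev lev e.1) (coneLev lev e.2)
          = ∑ e ∈ E, C.info (lev e.1 + 1) (lev e.2 + 1) + ∑ d ∈ D, C.info 0 (lev d + 1) := by
        unfold coneEdges
        rw [Finset.sum_union, Finset.sum_image, Finset.sum_image]
        · rfl
        · intro a _ b _ hab
          simpa using hab
        · intro a _ b _ hab
          simp only [Prod.mk.injEq, Option.some.injEq] at hab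
          exact Prod.ext hab.1 hab.2
        · rw [Finset.disjoint_left]
          intro e he he'
          obtain ⟨a, -, rfl⟩ := Finset.mem_image.1 he
          obtain ⟨d, -, h⟩ := Finset.mem_image.1 he'
          simp at h
      rw [hsumE]
      have hcov : ∑ v, C.info 0 (lev v + 1)
          ≤ ∑ e ∈ E, C.info 0 (lev e.2 + 1) + ∑ d ∈ D, C.info 0 (lev d + 1) := by
        have hnn : ∀ n, 0 ≤ C.info 0 n := fun n => C.info_nonneg (Nat.zero_le n)
        have h1 : ∑ v ∈ E.image Prod.snd, C.info 0 (lev v + 1)
            ≤ ∑ e ∈ E, C.info 0 (lev e.2 + 1) := by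
          rw [← Finset.sum_fiberwise_of_maps_to (s := E) (t := E.image Prod.snd)
            (g := Prod.snd) (fun e he => Finset.mem_image_of_mem _ he)]
          refine Finset.sum_le_sum fun v hv => ?_
          obtain ⟨e, he, rfl⟩ := Finset.mem_image.1 hv
          exact Finset.single_le_sum (f := fun e : V × V => C.info 0 (lev e.2 + 1))
            (fun e _ => hnn _) (Finset.mem_filter.2 ⟨he, rfl⟩)
        have h2 : (univ : Finset V) ⊆ E.image Prod.snd ∪ D := by
          intro v _
          rcases hD v with h | ⟨u, h⟩
          · exact Finset.mem_union_right _ h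
          · exact Finset.mem_union_left _ (Finset.mem_image.2 ⟨(u, v), h, rfl⟩)
        calc _ ≤ ∑ v ∈ E.image Prod.snd ∪ D, C.info 0 (lev v + 1) :=
              Finset.sum_le_sum_of_subset_of_nonneg h2 fun v _ _ => hnn _
          _ ≤ ∑ v ∈ E.image Prod.snd, C.info 0 (lev v + 1) + ∑ d ∈ D, C.info 0 (lev d + 1) := by
            rw [← Finset.sum_union_inter]
            have : 0 ≤ ∑ v ∈ E.image Prod.snd ∩ D, C.info 0 (lev v + 1) :=
              Finset.sum_nonneg fun v _ => hnn _
            linarith
          _ ≤ _ := by linarith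
      rw [Finset.sum_sub_distrib] at hb
      linarith

end cone

end Vale.Agent.P050.Lev
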