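import Vale.Agent.P050.Lev.SGood
import Vale.Agent.P050.Lev.Cone
import Vale.Agent.P050.TDefs

/-!
Good with unit edges implies the two-sided Sidorenko inequality, and this implies the Sidorenko
inequality for all finite target graphs.
-/

namespace Vale.Agent.P050.Lev

open Finset

section weights

variable {V X : Type} [Fintype V] [DecidableEq V] [Fintype X]

/-- exchanging the weight at a coordinate on which `B` does not depend -/
theorem swap_weight (v : V) (B : (V → X) → ℝ) (hB : ∀ Z y, B (Function.update Z v y) = B Z)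
    (q : V → X → ℝ) (r : X → ℝ) :
    (∑ y, r y) * ∑ Z : V → X, (∏ w, q w (Z w)) * B Z
      = (∑ y, q v y) * ∑ Z : V → X, (∏ w, (Function.update q v r) w (Z w)) * B Z := by
  classical
  rw [Finset.sum_mul_sum, Finset.sum_mul_sum, ← Fintype.sum_prod_type'
    (f := fun y (Z : V → X) => r y * ((∏ w, q w (Z w)) * B Z)), ← Fintype.sum_prod_type'
    (f := fun y (Z : V → X) => q v y * ((∏ w, (Function.update q v r) w (Z w)) * B Z))]
  set σ : X × (V → X) → X × (V → X) := fun p => (p.2 v, Function.update p.2 v p.1) with hσ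
  have hinv : Function.Involutive σ := by
    rintro ⟨y, Z⟩
    simp [hσ]
  rw [← Equiv.sum_comp hinv.toPerm]
  refine Finset.sum_congr rfl fun p _ => ?_
  obtain ⟨y, Z⟩ := p
  show r (Z v) * ((∏ w, q w (Function.update Z v y w)) * B (Function.update Z v y))
    = q v y * ((∏ w, (Function.update q v r) w (Z w)) * B Z)
  rw [hB, ← Finset.mul_prod_erase univ (fun w => q w (Function.update Z v y w)) (mem_univ v),
    ← Finset.mul_prod_erase univ (fun w => (Function.update q v r) w (Z w)) (mem_univ v),
    Function.update_self, Function.update_self]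
  have h1 : ∏ w ∈ univ.erase v, q w (Function.update Z v y w)
      = ∏ w ∈ univ.erase v, (Function.update q v r) w (Z w) := by
    refine Finset.prod_congr rfl fun w hw => ?_
    rw [Function.update_of_ne (Finset.ne_of_mem_erase hw),
      Function.update_of_ne (Finset.ne_of_mem_erase hw)]
  rw [h1]
  ring

theorem weights_eq (N : Finset V) (B : (V → X) → ℝ)
    (hB : ∀ v, v ∉ N → ∀ Z y, B (Function.update Z v y) = B Z) (q q' : V → X → ℝ)
    (hN : ∀ v ∈ N, q v = q' v) (hq : ∀ v, v ∉ N → ∑ x, q v x = 1)
    (hq' : ∀ v, v ∉ N → ∑ x, q' v x = 1) :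
    ∑ Z : V → X, (∏ w, q w (Z w)) * B Z = ∑ Z : V → X, (∏ w, q' w (Z w)) * B Z := by
  classical
  have key : ∀ S : Finset V, (∀ v ∈ S, v ∉ N) → ∑ Z : V → X, (∏ w, q w (Z w)) * B Z
      = ∑ Z : V → X, (∏ w, (if w ∈ S then q' w else q w) (Z w)) * B Z := by
    intro S
    induction S using Finset.induction_on with
    | empty => simp
    | insert v S hvS ih =>
      intro hS
      rw [ih fun w hw => hS w (Finset.mem_insert_of_mem hw)]
      have hv := hS v (Finset.mem_insert_self v S)
      have h := swap_weight v B (hB v hv) (fun w => if w ∈ S then q' w else q w) (q' v)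
      simp only [if_neg hvS] at h
      rw [hq v hv, hq' v hv, one_mul, one_mul] at h
      rw [h]
      refine Finset.sum_congr rfl fun Z _ => ?_
      congr 1
      refine Finset.prod_congr rfl fun w _ => ?_
      by_cases hw : w = v
      · subst hw
        rw [Function.update_self, if_pos (Finset.mem_insert_self w S)]
      · rw [Function.update_of_ne hw]
        simp [Finset.mem_insert, hw]
  rw [key (univ.filter fun v => v ∉ N) (by simp)]
  refine Finset.sum_congr rfl fun Z _ => ?_
  congr 1
  refine Finset.prod_congr rfl fun w _ => ?_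
  by_cases hw : w ∈ N
  · simp [hw, hN w hw]
  · simp [hw]

theorem sum_image_le' {α β : Type} [DecidableEq β] (s : Finset α) (g : α → β) (f : β → ℝ)
    (hf : ∀ b, 0 ≤ f b) : ∑ b ∈ s.image g, f b ≤ ∑ a ∈ s, f (g a) := by
  rw [← Finset.sum_fiberwise_of_maps_to (s := s) (t := s.image g) (g := g)
    (fun e he => Finset.mem_image_of_mem _ he)]
  refine Finset.sum_le_sum fun b hb => ?_
  obtain ⟨a, ha, rfl⟩ := Finset.mem_image.1 hb
  exact Finset.single_le_sum (f := fun a => f (g a)) (fun _ _ => hf _)
    (Finset.mem_filter.2 ⟨ha, rfl⟩)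

/-- Gibbs' variational principle -/
theorem gibbs_log {p q : X → ℝ} (hp : ∀ z, 0 ≤ p z) (hq : ∀ z, 0 ≤ q z)
    (hpq : ∀ z, q z = 0 → p z = 0) (hps : ∑ z, p z = 1) :
    ∑ z, p z * (Real.log (q z) - Real.log (p z)) ≤ Real.log (∑ z, q z) ∧ 0 < ∑ z, q z := by
  have hpos : 0 < ∑ z, q z := by
    refine lt_of_le_of_ne (Finset.sum_nonneg fun z _ => hq z) fun h => ?_
    have h1 := (Finset.sum_eq_zero_iff_of_nonneg fun z _ => hq z).1 h.symm
    have h2 : ∑ z, p z = 0 := Finset.sum_eq_zero fun z hz => hpq z (h1 z hz)
    rw [hps] at h2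
    exact one_ne_zero h2
  refine ⟨?_, hpos⟩
  have hg := gibbs' (p := p) (q := fun z => q z / ∑ z, q z) hp
    (fun z => div_nonneg (hq z) hpos.le)
    (fun z hz => hpq z (by
      rcases div_eq_zero_iff.1 hz with h | h
      · exact h
      · exact absurd h hpos.ne')) hps (by rw [← Finset.sum_div, div_self hpos.ne'])
  have h1 : ∑ z, p z * Real.log (q z / ∑ z, q z)
      = ∑ z, p z * Real.log (q z) - Real.log (∑ z, q z) := by
    have h2 : Real.log (∑ z, q z) = ∑ z, p z * Real.log (∑ z, q z) := by
      rw [← Finset.sum_mul, hps, one_mul]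
    rw [h2, ← Finset.sum_sub_distrib]
    refine Finset.sum_congr rfl fun z _ => ?_
    rw [← mul_sub]
    by_cases hz : p z = 0
    · rw [hz, zero_mul, zero_mul]
    rw [Real.log_div (fun h => hz (hpq z h)) hpos.ne']
  rw [h1] at hg
  simp_rw [mul_sub, Finset.sum_sub_distrib]
  linarith

end weights

section chain

variable {U : Type} [Fintype U]

/-- the alternating walk with the joint law `π` of two consecutive states -/
noncomputable def altChain (a b : U → ℝ) (π : U → U → ℝ) (ha : ∀ x, 0 ≤ a x) (hb : ∀ x, 0 ≤ b x)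
    (ha1 : ∑ x, a x = 1) (hb1 : ∑ x, b x = 1) (hπ : ∀ x y, 0 ≤ π x y)
    (h1 : ∀ x, ∑ y, π x y = a x) (h2 : ∀ y, ∑ x, π x y = b y) : Chain U where
  init := a
  step i := if i % 2 = 0 then condKer a b π else condKer b a (fun y x => π x y)
  init_nonneg := ha
  init_sum := ha1
  step_nonneg i x y := by
    split_ifs
    · exact condKer_nonneg hπ ha hb x y
    · exact condKer_nonneg (fun y x => hπ x y) hb ha x y
  step_sum i x := by
    split_ifs
    · exact condKer_sum h1 hb1 x
    · exact condKer_sum h2 ha1 x

variable {a b : U → ℝ} {π : U → U → ℝ} (ha : ∀ x, 0 ≤ a x) (hb : ∀ x, 0 ≤ b x)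
    (ha1 : ∑ x, a x = 1) (hb1 : ∑ x, b x = 1) (hπ : ∀ x y, 0 ≤ π x y)
    (h1 : ∀ x, ∑ y, π x y = a x) (h2 : ∀ y, ∑ x, π x y = b y)

theorem alt_law (n : ℕ) : (altChain a b π ha hb ha1 hb1 hπ h1 h2).law n
    = if n % 2 = 0 then a else b := by
  induction n with
  | zero => rfl
  | succ n ih =>
    funext y
    show ∑ x, (altChain a b π ha hb ha1 hb1 hπ h1 h2).law n x *
      (altChain a b π ha hb ha1 hb1 hπ h1 h2).step n x y = _
    rw [ih]
    show ∑ x, (if n % 2 = 0 then a else b) x *
      (if n % 2 = 0 then condKer a b π else condKer b a (fun y x => π x y)) x y = _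
    by_cases hn : n % 2 = 0
    · have hn' : ¬ (n + 1) % 2 = 0 := by omega
      simp only [if_pos hn, if_neg hn']
      simp_rw [mul_condKer hπ h1, h2]
    · have hn' : (n + 1) % 2 = 0 := by omega
      simp only [if_neg hn, if_pos hn']
      simp_rw [mul_condKer (fun y x => hπ x y) h2, h1]

theorem alt_pair (n : ℕ) (x y : U) : (altChain a b π ha hb ha1 hb1 hπ h1 h2).pair n (n + 1) x y
    = if n % 2 = 0 then π x y else π y x := by
  unfold Chain.pair
  rw [show n + 1 - n = 1 by omega, Chain.fo_ker_one, alt_law]
  show (if n % 2 = 0 then a else b) x *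
      (if n % 2 = 0 then condKer a b π else condKer b a (fun y x => π x y)) x y = _
  by_cases hn : n % 2 = 0
  · simp only [if_pos hn]
    exact mul_condKer hπ h1 x y
  · simp only [if_neg hn]
    exact mul_condKer (fun y x => hπ x y) h2 x y

theorem alt_info (n : ℕ) : (altChain a b π ha hb ha1 hb1 hπ h1 h2).info n (n + 1)
    = ∑ x, ∑ y, π x y * (Real.log (π x y) - Real.log (a x) - Real.log (b y)) := by
  unfold Chain.info
  simp_rw [alt_pair, alt_law]
  by_cases hn : n % 2 = 0
  · have hn' : ¬ (n + 1) % 2 = 0 := by omega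
    simp only [if_pos hn, if_neg hn']
  · have hn' : (n + 1) % 2 = 0 := by omega
    simp only [if_neg hn, if_pos hn']
    rw [Finset.sum_comm]
    refine Finset.sum_congr rfl fun x _ => Finset.sum_congr rfl fun y _ => ?_
    ring

end chain

section coupling

variable {V U : Type} [Fintype V] [DecidableEq V] [Fintype U] {E : Finset (V × V)}
  {R : V → V → Prop} {lev : V → ℕ} {C : Chain U} {ν : (V → U) → ℝ}

theorem Coupling.law_ne_zero (h : Coupling E R lev C ν) {z : V → U} (hz : ν z ≠ 0) (v : V) :
    C.law (lev v) (z v) ≠ 0 := by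
  classical
  intro h0
  have h1 := h.vertex v (fun x => if x = z v then 1 else 0)
  simp only [mul_ite, mul_one, mul_zero, Finset.sum_ite_eq', Finset.mem_univ, if_true] at h1
  rw [h0] at h1
  have h2 := (Finset.sum_eq_zero_iff_of_nonneg (fun z' _ => by
    split_ifs
    · exact h.nonneg _
    · exact le_rfl)).1 h1 z (mem_univ z)
  simp only [if_true] at h2
  exact hz h2

theorem Coupling.pair_ne_zero (h : Coupling E R lev C ν) {z : V → U} (hz : ν z ≠ 0) {u v : V}
    (huv : R u v) : C.pair (lev u) (lev v) (z u) (z v) ≠ 0 := by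
  classical
  intro h0
  have h1 := h.tied u v huv (fun x y => if x = z u ∧ y = z v then 1 else 0)
  have h3 : ∑ x, ∑ y, C.pair (lev u) (lev v) x y * (if x = z u ∧ y = z v then (1 : ℝ) else 0)
      = 0 := by
    refine Finset.sum_eq_zero fun x _ => Finset.sum_eq_zero fun y _ => ?_
    split_ifs with h4
    · rw [h4.1, h4.2, h0, zero_mul]
    · rw [mul_zero]
  rw [h3] at h1
  have h2 := (Finset.sum_eq_zero_iff_of_nonneg (fun z' _ => by
    split_ifs
    · rw [mul_one]; exact h.nonneg _
    · rw [mul_zero])).1 h1 z (mem_univ z)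
  simp only [and_self, if_true, mul_one] at h2
  exact hz h2

end coupling

section final

variable {V : Type} [Fintype V] [DecidableEq V]

omit [DecidableEq V] in
theorem card_upEdges (F : SimpleGraph V) (lev : V → ℕ)
    (hadj : ∀ u v, F.Adj u v → lev v = lev u + 1 ∨ lev u = lev v + 1) :
    (upEdges F lev).card = (sideEdges F (fun v => decide (lev v % 2 = 1))).card := by
  classical
  refine Finset.card_bij' (fun e _ => if lev e.1 % 2 = 0 then e else e.swap)
    (fun e _ => if lev e.2 = lev e.1 + 1 then e else e.swap) ?_ ?_ ?_ ?_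
  · rintro ⟨u, v⟩ he
    simp only [upEdges, Finset.mem_filter, Finset.mem_univ, true_and] at he
    simp only [sideEdges, Finset.mem_filter, Finset.mem_univ, true_and]
    split_ifs with h
    · refine ⟨he.1, by simp [h], ?_⟩
      simp only [decide_eq_true_eq]
      have := he.2
      omega
    · refine ⟨he.1.symm, ?_, ?_⟩
      · simp only [Prod.fst_swap, decide_eq_false_iff_not]
        have := he.2
        omega
      · simp only [Prod.snd_swap, decide_eq_true_eq]
        omega
  · rintro ⟨u, v⟩ he
    simp only [sideEdges, Finset.mem_filter, Finset.mem_univ, true_and] at he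
    simp only [upEdges, Finset.mem_filter, Finset.mem_univ, true_and]
    split_ifs with h
    · exact ⟨he.1, h⟩
    · refine ⟨he.1.symm, ?_⟩
      rcases hadj _ _ he.1 with h1 | h1
      · exact absurd h1 h
      · exact h1
  · rintro ⟨u, v⟩ he
    simp only [upEdges, Finset.mem_filter, Finset.mem_univ, true_and] at he
    have h2 := he.2
    by_cases h : lev u % 2 = 0
    · simp [h, h2]
    · simp only [h, if_false, Prod.swap_prod_mk]
      rw [if_neg (by omega)]
  · rintro ⟨u, v⟩ he
    simp only [sideEdges, Finset.mem_filter, Finset.mem_univ, true_and,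
      decide_eq_false_iff_not, decide_eq_true_eq] at he
    obtain ⟨h1, h2, h3⟩ := he
    by_cases h : lev v = lev u + 1
    · simp only [h, if_true]
      rw [if_pos (by omega)]
    · simp only [h, if_false, Prod.swap_prod_mk]
      rw [if_neg (by omega)]

/-- A good levelled graph all of whose edges have length one satisfies the two-sided Sidorenko
inequality. -/
theorem gsid_of_good (F : SimpleGraph V) (lev : V → ℕ) (R : V → V → Prop)
    (hadj : ∀ u v, F.Adj u v → lev v = lev u + 1 ∨ lev u = lev v + 1)
    (hG : Good (upEdges F lev) R lev) : GSid F (fun v => decide (lev v % 2 = 1)) := by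
  classical
  set side : V → Bool := fun v => decide (lev v % 2 = 1) with hside
  set E := sideEdges F side with hE
  have hEmem : ∀ e, e ∈ E ↔ F.Adj e.1 e.2 ∧ side e.1 = false ∧ side e.2 = true := by
    intro e
    simp [hE, sideEdges]
  refine ⟨?_, fun e he => ((hEmem e).1 he).2, ?_⟩
  · intro u v huv h
    simp only [hside, decide_eq_decide] at h
    rcases hadj u v huv with h1 | h1 <;> omega
  intro U _ m W hm hm1 hW
  set p : ℝ := ∑ x, ∑ y, m false x * m true y * W x y with hp
  set B : (V → U) → ℝ := fun z => ∏ e ∈ E, W (z e.1) (z e.2) with hBdef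
  have hB0 : ∀ z, 0 ≤ B z := fun z => Finset.prod_nonneg fun e _ => hW _ _
  have hterm0 : ∀ x y, 0 ≤ m false x * m true y * W x y := fun x y =>
    mul_nonneg (mul_nonneg (hm _ _) (hm _ _)) (hW _ _)
  have hp0 : 0 ≤ p := Finset.sum_nonneg fun x _ => Finset.sum_nonneg fun y _ => hterm0 x y
  have hrhs0 : 0 ≤ ∑ z : V → U, (∏ v, m (side v) (z v)) * B z :=
    Finset.sum_nonneg fun z _ => mul_nonneg (Finset.prod_nonneg fun v _ => hm _ _) (hB0 z)
  rcases hp0.eq_or_lt with hp0' | hppos
  · by_cases hc : E.card = 0
    · have hE0 : E = ∅ := Finset.card_eq_zero.1 hc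
      rw [hc, pow_zero]
      have : ∑ z : V → U, (∏ v, m (side v) (z v)) * B z = 1 := by
        simp only [hBdef, hE0, Finset.prod_empty, mul_one]
        have h3 := (Finset.prod_univ_sum (fun _ : V => (univ : Finset U))
          (fun v x => m (side v) x)).symm
        rw [Fintype.piFinset_univ] at h3
        rw [h3]
        simp [hm1]
      exact this.ge
    · rw [← hp0', zero_pow hc]
      exact hrhs0
  -- the joint law
  set π : U → U → ℝ := fun x y => m false x * m true y * W x y / p with hπdef
  have hπ : ∀ x y, 0 ≤ π x y := fun x y => div_nonneg (hterm0 x y) hp0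
  set a : U → ℝ := fun x => ∑ y, π x y with ha_def
  set b : U → ℝ := fun y => ∑ x, π x y with hb_def
  have ha : ∀ x, 0 ≤ a x := fun x => Finset.sum_nonneg fun y _ => hπ x y
  have hb : ∀ y, 0 ≤ b y := fun y => Finset.sum_nonneg fun x _ => hπ x y
  have hπ1 : ∑ x, ∑ y, π x y = 1 := by
    simp only [hπdef]
    simp_rw [← Finset.sum_div]
    exact div_self hppos.ne'
  have ha1 : ∑ x, a x = 1 := hπ1
  have hb1 : ∑ y, b y = 1 := by
    simp only [hb_def]
    rw [Finset.sum_comm]
    exact hπ1
  have h1 : ∀ x, ∑ y, π x y = a x := fun x => rfl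
  have h2 : ∀ y, ∑ x, π x y = b y := fun y => rfl
  set C := altChain a b π ha hb ha1 hb1 hπ h1 h2 with hC
  obtain ⟨ν, hν⟩ := hG.2.2 U C
  set c : Bool → U → ℝ := fun s => if s = false then a else b with hc
  have hc0 : ∀ s x, 0 ≤ c s x := by
    intro s x
    cases s
    · exact ha x
    · exact hb x
  have hc1 : ∀ s, ∑ x, c s x = 1 := by
    intro s
    cases s
    · exact ha1
    · exact hb1
  have hlaw : ∀ v, C.law (lev v) = c (side v) := by
    intro v
    rw [hC, alt_law]
    simp only [hc, hside, decide_eq_false_iff_not]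
    by_cases h : lev v % 2 = 0
    · rw [if_pos h, if_pos (by omega)]
    · rw [if_neg h, if_neg (by omega)]
  -- the law of an edge
  have hup : ∀ e ∈ E, (e ∈ upEdges F lev ∧ lev e.1 % 2 = 0 ∧ lev e.2 = lev e.1 + 1) ∨
      (e.swap ∈ upEdges F lev ∧ lev e.2 % 2 = 1 ∧ lev e.1 = lev e.2 + 1) := by
    rintro ⟨u, v⟩ he
    obtain ⟨h3, h4, h5⟩ := (hEmem _).1 he
    simp only [hside, decide_eq_false_iff_not, decide_eq_true_eq] at h3 h4 h5
    rcases hadj _ _ h3 with h6 | h6
    · left
      refine ⟨?_, by simp only; omega, h6⟩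
      simp only [upEdges, Finset.mem_filter, Finset.mem_univ, true_and]
      exact ⟨h3, h6⟩
    · right
      refine ⟨?_, h5, h6⟩
      simp only [upEdges, Finset.mem_filter, Finset.mem_univ, true_and, Prod.fst_swap,
        Prod.snd_swap]
      exact ⟨h3.symm, h6⟩
  have hedge : ∀ e ∈ E, ∀ f : U → U → ℝ,
      ∑ z, ν z * f (z e.1) (z e.2) = ∑ x, ∑ y, π x y * f x y := by
    intro e he f
    rcases hup e he with ⟨h3, h4, h5⟩ | ⟨h3, h4, h5⟩
    · have h6 := hν.tied e.1 e.2 (hG.1 _ h3) f
      rw [h5] at h6
      rw [h6]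
      refine Finset.sum_congr rfl fun x _ => Finset.sum_congr rfl fun y _ => ?_
      rw [hC, alt_pair, if_pos h4]
    · have h6 := hν.tied e.2 e.1 (hG.1 _ h3) (fun y x => f x y)
      rw [h5] at h6
      rw [h6, Finset.sum_comm]
      refine Finset.sum_congr rfl fun x _ => Finset.sum_congr rfl fun y _ => ?_
      rw [hC, alt_pair, if_neg (by omega)]
  have hedge_ne : ∀ e ∈ E, ∀ z, ν z ≠ 0 → π (z e.1) (z e.2) ≠ 0 := by
    intro e he z hz
    rcases hup e he with ⟨h3, h4, h5⟩ | ⟨h3, h4, h5⟩
    · have h6 := hν.pair_ne_zero hz (hG.1 _ h3)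
      rw [h5, hC, alt_pair, if_pos h4] at h6
      exact h6
    · have h6 := hν.pair_ne_zero hz (hG.1 _ h3)
      simp only [Prod.fst_swap, Prod.snd_swap] at h6
      rw [h5, hC, alt_pair, if_neg (by omega)] at h6
      exact h6
  -- the vertices of positive degree
  set N : Finset V := E.image Prod.fst ∪ E.image Prod.snd with hN
  set q : V → U → ℝ := fun w => if w ∈ N then m (side w) else c (side w) with hq
  have hq0 : ∀ w x, 0 ≤ q w x := by
    intro w x
    simp only [hq]
    split_ifs
    · exact hm _ _
    · exact hc0 _ _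
  have hsum : ∑ z : V → U, (∏ v, m (side v) (z v)) * B z
      = ∑ z : V → U, (∏ v, q v (z v)) * B z := by
    refine weights_eq N B ?_ (fun v => m (side v)) q ?_ ?_ ?_
    · intro v hv Z y
      simp only [hBdef]
      refine Finset.prod_congr rfl fun e he => ?_
      have h3 : e.1 ≠ v := fun h => hv (by
        rw [hN, ← h]
        exact Finset.mem_union_left _ (Finset.mem_image_of_mem _ he))
      have h4 : e.2 ≠ v := fun h => hv (by
        rw [hN, ← h]
        exact Finset.mem_union_right _ (Finset.mem_image_of_mem _ he))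
      rw [Function.update_of_ne h3, Function.update_of_ne h4]
    · intro v hv
      simp only [hq, if_pos hv]
    · intro v _
      exact hm1 _
    · intro v hv
      simp only [hq, if_neg hv]
      exact hc1 _
  have hcm : ∀ s x, c s x ≠ 0 → m s x ≠ 0 := by
    intro s x h3 h4
    apply h3
    cases s
    · show ∑ y, π x y = 0
      simp only [hπdef, h4, zero_mul, zero_div, Finset.sum_const_zero]
    · show ∑ y, π y x = 0
      simp only [hπdef, h4, zero_mul, mul_zero, zero_div, Finset.sum_const_zero]
  have hsupp : ∀ z, ν z ≠ 0 → (∀ v, q v (z v) ≠ 0) ∧ ∀ e ∈ E, W (z e.1) (z e.2) ≠ 0 := by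
    intro z hz
    refine ⟨fun v => ?_, fun e he h3 => ?_⟩
    · have h3 := hν.law_ne_zero hz v
      rw [hlaw] at h3
      simp only [hq]
      split_ifs
      · exact hcm _ _ h3
      · exact h3
    · apply hedge_ne e he z hz
      simp only [hπdef, h3, mul_zero, zero_div]
  obtain ⟨hgibbs, hSpos⟩ := gibbs_log (p := ν) (q := fun z => (∏ v, q v (z v)) * B z) hν.nonneg
    (fun z => mul_nonneg (Finset.prod_nonneg fun v _ => hq0 _ _) (hB0 z))
    (fun z hz => by
      by_contra hcon
      obtain ⟨h3, h4⟩ := hsupp z hcon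
      rcases mul_eq_zero.1 hz with h5 | h5
      · obtain ⟨v, -, h6⟩ := Finset.prod_eq_zero_iff.1 h5
        exact h3 v h6
      · obtain ⟨e, he, h6⟩ := Finset.prod_eq_zero_iff.1 h5
        exact h4 e he h6) hν.total
  rw [hsum]
  -- relative entropies of the marginals
  set D : Bool → ℝ := fun s => ∑ x, c s x * (Real.log (c s x) - Real.log (m s x)) with hD
  have hD0 : ∀ s, 0 ≤ D s := by
    intro s
    have h3 := gibbs' (p := c s) (q := m s) (hc0 s) (hm s)
      (fun x hx => by
        by_contra h
        exact hcm s x h hx) (hc1 s) (hm1 s).le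
    simp only [hD]
    simp_rw [mul_sub, Finset.sum_sub_distrib]
    linarith
  set I : ℝ := ∑ x, ∑ y, π x y * (Real.log (π x y) - Real.log (a x) - Real.log (b y)) with hI
  have hbound : corr lev C ν ≤ E.card * I := by
    refine hν.bound.trans (le_of_eq ?_)
    rw [Finset.sum_congr rfl (g := fun _ => I), Finset.sum_const, nsmul_eq_mul,
      card_upEdges F lev hadj]
    intro e he
    have h3 : lev e.2 = lev e.1 + 1 := by
      simp only [upEdges, Finset.mem_filter, Finset.mem_univ, true_and] at he
      exact he.2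
    rw [h3, hC, alt_info]
  have hlogW : ∑ x, ∑ y, π x y * Real.log (W x y) = Real.log p + I + D false + D true := by
    have e1 : D false = ∑ x, ∑ y, π x y * (Real.log (a x) - Real.log (m false x)) := by
      simp only [hD]
      refine Finset.sum_congr rfl fun x _ => ?_
      rw [← Finset.sum_mul]
      rfl
    have e2 : D true = ∑ x, ∑ y, π x y * (Real.log (b y) - Real.log (m true y)) := by
      simp only [hD]
      rw [Finset.sum_comm]
      refine Finset.sum_congr rfl fun x _ => ?_
      rw [← Finset.sum_mul]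
      rfl
    have e3 : Real.log p = ∑ x, ∑ y, π x y * Real.log p := by
      simp_rw [← Finset.sum_mul]
      rw [hπ1, one_mul]
    rw [e1, e2, e3, hI]
    simp_rw [← Finset.sum_add_distrib]
    refine Finset.sum_congr rfl fun x _ => Finset.sum_congr rfl fun y _ => ?_
    by_cases h3 : π x y = 0
    · rw [h3]; ring
    have h4 : m false x * m true y * W x y ≠ 0 := fun h => h3 (by
      simp only [hπdef]; rw [h, zero_div])
    have h5 : W x y ≠ 0 := right_ne_zero_of_mul h4
    have h6 : m false x ≠ 0 := left_ne_zero_of_mul (left_ne_zero_of_mul h4)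
    have h7 : m true y ≠ 0 := right_ne_zero_of_mul (left_ne_zero_of_mul h4)
    have h8 : Real.log (π x y) = Real.log (m false x) + Real.log (m true y) + Real.log (W x y)
        - Real.log p := by
      simp only [hπdef]
      rw [Real.log_div h4 hppos.ne', Real.log_mul (mul_ne_zero h6 h7) h5, Real.log_mul h6 h7]
    rw [h8]
    ring
  -- the main computation
  have hmain : (E.card : ℝ) * Real.log p
      ≤ ∑ z, ν z * (Real.log ((∏ v, q v (z v)) * B z) - Real.log (ν z)) := by
    have h3 : ∀ z, ν z * (Real.log ((∏ v, q v (z v)) * B z) - Real.log (ν z))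
        = ∑ v, ν z * (Real.log (q v (z v)) - Real.log (c (side v) (z v)))
          + ∑ e ∈ E, ν z * Real.log (W (z e.1) (z e.2))
          - ν z * (Real.log (ν z) - ∑ v, Real.log (C.law (lev v) (z v))) := by
      intro z
      by_cases hz : ν z = 0
      · simp [hz]
      obtain ⟨h4, h5⟩ := hsupp z hz
      rw [Real.log_mul (Finset.prod_ne_zero_iff.2 fun v _ => h4 v)
        (Finset.prod_ne_zero_iff.2 h5), Real.log_prod (fun v _ => h4 v),
        Real.log_prod h5, ← Finset.mul_sum, ← Finset.mul_sum]
      simp_rw [hlaw, Finset.sum_sub_distrib]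
      ring
    simp_rw [h3]
    rw [Finset.sum_sub_distrib, Finset.sum_add_distrib, Finset.sum_comm,
      Finset.sum_comm (t := E)]
    have h4 : ∑ e ∈ E, ∑ z, ν z * Real.log (W (z e.1) (z e.2))
        = E.card * (Real.log p + I + D false + D true) := by
      rw [Finset.sum_congr rfl (g := fun _ => Real.log p + I + D false + D true),
        Finset.sum_const, nsmul_eq_mul]
      intro e he
      rw [hedge e he (fun x y => Real.log (W x y)), hlogW]
    have h5 : ∀ v, ∑ z, ν z * (Real.log (q v (z v)) - Real.log (c (side v) (z v)))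
        = - (if v ∈ N then D (side v) else 0) := by
      intro v
      have h6 := hν.vertex v (fun x => Real.log (q v x) - Real.log (c (side v) x))
      rw [h6, hlaw]
      split_ifs with h7
      · simp only [hD, hq, if_pos h7]
        rw [← Finset.sum_neg_distrib]
        refine Finset.sum_congr rfl fun x _ => ?_
        ring
      · simp only [hq, if_neg h7, sub_self, mul_zero, Finset.sum_const_zero, neg_zero]
    have h6 : ∑ v, (if v ∈ N then D (side v) else 0) ≤ E.card * (D false + D true) := by
      rw [← Finset.sum_filter, Finset.filter_mem_eq_inter, Finset.univ_inter]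
      calc ∑ v ∈ N, D (side v) ≤ ∑ v ∈ E.image Prod.fst, D (side v)
            + ∑ v ∈ E.image Prod.snd, D (side v) := by
            rw [hN, ← Finset.sum_union_inter]
            have : 0 ≤ ∑ v ∈ E.image Prod.fst ∩ E.image Prod.snd, D (side v) :=
              Finset.sum_nonneg fun v _ => hD0 _
            linarith
        _ ≤ ∑ e ∈ E, D (side e.1) + ∑ e ∈ E, D (side e.2) :=
            add_le_add (sum_image_le' E Prod.fst (fun v => D (side v)) fun v => hD0 _)
              (sum_image_le' E Prod.snd (fun v => D (side v)) fun v => hD0 _)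
        _ = E.card * (D false + D true) := by
            have h8 : ∑ e ∈ E, D (side e.1) = E.card * D false := by
              rw [← nsmul_eq_mul, ← Finset.sum_const]
              exact Finset.sum_congr rfl fun e he => by rw [((hEmem e).1 he).2.1]
            have h9 : ∑ e ∈ E, D (side e.2) = E.card * D true := by
              rw [← nsmul_eq_mul, ← Finset.sum_const]
              exact Finset.sum_congr rfl fun e he => by rw [((hEmem e).1 he).2.2]
            rw [h8, h9]
            ring
    have h7 : ∑ z, ν z * (Real.log (ν z) - ∑ v, Real.log (C.law (lev v) (z v))) ≤ E.card * I :=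
      hbound
    simp_rw [h5]
    rw [h4, Finset.sum_neg_distrib]
    linarith
  have hfin := hmain.trans hgibbs
  rw [← Real.log_pow] at hfin
  exact (Real.log_le_log_iff (pow_pos hppos _) hSpos).1 hfin

end final

section graphs

variable {V : Type} [Fintype V] [DecidableEq V]

omit [DecidableEq V] in
theorem card_sideEdges (H : SimpleGraph V) (side : V → Bool)
    (hs : ∀ u v, H.Adj u v → side u ≠ side v) :
    (sideEdges H side).card = Nat.card H.edgeSet := by
  classical
  rw [Nat.card_eq_fintype_card, ← SimpleGraph.edgeFinset_card]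
  refine Finset.card_bij (fun e _ => s(e.1, e.2)) ?_ ?_ ?_
  · rintro ⟨u, v⟩ he
    simp only [sideEdges, Finset.mem_filter, Finset.mem_univ, true_and] at he
    rw [SimpleGraph.mem_edgeFinset]
    exact he.1
  · rintro ⟨u, v⟩ he ⟨u', v'⟩ he' h
    simp only [sideEdges, Finset.mem_filter, Finset.mem_univ, true_and] at he he'
    rcases Sym2.eq_iff.1 h with ⟨h1, h2⟩ | ⟨h1, h2⟩
    · exact Prod.ext h1 h2
    · simp only at h1 h2
      have h3 := he.2.1
      rw [h1, he'.2.2] at h3
      exact absurd h3 (by simp)
  · intro e he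
    induction e using Sym2.inductionOn with
    | hf u v =>
      rw [SimpleGraph.mem_edgeFinset, SimpleGraph.mem_edgeSet] at he
      have h1 := hs u v he
      cases hu : side u
      · cases hv : side v
        · exact absurd (hu.trans hv.symm) h1
        · exact ⟨(u, v), by simp [sideEdges, he, hu, hv], rfl⟩
      · cases hv : side v
        · exact ⟨(v, u), by simp [sideEdges, he.symm, hu, hv], Sym2.eq_swap⟩
        · exact absurd (hu.trans hv.symm) h1

/-- The two-sided Sidorenko inequality gives the Sidorenko inequality for finite graphs. -/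
theorem sidorenko_of_gsid {H : SimpleGraph V} {side : V → Bool} (h : GSid H side) {U : Type*}
    [Finite U] [Nonempty U] (G : SimpleGraph U) :
    edgeDensity G ^ Nat.card H.edgeSet ≤ homDensity H G := by
  classical
  have := Fintype.ofFinite U
  set n := Fintype.card U with hn
  have hn0 : (0 : ℝ) < n := by
    rw [hn]
    exact_mod_cast Fintype.card_pos
  let φ : U ≃ Fin n := Fintype.equivFin U
  let W : Fin n → Fin n → ℝ := fun i j => if G.Adj (φ.symm i) (φ.symm j) then 1 else 0
  have key := h.2.2 (Fin n) (fun _ _ => 1 / n) W (fun _ _ => by positivity)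
    (fun _ => by simp [hn0.ne']) (fun i j => by simp only [W]; split_ifs <;> norm_num)
  rw [card_sideEdges H side h.1] at key
  have hL : ∑ i, ∑ j, 1 / (n : ℝ) * (1 / n) * W i j = edgeDensity G := by
    have h1 : ∑ i, ∑ j, W i j = 2 * (Nat.card G.edgeSet : ℝ) := by
      have h2 : ∑ i, ∑ j, W i j = ∑ u, ∑ v, (if G.Adj u v then (1 : ℝ) else 0) := by
        rw [← Equiv.sum_comp φ]
        refine Finset.sum_congr rfl fun u _ => ?_
        rw [← Equiv.sum_comp φ]
        refine Finset.sum_congr rfl fun v _ => ?_
        simp [W]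
      rw [h2, Nat.card_eq_fintype_card, ← SimpleGraph.edgeFinset_card]
      have h3 := G.sum_degrees_eq_twice_card_edges
      have h4 : ((∑ u, G.degree u : ℕ) : ℝ) = ((2 * G.edgeFinset.card : ℕ) : ℝ) := by
        rw [h3]
      push_cast at h4
      rw [← h4]
      refine Finset.sum_congr rfl fun u _ => ?_
      rw [Finset.sum_boole, ← SimpleGraph.card_neighborFinset_eq_degree]
      congr 2
      ext v
      simp
    simp_rw [← Finset.mul_sum]
    rw [h1]
    unfold edgeDensity
    rw [Nat.card_eq_fintype_card (α := U), ← hn]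
    field_simp
  have hR : ∑ z : V → Fin n, (∏ _v : V, 1 / (n : ℝ)) * ∏ e ∈ sideEdges H side, W (z e.1) (z e.2)
      = homDensity H G := by
    have h1 : ∀ z : V → Fin n, ∏ e ∈ sideEdges H side, W (z e.1) (z e.2)
        = if (∀ e ∈ sideEdges H side, G.Adj (φ.symm (z e.1)) (φ.symm (z e.2))) then 1 else 0 := by
      intro z
      simp only [W]
      rw [Finset.prod_ite_zero]
      simp
    simp_rw [h1, ← Finset.mul_sum]
    rw [Finset.sum_boole, Finset.prod_const, Finset.card_univ]
    unfold homDensity
    rw [Nat.card_eq_fintype_card (α := U), ← hn, Nat.card_eq_fintype_card (α := V)]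
    have h2 : Nat.card (H →g G) = (univ.filter fun z : V → Fin n =>
        ∀ e ∈ sideEdges H side, G.Adj (φ.symm (z e.1)) (φ.symm (z e.2))).card := by
      rw [← Fintype.card_subtype, ← Nat.card_eq_fintype_card]
      refine Nat.card_congr ⟨fun f => ⟨fun v => φ (f v), ?_⟩, fun z => ⟨fun v => φ.symm (z.1 v), ?_⟩,
        ?_, ?_⟩
      · intro e he
        simp only [sideEdges, Finset.mem_filter, Finset.mem_univ, true_and] at he
        simpa using f.map_rel he.1
      · intro u v huv
        have h3 := h.1 u v huv
        cases hu : side u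
        · cases hv : side v
          · exact absurd (hu.trans hv.symm) h3
          · exact z.2 (u, v) (by simp [sideEdges, huv, hu, hv])
        · cases hv : side v
          · exact (z.2 (v, u) (by simp [sideEdges, huv.symm, hu, hv])).symm
          · exact absurd (hu.trans hv.symm) h3
      · intro f
        ext v
        simp
      · intro z
        ext v
        simp
    rw [h2, one_div, inv_pow]
    ring
  rw [hL, hR] at key
  exact key

end graphs

end Vale.Agent.P050.Lev
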