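import Vale.Agent.P050.Lev.Glue
import Vale.Agent.P050.Lev.Final

namespace Vale.Agent.P050.Lev

open Finset

variable {V : Type} [Fintype V] [DecidableEq V]

theorem good_empty {V : Type} [Fintype V] [DecidableEq V] [IsEmpty V] (E : Finset (V × V))
    (R : V → V → Prop) (lev : V → ℕ) : Good E R lev := by
  refine ⟨fun e => (IsEmpty.false e.1).elim, fun u => (IsEmpty.false u).elim, ?_⟩
  intro U _ C
  refine ⟨fun _ => 1, fun _ => zero_le_one, ?_, fun v => (IsEmpty.false v).elim,
    fun u => (IsEmpty.false u).elim, ?_⟩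
  · simp
  · have hE : E = ∅ := Finset.eq_empty_of_isEmpty E
    subst hE
    simp [corr]

/-- the union of the first `i` pieces -/
def headU {k : ℕ} (P : Fin k → Finset V) (i : ℕ) : Finset V :=
  (univ.filter fun j : Fin k => (j : ℕ) < i).biUnion P

omit [Fintype V] in
theorem mem_headU {k : ℕ} {P : Fin k → Finset V} {i : ℕ} {v : V} :
    v ∈ headU P i ↔ ∃ j : Fin k, (j : ℕ) < i ∧ v ∈ P j := by
  simp [headU]

/-- the edges of the first `i` pieces -/
noncomputable def headE {k : ℕ} (H : SimpleGraph V) (lev : V → ℕ) (P : Fin k → Finset V) (i : ℕ) :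
    Finset (V × V) :=
  (univ.filter fun j : Fin k => (j : ℕ) < i).biUnion fun j => upSet H lev (P j)

theorem mem_headE {k : ℕ} {H : SimpleGraph V} {lev : V → ℕ} {P : Fin k → Finset V} {i : ℕ}
    {e : V × V} : e ∈ headE H lev P i ↔ ∃ j : Fin k, (j : ℕ) < i ∧ e ∈ upSet H lev (P j) := by
  simp [headE]

theorem goodOn_pieces {k : ℕ} (H : SimpleGraph V) (lev : V → ℕ) (side : V → Bool)
    (hside : ∀ u v, H.Adj u v → side u ≠ side v)
    (P : Fin k → Finset V)
    (hadj : ∀ i, ∀ u ∈ P i, ∀ v ∈ P i, H.Adj u v → lev v = lev u + 1 ∨ lev u = lev v + 1)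
    (hgood : ∀ i, GoodOn (P i) (upSet H lev (P i)) (fun a b => (a, b) ∈ upSet H lev (P i)) lev)
    (hglue : ∀ i, ∀ u ∈ P i, ∀ v ∈ P i, u ≠ v → (∃ j < i, u ∈ P j) → (∃ j < i, v ∈ P j) →
      H.Adj u v ∧ ∃ j < i, u ∈ P j ∧ v ∈ P j) (i : ℕ) (hi : i ≤ k) :
    GoodOn (headU P i) (headE H lev P i) (fun a b => (a, b) ∈ headE H lev P i) lev := by
  induction i with
  | zero =>
    have h0 : headU P 0 = ∅ := by ext v; simp [mem_headU]
    have : IsEmpty {v // v ∈ headU P 0} := by rw [h0]; infer_instance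
    exact good_empty _ _ _
  | succ i ih =>
    have hik : i < k := hi
    have ih' := ih hik.le
    set a : Fin k := ⟨i, hik⟩ with ha
    have hU : headU P (i + 1) = headU P i ∪ P a := by
      ext v
      simp only [mem_headU, Finset.mem_union]
      constructor
      · rintro ⟨j, hj, hv⟩
        rcases Nat.lt_succ_iff_lt_or_eq.1 hj with h | h
        · exact Or.inl ⟨j, h, hv⟩
        · right
          have : j = a := Fin.ext h
          rw [← this]; exact hv
      · rintro (⟨j, hj, hv⟩ | hv)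
        · exact ⟨j, by omega, hv⟩
        · exact ⟨a, by simp [ha], hv⟩
    have hE : headE H lev P (i + 1) = headE H lev P i ∪ upSet H lev (P a) := by
      ext v
      simp only [mem_headE, Finset.mem_union]
      constructor
      · rintro ⟨j, hj, hv⟩
        rcases Nat.lt_succ_iff_lt_or_eq.1 hj with h | h
        · exact Or.inl ⟨j, h, hv⟩
        · right
          have : j = a := Fin.ext h
          rw [← this]; exact hv
      · rintro (⟨j, hj, hv⟩ | hv)
        · exact ⟨j, by omega, hv⟩
        · exact ⟨a, by simp [ha], hv⟩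
    have hlt : ∀ u, (u ∈ headU P i ↔ ∃ j < a, u ∈ P j) := by
      intro u
      rw [mem_headU]
      exact ⟨fun ⟨j, hj, h⟩ => ⟨j, hj, h⟩, fun ⟨j, hj, h⟩ => ⟨j, hj, h⟩⟩
    have hadj2 : ∀ u ∈ headU P i ∩ P a, ∀ v ∈ headU P i ∩ P a, u ≠ v →
        H.Adj u v ∧ ∃ j < a, u ∈ P j ∧ v ∈ P j := by
      intro u hu v hv huv
      rw [Finset.mem_inter] at hu hv
      exact hglue a u hu.2 v hv.2 huv ((hlt u).1 hu.1) ((hlt v).1 hv.1)
    have key := GoodOn.union ih' (hgood a) (fun e he => by
        obtain ⟨j, hj, h⟩ := mem_headE.1 he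
        rw [mem_upSet] at h
        exact ⟨mem_headU.2 ⟨j, hj, h.2.2.1⟩, mem_headU.2 ⟨j, hj, h.2.2.2⟩⟩)
      (fun e he => by rw [mem_upSet] at he; exact ⟨he.2.2.1, he.2.2.2⟩)
      (fun u hu v hv huv => by
        obtain ⟨h1, j, hj, hju, hjv⟩ := hadj2 u hu v hv huv
        rw [Finset.mem_inter] at hu hv
        rcases hadj j u hju v hjv h1 with h | h
        · exact Or.inl ⟨mem_upSet.2 ⟨h1, h, hu.2, hv.2⟩,
            mem_headE.2 ⟨j, hj, mem_upSet.2 ⟨h1, h, hju, hjv⟩⟩⟩
        · exact Or.inr ⟨mem_upSet.2 ⟨h1.symm, h, hv.2, hu.2⟩,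
            mem_headE.2 ⟨j, hj, mem_upSet.2 ⟨h1.symm, h, hjv, hju⟩⟩⟩)
      (by
        by_contra hcon
        push Not at hcon
        obtain ⟨x, y, z, hx, hy, hz, hxy, hxz, hyz⟩ := Finset.two_lt_card_iff.1 hcon
        have h1 := hside _ _ (hadj2 x hx y hy hxy).1
        have h2 := hside _ _ (hadj2 x hx z hz hxz).1
        have h3 := hside _ _ (hadj2 y hy z hz hyz).1
        cases h4 : side x <;> cases h5 : side y <;> cases h6 : side z <;> simp_all)
    rw [hU, hE]
    refine Good.mono key ?_ ?_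
    · intro u v huv
      rcases Finset.mem_union.1 huv with h | h
      · left
        obtain ⟨j, hj, h'⟩ := mem_headE.1 h
        rw [mem_upSet] at h'
        exact ⟨mem_headU.2 ⟨j, hj, h'.2.2.1⟩, mem_headU.2 ⟨j, hj, h'.2.2.2⟩, h⟩
      · right
        have h' := mem_upSet.1 h
        exact ⟨h'.2.2.1, h'.2.2.2, h⟩
    · intro e he
      simp only [resE, Finset.mem_filter, Finset.mem_univ, true_and] at he
      exact he

/-- the vertices outside the root and the clones -/
def rest (r : V) (B : Finset V) : Finset V := univ.filter fun v => v ≠ r ∧ v ∉ B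

theorem mem_rest {r : V} {B : Finset V} {v : V} : v ∈ rest r B ↔ v ≠ r ∧ v ∉ B := by
  simp [rest]

/-- the parts of the vertex set: root, rest, clones -/
def glueMap (r : V) (B : Finset V) : Option {v // v ∈ rest r B} ⊕ {b // b ∈ B} → V
  | Sum.inl none => r
  | Sum.inl (some w) => w
  | Sum.inr b => b

theorem glueMap_bijective {r : V} {B : Finset V} (hr : r ∉ B) :
    Function.Bijective (glueMap r B) := by
  constructor
  · rintro ((_ | ⟨a, ha⟩) | ⟨a, ha⟩) ((_ | ⟨b, hb⟩) | ⟨b, hb⟩) h
    · rfl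
    · exact absurd h.symm (mem_rest.1 hb).1
    · simp only [glueMap] at h; subst h; exact absurd hb hr
    · exact absurd h (mem_rest.1 ha).1
    · simp only [glueMap] at h; subst h; rfl
    · simp only [glueMap] at h; subst h; exact absurd hb (mem_rest.1 ha).2
    · simp only [glueMap] at h; subst h; exact absurd ha hr
    · simp only [glueMap] at h; subst h; exact absurd ha (mem_rest.1 hb).2
    · simp only [glueMap] at h; subst h; rfl
  · intro v
    by_cases h1 : v = r
    · exact ⟨Sum.inl none, h1.symm⟩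
    · by_cases h2 : v ∈ B
      · exact ⟨Sum.inr ⟨v, h2⟩, rfl⟩
      · exact ⟨Sum.inl (some ⟨v, mem_rest.2 ⟨h1, h2⟩⟩), rfl⟩

/-- the levels outside the root, shifted down by one -/
noncomputable def lowLev (H : SimpleGraph V) (r : V) (v : V) : ℕ := H.dist r v - 1

/-- the final levels: clones of the root at level `0`, all other vertices at their distance -/
noncomputable def topLev (H : SimpleGraph V) (r : V) (B : Finset V) (v : V) : ℕ :=
  if v ∈ B then 0 else H.dist r v

open Classical in
/-- the neighbours of the root -/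
noncomputable def nbrD (H : SimpleGraph V) (r : V) (B : Finset V) :
    Finset {v // v ∈ rest r B} := univ.filter fun v => H.Adj r v

open Classical in
/-- the neighbours of the clones -/
noncomputable def nbrN (H : SimpleGraph V) (r : V) (B : Finset V) (j : {b // b ∈ B}) :
    Finset (Option {v // v ∈ rest r B}) :=
  univ.filter fun o => ∃ w : {v // v ∈ rest r B}, o = some w ∧ H.Adj j w

theorem mem_nbrD {H : SimpleGraph V} {r : V} {B : Finset V} {v : {v // v ∈ rest r B}} :
    v ∈ nbrD H r B ↔ H.Adj r v := by simp [nbrD]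

theorem mem_nbrN {H : SimpleGraph V} {r : V} {B : Finset V} {j : {b // b ∈ B}}
    {o : Option {v // v ∈ rest r B}} :
    o ∈ nbrN H r B j ↔ ∃ w : {v // v ∈ rest r B}, o = some w ∧ H.Adj j w := by simp [nbrN]

theorem mem_upEdges {H : SimpleGraph V} {lev : V → ℕ} {a b : V} :
    (a, b) ∈ upEdges H lev ↔ H.Adj a b ∧ lev b = lev a + 1 := by simp [upEdges]

theorem mem_resE {P : Finset V} {E : Finset (V × V)} {a b : {v // v ∈ P}} :
    (a, b) ∈ resE P E ↔ ((a : V), (b : V)) ∈ E := by simp [resE]

theorem mem_coneEdges_none_some {W : Type} [Fintype W] [DecidableEq W] {E : Finset (W × W)}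
    {D : Finset W} {w : W} : (none, some w) ∈ coneEdges E D ↔ w ∈ D := by
  simp [coneEdges]

theorem mem_coneEdges_some_some {W : Type} [Fintype W] [DecidableEq W] {E : Finset (W × W)}
    {D : Finset W} {a b : W} : (some a, some b) ∈ coneEdges E D ↔ (a, b) ∈ E := by
  simp [coneEdges]

theorem not_mem_coneEdges_none {W : Type} [Fintype W] [DecidableEq W] {E : Finset (W × W)}
    {D : Finset W} {a : Option W} : (a, none) ∉ coneEdges E D := by
  simp [coneEdges]

section

variable {H : SimpleGraph V} {r : V} {B : Finset V}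

theorem not_adj_clone_root (hB : ∀ b ∈ B, ∀ v, H.Adj b v → H.Adj r v) {b : V} (hb : b ∈ B) :
    ¬ H.Adj b r := fun h => H.loopless.irrefl r (hB b hb r h)

theorem not_adj_clones (hB : ∀ b ∈ B, ∀ v, H.Adj b v → H.Adj r v) {b c : V} (hb : b ∈ B)
    (hc : c ∈ B) : ¬ H.Adj b c := fun h => not_adj_clone_root hB hc (hB b hb c h).symm

theorem dist_nbr {v : V} (h : H.Adj r v) : H.dist r v = 1 := SimpleGraph.dist_eq_one_iff_adj.2 h

theorem topLev_root (hrB : r ∉ B) : topLev H r B r = 0 := by simp [topLev]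

theorem topLev_clone {b : V} (hb : b ∈ B) : topLev H r B b = 0 := by simp [topLev, hb]

theorem topLev_rest (hH : H.Connected) (w : {v // v ∈ rest r B}) :
    topLev H r B w = lowLev H r w + 1 := by
  have hw := mem_rest.1 w.2
  have := hH.pos_dist_of_ne (Ne.symm hw.1)
  simp only [topLev, lowLev, if_neg hw.2]; omega

theorem rel_iff (hH : H.Connected) (hrB : r ∉ B) (hB : ∀ b ∈ B, ∀ v, H.Adj b v → H.Adj r v)
    (a b : Option {v // v ∈ rest r B} ⊕ {b // b ∈ B}) :
    (glueMap r B a, glueMap r B b) ∈ upEdges H (topLev H r B) ↔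
      cloneRel (fun a b => (a, b) ∈
        coneEdges (resE (rest r B) (upSet H (lowLev H r) (rest r B))) (nbrD H r B))
        (coneLev fun v : {v // v ∈ rest r B} => lowLev H r v) none (nbrN H r B) a b := by
  rw [mem_upEdges]
  obtain (_ | w) | b1 := a <;> obtain (_ | w') | b2 := b
  · simp only [glueMap, cloneRel, not_mem_coneEdges_none, iff_false]
    rintro ⟨h, -⟩; exact H.loopless.irrefl r h
  · simp only [glueMap, cloneRel, mem_coneEdges_none_some, mem_nbrD]
    refine ⟨fun h => h.1, fun h => ⟨h, ?_⟩⟩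
    rw [topLev_root hrB, topLev_rest hH]
    have := dist_nbr h
    simp only [lowLev]; omega
  · simp only [glueMap, cloneRel]
    constructor
    · rintro ⟨-, h⟩; rw [topLev_clone b2.2] at h; omega
    · rintro ⟨-, h⟩; simp [coneLev] at h
  · simp only [glueMap, cloneRel, not_mem_coneEdges_none, iff_false]
    rintro ⟨-, h⟩; rw [topLev_root hrB] at h; omega
  · simp only [glueMap, cloneRel, mem_coneEdges_some_some, mem_resE, mem_upSet]
    rw [topLev_rest hH, topLev_rest hH]
    constructor
    · rintro ⟨h1, h2⟩; exact ⟨h1, by omega, w.2, w'.2⟩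
    · rintro ⟨h1, h2, -, -⟩; exact ⟨h1, by omega⟩
  · simp only [glueMap, cloneRel]
    constructor
    · rintro ⟨-, h⟩; rw [topLev_clone b2.2] at h; omega
    · rintro ⟨-, h⟩; simp [coneLev] at h
  · simp only [glueMap, cloneRel, mem_nbrN]
    constructor
    · rintro ⟨h1, -⟩; exact absurd h1 (not_adj_clone_root hB b1.2)
    · rintro ⟨⟨w, h, -⟩, -⟩; simp at h
  · simp only [glueMap, cloneRel, mem_nbrN]
    rw [topLev_clone b1.2, topLev_rest hH]
    constructor
    · rintro ⟨h1, -⟩; exact ⟨⟨w', rfl, h1⟩, by simp [coneLev]⟩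
    · rintro ⟨⟨w, h, h1⟩, -⟩
      simp only [Option.some.injEq] at h
      subst h
      refine ⟨h1, ?_⟩
      have := dist_nbr (hB _ b1.2 _ h1)
      simp only [lowLev]; omega
  · simp only [glueMap, cloneRel, iff_false]
    rintro ⟨h, -⟩; exact not_adj_clones hB b1.2 b2.2 h

theorem topLev_adj (hH : H.Connected) {side : V → Bool}
    (hside : ∀ u v, H.Adj u v → side u ≠ side v) (hB : ∀ b ∈ B, ∀ v, H.Adj b v → H.Adj r v)
    (u v : V) (h : H.Adj u v) :
    topLev H r B v = topLev H r B u + 1 ∨ topLev H r B u = topLev H r B v + 1 := by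
  by_cases hu : u ∈ B
  · have hv : v ∉ B := fun hv => not_adj_clones hB hu hv h
    have h1 := dist_nbr (hB _ hu _ h)
    left
    simp only [topLev, if_pos hu, if_neg hv]; omega
  · by_cases hv : v ∈ B
    · have h1 := dist_nbr (hB _ hv _ h.symm)
      right
      simp only [topLev, if_pos hv, if_neg hu]; omega
    · have := dist_adj hH hside r h
      simp only [topLev, if_neg hu, if_neg hv]; omega

theorem side_topLev (hH : H.Connected) {side : V → Bool}
    (hside : ∀ u v, H.Adj u v → side u ≠ side v) (hrB : r ∉ B)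
    (hB : ∀ b ∈ B, ∀ v, H.Adj b v → H.Adj r v) (v : V) :
    side v = if topLev H r B v % 2 = 1 then !side r else side r := by
  by_cases hv : v ∈ B
  · have hvr : v ≠ r := fun h => hrB (h ▸ hv)
    obtain ⟨u, hu1, -⟩ := exists_down hH r hvr
    have h1 := hside _ _ (hB v hv u hu1.symm)
    have h2 := hside _ _ hu1
    rw [if_neg (by rw [topLev_clone hv]; norm_num)]
    revert h1 h2
    cases side v <;> cases side u <;> cases side r <;> simp
  · have h1 := side_dist hH hside r v
    have h2 : topLev H r B v = H.dist r v := by simp only [topLev, if_neg hv]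
    rw [h1, h2]
    by_cases he : Even (H.dist r v)
    · rw [if_pos he, if_neg (by rw [Nat.even_iff] at he; omega)]
    · rw [if_neg he, if_pos (by rw [Nat.even_iff] at he; omega)]

/-- each piece is good -/
theorem piece_good (hH : H.Connected) {side : V → Bool}
    (hside : ∀ u v, H.Adj u v → side u ≠ side v) (P : Finset V) (hrP : r ∉ P)
    (hdist : ∀ u ∈ P, ∀ v ∈ P, H.dist r u ≤ H.dist r v + 1)
    (hsid : GSid (H.induce (P : Set V)) fun v => side v) :
    GoodOn P (upSet H (lowLev H r) P) (fun a b => (a, b) ∈ upSet H (lowLev H r) P)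
      (lowLev H r) := by
  have hpos : ∀ v ∈ P, 0 < H.dist r v := fun v hv =>
    hH.pos_dist_of_ne (fun h => hrP (h ▸ hv))
  by_cases hne : P.Nonempty
  · obtain ⟨v0, hv0, hmin⟩ := Finset.exists_min_image P (lowLev H r) hne
    refine goodOn_piece H (lowLev H r) side P (lowLev H r v0)
      (if Even (lowLev H r v0 + 1) then side r else !side r) ?_ hsid
    intro v hv
    have h1 := hmin v hv
    have h2 := hdist v hv v0 hv0
    have h3 := hpos v hv
    have h4 := hpos v0 hv0
    have h5 := side_dist hH hside r v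
    have h6 : H.dist r v = lowLev H r v + 1 := by simp only [lowLev]; omega
    have h7 : lowLev H r v = lowLev H r v0 ∨ lowLev H r v = lowLev H r v0 + 1 := by
      simp only [lowLev] at h1 ⊢; omega
    rcases h7 with h | h
    · left; refine ⟨h, ?_⟩
      rw [h5, h6, h]
    · right; refine ⟨h, ?_⟩
      rw [h5, h6, h]
      by_cases he : Even (lowLev H r v0 + 1)
      · rw [if_pos he, if_neg (by rw [Nat.even_add_one]; simpa using he)]
      · rw [if_neg he, if_pos (by rw [Nat.even_add_one]; exact he), Bool.not_not]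
  · have : IsEmpty {v // v ∈ P} := ⟨fun v => hne ⟨v.1, v.2⟩⟩
    exact good_empty _ _ _

/-- the rest of the graph is good -/
theorem rest_good (hH : H.Connected) {side : V → Bool}
    (hside : ∀ u v, H.Adj u v → side u ≠ side v) {k : ℕ} (P : Fin k → Finset V)
    (hrP : ∀ i, r ∉ P i) (hBP : ∀ i, ∀ b ∈ B, b ∉ P i)
    (hcov : ∀ v, v ≠ r → v ∉ B → ∃ i, v ∈ P i)
    (hedge : ∀ u v, H.Adj u v → u ≠ r → v ≠ r → u ∉ B → v ∉ B → ∃ i, u ∈ P i ∧ v ∈ P i)
    (hdist : ∀ i, ∀ u ∈ P i, ∀ v ∈ P i, H.dist r u ≤ H.dist r v + 1)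
    (hglue : ∀ i, ∀ u ∈ P i, ∀ v ∈ P i, u ≠ v → (∃ j < i, u ∈ P j) → (∃ j < i, v ∈ P j) →
      H.Adj u v ∧ ∃ j < i, u ∈ P j ∧ v ∈ P j)
    (hsid : ∀ i, GSid (H.induce (P i : Set V)) fun v => side v) :
    GoodOn (rest r B) (upSet H (lowLev H r) (rest r B))
      (fun a b => (a, b) ∈ upSet H (lowLev H r) (rest r B)) (lowLev H r) := by
  have hPr : ∀ i, ∀ v ∈ P i, v ≠ r := fun i v hv h => hrP i (h ▸ hv)
  have hW := goodOn_pieces H (lowLev H r) side hside P
    (fun i u hu v hv h => by
      have := dist_adj hH hside r h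
      have h1 := hH.pos_dist_of_ne (Ne.symm (hPr i u hu))
      have h2 := hH.pos_dist_of_ne (Ne.symm (hPr i v hv))
      simp only [lowLev]; omega)
    (fun i => piece_good hH hside (P i) (hrP i) (hdist i) (hsid i)) hglue k le_rfl
  have hU : headU P k = rest r B := by
    ext v
    rw [mem_headU, mem_rest]
    constructor
    · rintro ⟨j, -, hv⟩
      exact ⟨hPr j v hv, fun h => hBP j v h hv⟩
    · rintro ⟨h1, h2⟩
      obtain ⟨i, hi⟩ := hcov v h1 h2
      exact ⟨i, i.2, hi⟩
  have hE : headE H (lowLev H r) P k = upSet H (lowLev H r) (rest r B) := by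
    ext e
    rw [mem_headE, mem_upSet]
    constructor
    · rintro ⟨j, -, h⟩
      rw [mem_upSet] at h
      refine ⟨h.1, h.2.1, ?_, ?_⟩
      · rw [← hU]; exact mem_headU.2 ⟨j, j.2, h.2.2.1⟩
      · rw [← hU]; exact mem_headU.2 ⟨j, j.2, h.2.2.2⟩
    · rintro ⟨h1, h2, h3, h4⟩
      rw [mem_rest] at h3 h4
      obtain ⟨i, hi1, hi2⟩ := hedge _ _ h1 h3.1 h4.1 h3.2 h4.2
      exact ⟨i, i.2, mem_upSet.2 ⟨h1, h2, hi1, hi2⟩⟩
  rw [hU, hE] at hW
  exact hW

/-- cone over the rest -/
theorem cone_good (hH : H.Connected)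
    (hB : ∀ b ∈ B, ∀ v, H.Adj b v → H.Adj r v)
    (hW : GoodOn (rest r B) (upSet H (lowLev H r) (rest r B))
      (fun a b => (a, b) ∈ upSet H (lowLev H r) (rest r B)) (lowLev H r)) :
    Good (coneEdges (resE (rest r B) (upSet H (lowLev H r) (rest r B))) (nbrD H r B))
      (coneRel fun a b : {v // v ∈ rest r B} =>
        ((a : V), (b : V)) ∈ upSet H (lowLev H r) (rest r B))
      (coneLev fun v : {v // v ∈ rest r B} => lowLev H r v) := by
  unfold GoodOn at hW
  refine hW.cone (nbrD H r B) fun v => ?_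
  have hv := mem_rest.1 v.2
  obtain ⟨u, hu1, hu2⟩ := exists_down hH r hv.1
  by_cases hur : u = r
  · left; subst hur; exact mem_nbrD.2 hu1
  · right
    have h1 := hH.pos_dist_of_ne (Ne.symm hur)
    have huB : u ∉ B := by
      intro h
      have h1 := dist_nbr (hB u h v hu1)
      omega
    refine ⟨⟨u, mem_rest.2 ⟨hur, huB⟩⟩, mem_resE.2 (mem_upSet.2
      ⟨hu1, ?_, mem_rest.2 ⟨hur, huB⟩, v.2⟩)⟩
    simp only [lowLev]; omega

/-- adding the clones -/
theorem clone_good
    (hBc : ∀ b ∈ B, ∀ u v : {w // w ≠ r ∧ w ∉ B}, H.Adj b u → H.Adj b v →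
      (H.induce {w | w ≠ r ∧ w ∉ B}).Reachable u v → u = v)
    (hcone : Good (coneEdges (resE (rest r B) (upSet H (lowLev H r) (rest r B))) (nbrD H r B))
      (coneRel fun a b : {v // v ∈ rest r B} =>
        ((a : V), (b : V)) ∈ upSet H (lowLev H r) (rest r B))
      (coneLev fun v : {v // v ∈ rest r B} => lowLev H r v)) :
    Good (cloneEdges (coneEdges (resE (rest r B) (upSet H (lowLev H r) (rest r B)))
        (nbrD H r B)) (coneLev fun v : {v // v ∈ rest r B} => lowLev H r v) none (nbrN H r B))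
      (cloneRel (coneRel fun a b : {v // v ∈ rest r B} =>
        ((a : V), (b : V)) ∈ upSet H (lowLev H r) (rest r B))
        (coneLev fun v : {v // v ∈ rest r B} => lowLev H r v) none (nbrN H r B))
      (Sum.elim (coneLev fun v : {v // v ∈ rest r B} => lowLev H r v) fun _ =>
        (coneLev fun v : {v // v ∈ rest r B} => lowLev H r v) none) := by
  classical
  let G' := H.induce {w | w ≠ r ∧ w ∉ B}
  have : Fintype G'.ConnectedComponent := Fintype.ofFinite _
  let comp : Option {v // v ∈ rest r B} → Option G'.ConnectedComponent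
    | none => none
    | some w => some (G'.connectedComponentMk ⟨w, mem_rest.1 w.2⟩)
  refine hcone.clone none comp ?_ (nbrN H r B) ?_ ?_
  · rintro (_ | a) (_ | b) h
    · exact Or.inl rfl
    · exact Or.inl rfl
    · exact Or.inr (Or.inl rfl)
    · right; right
      have h' := (mem_upSet.1 h).1
      simp only [comp, Option.some.injEq]
      rw [SimpleGraph.ConnectedComponent.eq]
      exact SimpleGraph.Adj.reachable (G := G') (by exact h')
  · rintro j a ha
    obtain ⟨w, rfl, -⟩ := mem_nbrN.1 ha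
    exact Or.inl trivial
  · rintro j a ha b hb hab
    obtain ⟨w, rfl, hw⟩ := mem_nbrN.1 ha
    obtain ⟨w', rfl, hw'⟩ := mem_nbrN.1 hb
    simp only [comp, Option.some.injEq] at hab
    rw [SimpleGraph.ConnectedComponent.eq] at hab
    have := hBc j j.2 ⟨w, mem_rest.1 w.2⟩ ⟨w', mem_rest.1 w'.2⟩ hw hw' hab
    have h3 := congrArg Subtype.val this
    exact congrArg some (Subtype.ext h3)

theorem cone_main (hH : H.Connected) (r : V) (side : V → Bool)
    (hside : ∀ u v, H.Adj u v → side u ≠ side v) (B : Finset V) {k : ℕ} (P : Fin k → Finset V)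
    (hrB : r ∉ B) (hrP : ∀ i, r ∉ P i) (hBP : ∀ i, ∀ b ∈ B, b ∉ P i)
    (hcov : ∀ v, v ≠ r → v ∉ B → ∃ i, v ∈ P i)
    (hedge : ∀ u v, H.Adj u v → u ≠ r → v ≠ r → u ∉ B → v ∉ B → ∃ i, u ∈ P i ∧ v ∈ P i)
    (hB : ∀ b ∈ B, ∀ v, H.Adj b v → H.Adj r v)
    (hBc : ∀ b ∈ B, ∀ u v : {w // w ≠ r ∧ w ∉ B}, H.Adj b u → H.Adj b v →
      (H.induce {w | w ≠ r ∧ w ∉ B}).Reachable u v → u = v)
    (hdist : ∀ i, ∀ u ∈ P i, ∀ v ∈ P i, H.dist r u ≤ H.dist r v + 1)
    (hglue : ∀ i, ∀ u ∈ P i, ∀ v ∈ P i, u ≠ v → (∃ j < i, u ∈ P j) → (∃ j < i, v ∈ P j) →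
      H.Adj u v ∧ ∃ j < i, u ∈ P j ∧ v ∈ P j)
    (hsid : ∀ i, GSid (H.induce (P i : Set V)) fun v => side v) : GSid H side := by
  have hclone := clone_good hBc (cone_good hH hB
    (rest_good hH hside P hrP hBP hcov hedge hdist hglue hsid))
  have hfin : Good (upEdges H (topLev H r B)) (fun a b => (a, b) ∈ upEdges H (topLev H r B))
      (topLev H r B) := by
    refine hclone.transport (Equiv.ofBijective _ (glueMap_bijective hrB)) ?_ ?_ ?_ ?_
    · intro a b
      simp only [Equiv.ofBijective_apply]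
      rw [rel_iff hH hrB hB]
      simp [cloneEdges]
    · intro a b hab
      simp only [Equiv.ofBijective_apply] at hab
      rw [rel_iff hH hrB hB] at hab
      obtain (_ | w) | b1 := a <;> obtain (_ | w') | b2 := b
      · exact absurd hab not_mem_coneEdges_none
      · trivial
      · exact hab
      · exact absurd hab not_mem_coneEdges_none
      · exact mem_resE.1 (mem_coneEdges_some_some.1 hab)
      · exact hab
      · exact hab
      · exact hab
      · exact hab
    · intro e he; exact he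
    · rintro ((_ | w) | b)
      · exact topLev_root hrB
      · exact topLev_rest hH w
      · exact topLev_clone b.2
  have hres := gsid_of_good H (topLev H r B) _ (topLev_adj hH hside hB) hfin
  have hpar := side_topLev hH hside hrB hB
  cases hr : side r with
  | false =>
    have : side = fun v => decide (topLev H r B v % 2 = 1) := by
      funext v
      rw [hpar v, hr]
      by_cases h : topLev H r B v % 2 = 1 <;> simp [h]
    rw [this]; exact hres
  | true =>
    have : side = fun v => !decide (topLev H r B v % 2 = 1) := by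
      funext v
      rw [hpar v, hr]
      by_cases h : topLev H r B v % 2 = 1 <;> simp [h]
    rw [this]; exact hres.swap

end

end Vale.Agent.P050.Lev
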