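import Vale.Agent.P050.Lev.MultiCone
import Vale.Agent.P050.Lev.Main2

/-!
Cones from both sides over graphs glued from Sidorenko graphs.
-/

set_option linter.unusedSectionVars false

namespace Vale.Agent.P050.Lev

open Finset

variable {V : Type} [Fintype V] [DecidableEq V]

/-- the part of `H` on `P`, with its edges as tied pairs, is good -/
def UpGood (H : SimpleGraph V) (lev : V → ℕ) (P : Finset V) : Prop :=
  GoodOn P (upSet H lev P) (fun a b => (a, b) ∈ upSet H lev P) lev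

theorem UpGood.congr {H : SimpleGraph V} {lev lev' : V → ℕ} {P : Finset V} (h : UpGood H lev P)
    (hl : ∀ v ∈ P, lev' v = lev v) : UpGood H lev' P := by
  have hE : upSet H lev' P = upSet H lev P := by
    ext ⟨a, b⟩
    rw [mem_upSet, mem_upSet]
    simp only
    constructor
    · rintro ⟨h1, h2, h3, h4⟩
      rw [hl a h3, hl b h4] at h2
      exact ⟨h1, h2, h3, h4⟩
    · rintro ⟨h1, h2, h3, h4⟩
      rw [← hl a h3, ← hl b h4] at h2
      exact ⟨h1, h2, h3, h4⟩
  unfold UpGood at h ⊢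
  rw [hE]
  have : (fun v : {v // v ∈ P} => lev' v) = fun v : {v // v ∈ P} => lev v :=
    funext fun v => hl v v.2
  unfold GoodOn at h ⊢
  rw [this]
  exact h

/-- reversal -/
theorem UpGood.reverse {H : SimpleGraph V} {lev : V → ℕ} {P : Finset V} (h : UpGood H lev P)
    {N : ℕ} (hN : ∀ v ∈ P, lev v ≤ N) : UpGood H (fun v => N - lev v) P := by
  have h0 : Good (resE P (upSet H lev P)) (fun a b : {v // v ∈ P} =>
    ((a : V), (b : V)) ∈ upSet H lev P) (fun v : {v // v ∈ P} => lev v) := h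
  have h1 := h0.reverse (N := N) fun v => hN v v.2
  have hE : ∀ a b : {v // v ∈ P}, ((a : V), (b : V)) ∈ upSet H (fun v => N - lev v) P ↔
      ((b : V), (a : V)) ∈ upSet H lev P := by
    intro a b
    rw [mem_upSet, mem_upSet]
    have ha := hN a a.2
    have hb := hN b b.2
    simp only
    constructor
    · rintro ⟨h1, h2, h3, h4⟩
      exact ⟨h1.symm, by omega, h4, h3⟩
    · rintro ⟨h1, h2, h3, h4⟩
      exact ⟨h1.symm, by omega, h4, h3⟩
  show Good (resE P (upSet H (fun v => N - lev v) P)) (fun a b : {v // v ∈ P} =>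
    ((a : V), (b : V)) ∈ upSet H (fun v => N - lev v) P) (fun v : {v // v ∈ P} => N - lev v)
  refine h1.pull (Equiv.refl _) ?_ ?_ ?_ ?_
  · intro a b
    rw [mem_resE, hE]
    simp only [Equiv.refl_apply, Finset.mem_image, Prod.exists, Prod.swap_prod_mk, Prod.mk.injEq]
    constructor
    · intro h2
      exact ⟨b, a, mem_resE.2 h2, rfl, rfl⟩
    · rintro ⟨c, d, h2, rfl, rfl⟩
      exact mem_resE.1 h2
  · intro a b h2
    exact (hE a b).1 h2
  · rintro ⟨a, b⟩ h2
    exact mem_resE.1 h2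
  · intro a
    rfl

/-- adding new vertices at the bottom -/
theorem UpGood.addBottom {H : SimpleGraph V} {lev : V → ℕ} {P K : Finset V} (h : UpGood H lev P)
    (hK : ∀ v ∈ K, lev v = 0) (hP : ∀ v ∈ P, 1 ≤ lev v) (hne : ∃ v ∈ P, lev v = 1)
    (hadj : ∀ k ∈ K, ∀ v ∈ P, lev v = 1 → H.Adj k v)
    (hcov : ∀ v ∈ P, lev v ≠ 1 → ∃ u ∈ P, H.Adj u v ∧ lev v = lev u + 1) :
    UpGood H lev (P ∪ K) := by
  have hKP : ∀ v ∈ K, v ∉ P := fun v hv h => by
    have h1 := hK v hv
    have h2 := hP v h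
    omega
  -- levels from `0` on
  have h0 : Good (resE P (upSet H lev P)) (fun a b : {v // v ∈ P} =>
    ((a : V), (b : V)) ∈ upSet H lev P) (fun v : {v // v ∈ P} => lev v) := h
  have h1 := h0.timeChange (τ := fun n => n - 1) (fun a b hab => Nat.sub_le_sub_right hab 1)
    (fun u v huv => by
      have h2 := (mem_upSet.1 huv).2.1
      have h3 := hP u u.2
      simp only at h2 ⊢
      omega)
  have h2 := h1.multiCone (univ.filter fun v : {v // v ∈ P} => lev v = 1) (fun v => by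
      by_cases hv : lev v = 1
      · exact Or.inl (Finset.mem_filter.2 ⟨mem_univ _, hv⟩)
      · obtain ⟨u, hu, hu1, hu2⟩ := hcov v v.2 hv
        exact Or.inr ⟨⟨u, hu⟩, mem_resE.2 (mem_upSet.2 ⟨hu1, hu2, hu, v.2⟩)⟩)
    (fun v hv => by
      have := (Finset.mem_filter.1 hv).2
      omega)
    (by
      obtain ⟨v, hv, hv1⟩ := hne
      exact ⟨⟨v, hv⟩, Finset.mem_filter.2 ⟨mem_univ _, hv1⟩⟩)
    {v // v ∈ K}
  -- the vertices
  let ψ : {v // v ∈ P ∪ K} → {v // v ∈ K} ⊕ {v // v ∈ P} := fun v =>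
    if hv : v.1 ∈ P then Sum.inr ⟨v, hv⟩ else
      Sum.inl ⟨v, (Finset.mem_union.1 v.2).resolve_left hv⟩
  have hψP : ∀ v : {v // v ∈ P ∪ K}, ∀ hv : v.1 ∈ P, ψ v = Sum.inr ⟨v, hv⟩ := fun v hv => by
    simp only [ψ, dif_pos hv]
  have hψK : ∀ v : {v // v ∈ P ∪ K}, ∀ hv : v.1 ∉ P, ψ v =
      Sum.inl ⟨v, (Finset.mem_union.1 v.2).resolve_left hv⟩ := fun v hv => by
    simp only [ψ, dif_neg hv]
  have hψ : Function.Bijective ψ := by
    constructor
    · intro a b hab
      by_cases ha : a.1 ∈ P <;> by_cases hb : b.1 ∈ P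
      · rw [hψP a ha, hψP b hb, Sum.inr.injEq, Subtype.mk.injEq] at hab
        exact Subtype.ext hab
      · rw [hψP a ha, hψK b hb] at hab
        exact absurd hab Sum.inr_ne_inl
      · rw [hψK a ha, hψP b hb] at hab
        exact absurd hab Sum.inl_ne_inr
      · rw [hψK a ha, hψK b hb, Sum.inl.injEq, Subtype.mk.injEq] at hab
        exact Subtype.ext hab
    · rintro (v | v)
      · refine ⟨⟨v, Finset.mem_union_right _ v.2⟩, ?_⟩
        rw [hψK _ (hKP v v.2)]
      · refine ⟨⟨v, Finset.mem_union_left _ v.2⟩, ?_⟩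
        rw [hψP _ v.2]
  have hE : ∀ a b : {v // v ∈ P ∪ K}, ((a : V), (b : V)) ∈ upSet H lev (P ∪ K) ↔
      (ψ a, ψ b) ∈ mconeEdges (resE P (upSet H lev P))
        (univ.filter fun v : {v // v ∈ P} => lev v = 1) {v // v ∈ K} := by
    intro a b
    rw [mem_upSet, mem_mconeEdges]
    simp only
    by_cases ha : a.1 ∈ P <;> by_cases hb : b.1 ∈ P
    · rw [hψP a ha, hψP b hb]
      constructor
      · rintro ⟨h3, h4, -, -⟩
        exact Or.inl ⟨_, _, rfl, rfl, mem_resE.2 (mem_upSet.2 ⟨h3, h4, ha, hb⟩)⟩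
      · rintro (⟨v, w, h3, h4, h5⟩ | ⟨k, v, h3, -, -⟩)
        · rw [Sum.inr.injEq] at h3 h4
          subst h3 h4
          have h6 := mem_upSet.1 (mem_resE.1 h5)
          exact ⟨h6.1, h6.2.1, a.2, b.2⟩
        · exact absurd h3 Sum.inr_ne_inl
    · rw [hψP a ha, hψK b hb]
      have hbK := hK b ((Finset.mem_union.1 b.2).resolve_left hb)
      constructor
      · rintro ⟨h3, h4, -, -⟩
        omega
      · rintro (⟨v, w, -, h4, -⟩ | ⟨k, v, h3, -, -⟩)
        · exact absurd h4 Sum.inl_ne_inr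
        · exact absurd h3 Sum.inr_ne_inl
    · rw [hψK a ha, hψP b hb]
      have haK' := (Finset.mem_union.1 a.2).resolve_left ha
      have haK := hK a haK'
      constructor
      · rintro ⟨h3, h4, -, -⟩
        exact Or.inr ⟨_, _, rfl, rfl, Finset.mem_filter.2 ⟨mem_univ _, by
          simp only; omega⟩⟩
      · rintro (⟨v, w, h3, -, -⟩ | ⟨k, v, h3, h4, h5⟩)
        · exact absurd h3 Sum.inl_ne_inr
        · rw [Sum.inr.injEq] at h4
          subst h4
          have h6 := (Finset.mem_filter.1 h5).2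
          simp only at h6
          exact ⟨hadj a haK' b hb h6, by omega, a.2, b.2⟩
    · rw [hψK a ha, hψK b hb]
      have haK := hK a ((Finset.mem_union.1 a.2).resolve_left ha)
      have hbK := hK b ((Finset.mem_union.1 b.2).resolve_left hb)
      constructor
      · rintro ⟨h3, h4, -, -⟩
        omega
      · rintro (⟨v, w, h3, -, -⟩ | ⟨k, v, -, h4, -⟩)
        · exact absurd h3 Sum.inl_ne_inr
        · exact absurd h4 Sum.inl_ne_inr
  show Good (resE (P ∪ K) (upSet H lev (P ∪ K))) (fun a b : {v // v ∈ P ∪ K} =>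
    ((a : V), (b : V)) ∈ upSet H lev (P ∪ K)) (fun v : {v // v ∈ P ∪ K} => lev v)
  refine h2.pull (Equiv.ofBijective ψ hψ) ?_ ?_ ?_ ?_
  · intro a b
    rw [mem_resE]
    exact hE a b
  · intro a b hab
    rcases mem_mconeEdges.1 ((hE a b).1 hab) with ⟨v, w, h3, h4, h5⟩ | ⟨k, v, h3, h4, h5⟩
    · show mconeRel _ _ (ψ a) (ψ b)
      rw [h3, h4]
      exact mem_resE.1 h5
    · show mconeRel _ _ (ψ a) (ψ b)
      rw [h3, h4]
      trivial
  · rintro ⟨a, b⟩ hab
    exact mem_resE.1 hab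
  · intro a
    show lev a = mconeLev _ _ (ψ a)
    by_cases ha : a.1 ∈ P
    · rw [hψP a ha]
      have h3 := hP a ha
      show lev a = lev a - 1 + 1
      omega
    · rw [hψK a ha]
      exact hK a ((Finset.mem_union.1 a.2).resolve_left ha)

/-- the pieces of the middle part -/
theorem middle_good {k : ℕ} (H : SimpleGraph V) (lev : V → ℕ)
    (hadj : ∀ u v, H.Adj u v → lev v = lev u + 1 ∨ lev u = lev v + 1)
    (P : Fin k → Finset V) (Q : Finset V) (hcov : ∀ v, v ∈ Q ↔ ∃ i, v ∈ P i)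
    (hedge : ∀ u ∈ Q, ∀ v ∈ Q, H.Adj u v → ∃ i, u ∈ P i ∧ v ∈ P i)
    (hdist : ∀ i, ∀ u ∈ P i, ∀ v ∈ P i, lev u ≤ lev v + 1)
    (hglue : ∀ i, ∀ u ∈ P i, ∀ v ∈ P i, u ≠ v → (∃ j < i, u ∈ P j) → (∃ j < i, v ∈ P j) →
      H.Adj u v ∧ ∃ j < i, u ∈ P j ∧ v ∈ P j)
    (hsid : ∀ i, GSid (H.induce (P i : Set V)) fun v => decide (lev v % 2 = 1)) :
    UpGood H lev Q := by
  have hside : ∀ u v, H.Adj u v → decide (lev u % 2 = 1) ≠ decide (lev v % 2 = 1) := by
    intro u v huv h
    rw [decide_eq_decide] at h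
    rcases hadj u v huv with h1 | h1 <;> omega
  have hpiece : ∀ i, UpGood H lev (P i) := by
    intro i
    by_cases hne : (P i).Nonempty
    · obtain ⟨v0, hv0, hmin⟩ := Finset.exists_min_image (P i) lev hne
      refine goodOn_piece H lev (fun v => decide (lev v % 2 = 1)) (P i) (lev v0)
        (decide (lev v0 % 2 = 1)) ?_ (hsid i)
      intro v hv
      have h1 := hmin v hv
      have h2 := hdist i v hv v0 hv0
      have h3 : lev v = lev v0 ∨ lev v = lev v0 + 1 := by omega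
      rcases h3 with h3 | h3
      · exact Or.inl ⟨h3, by rw [h3]⟩
      · refine Or.inr ⟨h3, ?_⟩
        rw [h3]
        by_cases h4 : lev v0 % 2 = 1
        · have h5 : ¬ (lev v0 + 1) % 2 = 1 := by omega
          simp [h4, h5]
        · have h5 : (lev v0 + 1) % 2 = 1 := by omega
          simp [h4, h5]
    · have : IsEmpty {v // v ∈ P i} := ⟨fun v => hne ⟨v.1, v.2⟩⟩
      unfold UpGood GoodOn
      exact good_empty _ _ _
  have hW := goodOn_pieces H lev (fun v => decide (lev v % 2 = 1)) hside P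
    (fun i u _ v _ h => hadj u v h) hpiece hglue k le_rfl
  have hU : headU P k = Q := by
    ext v
    rw [mem_headU, hcov]
    constructor
    · rintro ⟨j, -, hv⟩
      exact ⟨j, hv⟩
    · rintro ⟨i, hi⟩
      exact ⟨i, i.2, hi⟩
  have hE : headE H lev P k = upSet H lev Q := by
    ext ⟨a, b⟩
    rw [mem_headE, mem_upSet]
    constructor
    · rintro ⟨j, -, h⟩
      rw [mem_upSet] at h
      exact ⟨h.1, h.2.1, (hcov _).2 ⟨j, h.2.2.1⟩, (hcov _).2 ⟨j, h.2.2.2⟩⟩
    · rintro ⟨h1, h2, h3, h4⟩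
      obtain ⟨i, hi1, hi2⟩ := hedge _ h3 _ h4 h1
      exact ⟨i, i.2, mem_upSet.2 ⟨h1, h2, hi1, hi2⟩⟩
  rw [hU, hE] at hW
  exact hW

/-- **Cones from both sides.** -/
theorem two_ends (H : SimpleGraph V) (lev : V → ℕ) (N : ℕ) (hN : ∀ v, lev v ≤ N)
    (hadj : ∀ u v, H.Adj u v → lev v = lev u + 1 ∨ lev u = lev v + 1)
    (hbot : ∀ u v, lev u = 0 → lev v = 1 → H.Adj u v)
    (htop : ∀ u v, lev u + 1 = N → lev v = N → H.Adj u v)
    (hdown : ∀ v, 2 ≤ lev v → ∃ u, H.Adj u v ∧ lev v = lev u + 1)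
    (hup : ∀ v, lev v + 2 ≤ N → ∃ u, H.Adj v u ∧ lev u = lev v + 1)
    (hne : ∃ v, lev v = 1) (hN2 : 2 ≤ N) {k : ℕ} (P : Fin k → Finset V)
    (hP : ∀ v, (∃ i, v ∈ P i) ↔ 0 < lev v ∧ lev v < N)
    (hedge : ∀ u v, H.Adj u v → 0 < lev u → lev u < N → 0 < lev v → lev v < N →
      ∃ i, u ∈ P i ∧ v ∈ P i)
    (hdist : ∀ i, ∀ u ∈ P i, ∀ v ∈ P i, lev u ≤ lev v + 1)
    (hglue : ∀ i, ∀ u ∈ P i, ∀ v ∈ P i, u ≠ v → (∃ j < i, u ∈ P j) → (∃ j < i, v ∈ P j) →
      H.Adj u v ∧ ∃ j < i, u ∈ P j ∧ v ∈ P j)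
    (hsid : ∀ i, GSid (H.induce (P i : Set V)) fun v => decide (lev v % 2 = 1)) :
    GSid H fun v => decide (lev v % 2 = 1) := by
  set Q : Finset V := univ.filter fun v => 0 < lev v ∧ lev v < N with hQ
  have hmQ : ∀ v, v ∈ Q ↔ 0 < lev v ∧ lev v < N := fun v => by simp [hQ]
  set K0 : Finset V := univ.filter fun v => lev v = 0 with hK0
  have hm0 : ∀ v, v ∈ K0 ↔ lev v = 0 := fun v => by simp [hK0]
  set K1 : Finset V := univ.filter fun v => lev v = N with hK1
  have hm1 : ∀ v, v ∈ K1 ↔ lev v = N := fun v => by simp [hK1]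
  have hQgood : UpGood H lev Q := middle_good H lev hadj P Q (fun v => by rw [hmQ, hP])
    (fun u hu v hv h => by
      rw [hmQ] at hu hv
      exact hedge u v h hu.1 hu.2 hv.1 hv.2) hdist hglue hsid
  -- the level below the top is not empty
  have hall : ∀ i, 1 ≤ i → i + 1 ≤ N → ∃ v, lev v = i := by
    intro i hi
    induction i, hi using Nat.le_induction with
    | base => exact fun _ => hne
    | succ i hi ih =>
      intro h1
      obtain ⟨v, hv⟩ := ih (by omega)
      obtain ⟨u, -, hu⟩ := hup v (by omega)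
      exact ⟨u, by omega⟩
  -- the bottom
  have hbotG : UpGood H lev (Q ∪ K0) := by
    refine hQgood.addBottom (fun v hv => (hm0 v).1 hv) (fun v hv => ((hmQ v).1 hv).1) ?_ ?_ ?_
    · obtain ⟨v, hv⟩ := hne
      exact ⟨v, (hmQ v).2 ⟨by omega, by omega⟩, hv⟩
    · intro u hu v _ hv1
      exact hbot u v ((hm0 u).1 hu) hv1
    · intro v hv hv1
      rw [hmQ] at hv
      obtain ⟨u, hu1, hu2⟩ := hdown v (by omega)
      exact ⟨u, (hmQ u).2 ⟨by omega, by omega⟩, hu1, hu2⟩
  -- the top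
  have hle : ∀ v ∈ Q ∪ K0, lev v + 1 ≤ N := by
    intro v hv
    rcases Finset.mem_union.1 hv with h | h
    · rw [hmQ] at h; omega
    · rw [hm0] at h; omega
  have htopG : UpGood H (fun v => N - lev v) ((Q ∪ K0) ∪ K1) := by
    refine (hbotG.reverse (N := N) fun v _ => hN v).addBottom ?_ ?_ ?_ ?_ ?_
    · intro v hv
      rw [hm1] at hv
      omega
    · intro v hv
      have := hle v hv
      omega
    · obtain ⟨v, hv⟩ := hall (N - 1) (by omega) (by omega)
      refine ⟨v, Finset.mem_union_left _ ((hmQ v).2 ⟨by omega, by omega⟩), ?_⟩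
      omega
    · intro u hu v hv hv1
      rw [hm1] at hu
      have := hle v hv
      exact (htop v u (by omega) hu).symm
    · intro v hv hv1
      have h1 := hle v hv
      obtain ⟨u, hu1, hu2⟩ := hup v (by omega)
      refine ⟨u, Finset.mem_union_left _ ((hmQ u).2 ⟨by omega, by omega⟩), hu1.symm, ?_⟩
      omega
  have huniv : (Q ∪ K0) ∪ K1 = univ := by
    ext v
    simp only [Finset.mem_union, hmQ, hm0, hm1, Finset.mem_univ, iff_true]
    have := hN v
    omega
  rw [huniv] at htopG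
  have hfin : UpGood H lev univ := by
    refine (htopG.reverse (N := N) fun v _ => Nat.sub_le _ _).congr fun v _ => ?_
    have := hN v
    omega
  have hgood : Good (upEdges H lev) (fun a b => (a, b) ∈ upEdges H lev) lev := by
    have hE : upSet H lev univ = upEdges H lev := by
      ext ⟨a, b⟩
      rw [mem_upSet, mem_upEdges]
      simp
    have h1 : Good (resE univ (upSet H lev univ)) (fun a b : {v // v ∈ (univ : Finset V)} =>
      ((a : V), (b : V)) ∈ upSet H lev univ) (fun v => lev v) := hfin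
    rw [hE] at h1
    refine h1.transport (Equiv.subtypeUnivEquiv fun v => mem_univ v) ?_ ?_ ?_ ?_
    · intro a b
      rw [mem_resE]
      rfl
    · intro a b h
      exact h
    · intro e he
      exact he
    · intro a
      rfl
  exact gsid_of_good H lev _ hadj hgood

end Vale.Agent.P050.Lev
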