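import Mathlib

/-!
Levelled graphs, Markov chains, and the entropy bound `Good`.
-/

namespace Vale.Agent.P050.Lev

open Finset

/-- A Markov chain `X_0, X_1, X_2, …` on a finite set. -/
structure Chain (U : Type) [Fintype U] where
  /-- the law of `X_0` -/
  init : U → ℝ
  /-- the transition probabilities from `X_i` to `X_{i+1}` -/
  step : ℕ → U → U → ℝ
  init_nonneg : ∀ x, 0 ≤ init x
  init_sum : ∑ x, init x = 1
  step_nonneg : ∀ i x y, 0 ≤ step i x y
  step_sum : ∀ i x, ∑ y, step i x y = 1

namespace Chain

variable {U : Type} [Fintype U] (C : Chain U)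

/-- the law of `X_n` -/
def law : ℕ → U → ℝ
  | 0 => C.init
  | n + 1 => fun y => ∑ x, law n x * C.step n x y

open Classical in
/-- the `n`-step transition probabilities from `X_i` to `X_{i+n}` -/
noncomputable def ker (i : ℕ) : ℕ → U → U → ℝ
  | 0 => fun x y => if x = y then 1 else 0
  | n + 1 => fun x z => ∑ y, ker i n x y * C.step (i + n) y z

/-- the joint law of `X_i` and `X_j`, for `i ≤ j` -/
noncomputable def pair (i j : ℕ) (x y : U) : ℝ := C.law i x * C.ker i (j - i) x y

/-- the mutual information of `X_i` and `X_j` -/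
noncomputable def info (i j : ℕ) : ℝ :=
  ∑ x, ∑ y, C.pair i j x y *
    (Real.log (C.pair i j x y) - Real.log (C.law i x) - Real.log (C.law j y))

/-- the chain `X_1, X_2, …` given `X_0 = x` -/
def cond (x : U) : Chain U where
  init := C.step 0 x
  step i := C.step (i + 1)
  init_nonneg := C.step_nonneg 0 x
  init_sum := C.step_sum 0 x
  step_nonneg i := C.step_nonneg (i + 1)
  step_sum i := C.step_sum (i + 1)

end Chain

section coupling

variable {V U : Type} [Fintype V] [DecidableEq V] [Fintype U]

/-- the total correlation (relative to the laws of the levels) of the random map with law `ν` -/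
noncomputable def corr (lev : V → ℕ) (C : Chain U) (ν : (V → U) → ℝ) : ℝ :=
  ∑ z, ν z * (Real.log (ν z) - ∑ v, Real.log (C.law (lev v) (z v)))

/-- `ν` is the law of a random map `z : V → U` in which `z v` has the law of `X_{lev v}`, the
pair `(z u, z v)` has the law of `(X_{lev u}, X_{lev v})` whenever `R u v`, and the total
correlation is at most the sum of the mutual informations over the edges. -/
structure Coupling (E : Finset (V × V)) (R : V → V → Prop) (lev : V → ℕ) (C : Chain U)
    (ν : (V → U) → ℝ) : Prop where
  nonneg : ∀ z, 0 ≤ ν z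
  total : ∑ z, ν z = 1
  vertex : ∀ (v : V) (f : U → ℝ), ∑ z, ν z * f (z v) = ∑ x, C.law (lev v) x * f x
  tied : ∀ u v, R u v → ∀ f : U → U → ℝ,
    ∑ z, ν z * f (z u) (z v) = ∑ x, ∑ y, C.pair (lev u) (lev v) x y * f x y
  bound : corr lev C ν ≤ ∑ e ∈ E, C.info (lev e.1) (lev e.2)

end coupling

/-- The levelled graph with vertex set `V`, edges `E` (directed upwards, not necessarily between
consecutive levels) and tied pairs `R` is good: every Markov chain has a coupling along it. -/
def Good {V : Type} [Fintype V] [DecidableEq V] (E : Finset (V × V)) (R : V → V → Prop)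
    (lev : V → ℕ) : Prop :=
  (∀ e ∈ E, R e.1 e.2) ∧ (∀ u v, R u v → lev u < lev v) ∧
    ∀ (U : Type) [Fintype U] (C : Chain U), ∃ ν : (V → U) → ℝ, Coupling E R lev C ν

end Vale.Agent.P050.Lev
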