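import Mathlib
import Vale.Agent.P050.Lev.Defs

/-!
The amalgam of several copies of a good levelled graph along a set `S` of vertices with no edge
inside.
-/

set_option linter.unusedSectionVars false

namespace Vale.Agent.P050.Lev

open Finset

section marg

variable {S T U ι : Type} [Fintype S] [DecidableEq S] [Fintype T] [DecidableEq T] [Fintype U]
  [Fintype ι] [DecidableEq ι]

/-- Gibbs' inequality on a finite set. -/
theorem gibbs_aux {α : Type} [Fintype α] (p q : α → ℝ) (hp : ∀ a, 0 ≤ p a) (hq : ∀ a, 0 ≤ q a)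
    (hs : ∑ a, q a ≤ ∑ a, p a) (hz : ∀ a, q a = 0 → p a = 0) :
    0 ≤ ∑ a, p a * (Real.log (p a) - Real.log (q a)) := by
  have h : ∀ a, p a - q a ≤ p a * (Real.log (p a) - Real.log (q a)) := by
    intro a
    rcases (hp a).eq_or_lt with h0 | h0
    · rw [← h0]; simpa using hq a
    · have hq0 : 0 < q a := lt_of_le_of_ne (hq a) fun h => by
        have := hz a h.symm; linarith
      have h1 : Real.log (q a / p a) ≤ q a / p a - 1 := Real.log_le_sub_one_of_pos (by positivity)
      rw [Real.log_div hq0.ne' h0.ne'] at h1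
      have h2 : p a * (Real.log (q a) - Real.log (p a)) ≤ p a * (q a / p a - 1) :=
        mul_le_mul_of_nonneg_left h1 h0.le
      have h3 : p a * (q a / p a - 1) = q a - p a := by field_simp
      linarith
  calc (0 : ℝ) ≤ ∑ a, (p a - q a) := by rw [Finset.sum_sub_distrib]; linarith
    _ ≤ _ := Finset.sum_le_sum fun a _ => h a

/-- the `S`-marginal of `ν` -/
noncomputable def smarg (ν : (S ⊕ T → U) → ℝ) (s : S → U) : ℝ := ∑ t : T → U, ν (Sum.elim s t)

/-- the inclusion of the `i`-th copy -/
def inc (i : ι) : S ⊕ T → S ⊕ (ι × T) := Sum.map id fun t => (i, t)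

/-- the conditionally independent amalgam of copies of `ν` -/
noncomputable def amal (ν : (S ⊕ T → U) → ℝ) (z : S ⊕ (ι × T) → U) : ℝ :=
  smarg ν (z ∘ Sum.inl) * ∏ i, (ν (z ∘ inc i) / smarg ν (z ∘ Sum.inl))

theorem sum_sumArrow (f : (S ⊕ T → U) → ℝ) :
    ∑ z, f z = ∑ s : S → U, ∑ t : T → U, f (Sum.elim s t) := by
  rw [← (Equiv.sumArrowEquivProdArrow S T U).symm.sum_comp, Fintype.sum_prod_type]
  rfl

theorem sum_sumArrow' (f : (S ⊕ (ι × T) → U) → ℝ) :
    ∑ z, f z = ∑ s : S → U, ∑ w : ι → T → U, f (Sum.elim s fun p => w p.1 p.2) := by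
  rw [← (Equiv.sumArrowEquivProdArrow S (ι × T) U).symm.sum_comp, Fintype.sum_prod_type]
  refine Finset.sum_congr rfl fun s _ => ?_
  rw [← (Equiv.curry ι T U).symm.sum_comp]
  rfl

theorem elim_comp_inc (s : S → U) (w : ι → T → U) (i : ι) :
    (Sum.elim s fun p : ι × T => w p.1 p.2) ∘ inc (S := S) i = Sum.elim s (w i) := by
  funext x; rcases x with x | x <;> rfl

theorem elim_comp_inl (s : S → U) (w : ι → T → U) :
    (Sum.elim s fun p : ι × T => w p.1 p.2) ∘ Sum.inl = s := by
  funext x; rfl

theorem smarg_nonneg {ν : (S ⊕ T → U) → ℝ} (h : ∀ z, 0 ≤ ν z) (s : S → U) : 0 ≤ smarg ν s :=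
  Finset.sum_nonneg fun _ _ => h _

theorem eq_zero_of_smarg {ν : (S ⊕ T → U) → ℝ} (h : ∀ z, 0 ≤ ν z) {s : S → U}
    (hs : smarg ν s = 0) (t : T → U) : ν (Sum.elim s t) = 0 :=
  (Finset.sum_eq_zero_iff_of_nonneg fun _ _ => h _).1 hs t (Finset.mem_univ t)

/-- every copy in the amalgam has law `ν` -/
theorem sum_amal (ν : (S ⊕ T → U) → ℝ) (h : ∀ z, 0 ≤ ν z) (i : ι) (G : (S ⊕ T → U) → ℝ) :
    ∑ z : S ⊕ (ι × T) → U, amal ν z * G (z ∘ inc i) = ∑ z, ν z * G z := by
  rw [sum_sumArrow', sum_sumArrow]
  refine Finset.sum_congr rfl fun s _ => ?_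
  simp only [amal, elim_comp_inc, elim_comp_inl]
  by_cases hs : smarg ν s = 0
  · simp [hs, eq_zero_of_smarg h hs]
  · have h1 : ∀ w : ι → T → U, smarg ν s * (∏ j, (ν (Sum.elim s (w j)) / smarg ν s)) *
        G (Sum.elim s (w i)) = smarg ν s * ∏ j, ((ν (Sum.elim s (w j)) / smarg ν s) *
          (if j = i then G (Sum.elim s (w j)) else 1)) := by
      intro w
      rw [Finset.prod_mul_distrib]
      have : ∏ j, (if j = i then G (Sum.elim s (w j)) else 1) = G (Sum.elim s (w i)) := by
        rw [Finset.prod_ite_eq' Finset.univ i fun j => G (Sum.elim s (w j))]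
        simp
      rw [this]; ring
    rw [Finset.sum_congr rfl fun w _ => h1 w, ← Finset.mul_sum]
    have h2 := Finset.prod_univ_sum (fun _ : ι => (Finset.univ : Finset (T → U)))
      (fun j t => (ν (Sum.elim s t) / smarg ν s) * (if j = i then G (Sum.elim s t) else 1))
    rw [Fintype.piFinset_univ] at h2
    rw [← h2]
    have h3 : ∀ j : ι, ∑ t : T → U, (ν (Sum.elim s t) / smarg ν s) *
        (if j = i then G (Sum.elim s t) else 1) =
        if j = i then (∑ t : T → U, ν (Sum.elim s t) * G (Sum.elim s t)) / smarg ν s else 1 := by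
      intro j
      by_cases hj : j = i
      · simp only [hj, if_true]
        rw [Finset.sum_div]
        exact Finset.sum_congr rfl fun t _ => by ring
      · simp only [hj, if_false, mul_one]
        rw [← Finset.sum_div]
        exact div_self hs
    rw [Finset.prod_congr rfl fun j _ => h3 j, Finset.prod_ite_eq' Finset.univ i]
    simp only [Finset.mem_univ, if_true]
    field_simp

theorem amal_nonneg {ν : (S ⊕ T → U) → ℝ} (h : ∀ z, 0 ≤ ν z) (z : S ⊕ (ι × T) → U) :
    0 ≤ amal ν z :=
  mul_nonneg (smarg_nonneg h _) (Finset.prod_nonneg fun _ _ => div_nonneg (h _) (smarg_nonneg h _))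

theorem log_amal {ν : (S ⊕ T → U) → ℝ} (h : ∀ z, 0 ≤ ν z) [Nonempty ι] (z : S ⊕ (ι × T) → U) :
    amal ν z * Real.log (amal ν z) = amal ν z *
      (∑ i, Real.log (ν (z ∘ inc i)) -
        ((Fintype.card ι : ℝ) - 1) * Real.log (smarg ν (z ∘ Sum.inl))) := by
  by_cases h0 : amal ν z = 0
  · rw [h0]; ring
  · have hs : smarg ν (z ∘ Sum.inl) ≠ 0 := fun h1 => h0 (by simp [amal, h1])
    have hi : ∀ i, ν (z ∘ inc i) ≠ 0 := fun i h1 => h0 (by
      have : ∏ i, (ν (z ∘ inc i) / smarg ν (z ∘ Sum.inl)) = 0 :=
        Finset.prod_eq_zero (Finset.mem_univ i) (by rw [h1, zero_div])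
      simp [amal, this])
    congr 1
    rw [amal, Real.log_mul hs (Finset.prod_ne_zero_iff.2 fun i _ => div_ne_zero (hi i) hs),
      Real.log_prod (fun i _ => div_ne_zero (hi i) hs)]
    rw [Finset.sum_congr rfl fun i _ => Real.log_div (hi i) hs]
    rw [Finset.sum_sub_distrib, Finset.sum_const, Finset.card_univ, nsmul_eq_mul]
    ring

end marg

section main

variable {S T : Type} [Fintype S] [DecidableEq S] [Fintype T] [DecidableEq T]
  {ι : Type} [Fintype ι] [DecidableEq ι]

/-- the levels of the amalgam -/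
def amalLev (ι : Type) (lev : S ⊕ T → ℕ) : S ⊕ (ι × T) → ℕ :=
  Sum.elim (fun s => lev (Sum.inl s)) fun p => lev (Sum.inr p.2)

/-- the tied pairs of the amalgam -/
def amalRel (ι : Type) (R : S ⊕ T → S ⊕ T → Prop) (u v : S ⊕ (ι × T)) : Prop :=
  ∃ (i : ι) (a b : S ⊕ T), u = inc i a ∧ v = inc i b ∧ R a b

/-- the edges of the amalgam -/
def amalEdges (ι : Type) [Fintype ι] [DecidableEq ι] (E : Finset ((S ⊕ T) × (S ⊕ T))) :
    Finset ((S ⊕ (ι × T)) × (S ⊕ (ι × T))) :=
  Finset.univ.biUnion fun i => E.image fun e => (inc i e.1, inc i e.2)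

theorem inc_injective (i : ι) : Function.Injective (inc (S := S) (T := T) i) := by
  intro a b h
  rcases a with a | a <;> rcases b with b | b <;> simp_all [inc]

theorem amalLev_inc (lev : S ⊕ T → ℕ) (i : ι) (a : S ⊕ T) : amalLev ι lev (inc i a) = lev a := by
  rcases a with a | a <;> rfl

theorem sum_amalEdges (E : Finset ((S ⊕ T) × (S ⊕ T)))
    (hE : ∀ e ∈ E, e.1.isRight ∨ e.2.isRight) (f : (S ⊕ (ι × T)) × (S ⊕ (ι × T)) → ℝ) :
    ∑ e ∈ amalEdges ι E, f e = ∑ i : ι, ∑ e ∈ E, f (inc i e.1, inc i e.2) := by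
  rw [amalEdges, Finset.sum_biUnion]
  · refine Finset.sum_congr rfl fun i _ => ?_
    rw [Finset.sum_image]
    rintro ⟨a, b⟩ _ ⟨c, d⟩ _ h
    simp only [Prod.mk.injEq] at h
    exact Prod.ext (inc_injective i h.1) (inc_injective i h.2)
  · intro i _ j _ hij
    rw [Function.onFun, Finset.disjoint_left]
    intro e he he'
    simp only [Finset.mem_image] at he he'
    obtain ⟨⟨a, b⟩, hab, rfl⟩ := he
    obtain ⟨⟨c, d⟩, hcd, h⟩ := he'
    simp only [Prod.mk.injEq] at h
    rcases hE _ hab with h1 | h1
    · rcases a with a | a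
      · simp at h1
      · rcases c with c | c
        · simp [inc] at h
        · have := h.1
          simp only [inc, Sum.map_inr, Sum.inr.injEq, Prod.mk.injEq] at this
          exact hij this.1.symm
    · rcases b with b | b
      · simp at h1
      · rcases d with d | d
        · simp [inc] at h
        · have := h.2
          simp only [inc, Sum.map_inr, Sum.inr.injEq, Prod.mk.injEq] at this
          exact hij this.1.symm

/-- **Amalgam rule.** Copies of a good levelled graph, glued along a set `S` of vertices with no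
edge inside, form a good levelled graph. -/
theorem Good.amalgam [Nonempty ι] {E : Finset ((S ⊕ T) × (S ⊕ T))} {R : S ⊕ T → S ⊕ T → Prop}
    {lev : S ⊕ T → ℕ} (hg : Good E R lev) (hE : ∀ e ∈ E, e.1.isRight ∨ e.2.isRight) :
    Good (amalEdges ι E) (amalRel ι R) (amalLev ι lev) := by
  obtain ⟨hER, hRl, hC⟩ := hg
  refine ⟨?_, ?_, ?_⟩
  · intro e he
    simp only [amalEdges, Finset.mem_biUnion, Finset.mem_univ, true_and, Finset.mem_image] at he
    obtain ⟨i, e', he', rfl⟩ := he
    exact ⟨i, e'.1, e'.2, rfl, rfl, hER e' he'⟩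
  · rintro u v ⟨i, a, b, rfl, rfl, hab⟩
    rw [amalLev_inc, amalLev_inc]
    exact hRl a b hab
  · intro U _ C
    obtain ⟨ν, hν⟩ := hC U C
    refine ⟨amal ν, amal_nonneg hν.nonneg, ?_, ?_, ?_, ?_⟩
    · have h := sum_amal ν hν.nonneg (Classical.arbitrary ι) fun _ => 1
      simp only [mul_one] at h
      rw [h, hν.total]
    · intro v f
      rcases v with v | ⟨i, v⟩
      · have h := sum_amal ν hν.nonneg (Classical.arbitrary ι) fun z => f (z (Sum.inl v))
        exact h.trans (hν.vertex (Sum.inl v) f)
      · have h := sum_amal ν hν.nonneg i fun z => f (z (Sum.inr v))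
        exact h.trans (hν.vertex (Sum.inr v) f)
    · rintro u v ⟨i, a, b, rfl, rfl, hab⟩ f
      have h := sum_amal ν hν.nonneg i fun z => f (z a) (z b)
      rw [amalLev_inc, amalLev_inc]
      exact h.trans (hν.tied a b hab f)
    · -- the entropy bound
      have hlev : ∀ z : S ⊕ (ι × T) → U,
          ∑ v, Real.log (C.law (amalLev ι lev v) (z v)) =
            ∑ i : ι, ∑ v, Real.log (C.law (lev v) ((z ∘ inc i) v)) -
              ((Fintype.card ι : ℝ) - 1) *
                ∑ s : S, Real.log (C.law (lev (Sum.inl s)) (z (Sum.inl s))) := by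
        intro z
        simp only [Fintype.sum_sum_type, Fintype.sum_prod_type, Finset.sum_add_distrib, amalLev,
          inc, Function.comp, Sum.elim_inl, Sum.elim_inr, Sum.map_inl, Sum.map_inr, id,
          Finset.sum_const, Finset.card_univ, nsmul_eq_mul]
        ring
      -- the marginal on `S`
      set ρ : (S → U) → ℝ := smarg ν with hρ
      have hρ0 : ∀ s, 0 ≤ ρ s := smarg_nonneg hν.nonneg
      have hcomp : ∀ G : (S → U) → ℝ, ∑ z : S ⊕ (ι × T) → U, amal ν z * G (z ∘ Sum.inl) =
          ∑ s, ρ s * G s := by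
        intro G
        have h := sum_amal ν hν.nonneg (Classical.arbitrary ι) fun z => G (z ∘ Sum.inl)
        refine Eq.trans h ?_
        rw [sum_sumArrow]
        refine Finset.sum_congr rfl fun s _ => ?_
        rw [hρ, smarg, Finset.sum_mul]
        rfl
      have hρ1 : ∑ s, ρ s = 1 := by
        have h := hν.total
        rw [sum_sumArrow] at h
        exact h
      have hlaw0 : ∀ (n : ℕ) (x : U), 0 ≤ C.law n x := by
        intro n
        induction n with
        | zero => exact C.init_nonneg
        | succ n ih =>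
          intro x
          exact Finset.sum_nonneg fun y _ => mul_nonneg (ih y) (C.step_nonneg n y x)
      have hlaw1 : ∀ n : ℕ, ∑ x, C.law n x = 1 := by
        intro n
        induction n with
        | zero => exact C.init_sum
        | succ n ih =>
          change ∑ y, ∑ x, C.law n x * C.step n x y = 1
          rw [Finset.sum_comm]
          rw [← ih]
          refine Finset.sum_congr rfl fun x _ => ?_
          rw [← Finset.mul_sum, C.step_sum, mul_one]
      -- relative entropy of the `S`-marginal is nonnegative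
      have hrel : 0 ≤ ∑ s : S → U, ρ s * (Real.log (ρ s) -
          ∑ a : S, Real.log (C.law (lev (Sum.inl a)) (s a))) := by
        have hz : ∀ s : S → U, ∏ a : S, C.law (lev (Sum.inl a)) (s a) = 0 → ρ s = 0 := by
          classical
          intro s hs
          obtain ⟨a, _, ha⟩ := Finset.prod_eq_zero_iff.1 hs
          have h := hν.vertex (Sum.inl a) fun x => if x = s a then 1 else 0
          simp only [mul_ite, mul_one, mul_zero, Finset.sum_ite_eq', Finset.mem_univ, if_true,
            ha] at h
          have h2 : ∀ z, (if z (Sum.inl a) = s a then ν z else 0) = 0 := fun z =>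
            (Finset.sum_eq_zero_iff_of_nonneg fun z _ => by
              split_ifs
              · exact hν.nonneg z
              · exact le_rfl).1 h z (Finset.mem_univ z)
          rw [hρ, smarg]
          refine Finset.sum_eq_zero fun t _ => ?_
          have := h2 (Sum.elim s t)
          simpa using this
        have h := gibbs_aux ρ (fun s => ∏ a : S, C.law (lev (Sum.inl a)) (s a)) hρ0
          (fun s => Finset.prod_nonneg fun a _ => hlaw0 _ _) ?_ hz
        · refine h.trans (le_of_eq ?_)
          refine Finset.sum_congr rfl fun s _ => ?_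
          by_cases h0 : ρ s = 0
          · rw [h0]; ring
          · congr 2
            rw [Real.log_prod]
            intro a _ ha
            exact h0 (hz s (Finset.prod_eq_zero (Finset.mem_univ a) ha))
        · rw [hρ1]
          have h2 := Finset.prod_univ_sum (fun _ : S => (Finset.univ : Finset U))
            (fun a x => C.law (lev (Sum.inl a)) x)
          rw [Fintype.piFinset_univ] at h2
          rw [← h2]
          simp [hlaw1]
      have hk : (0 : ℝ) ≤ (Fintype.card ι : ℝ) - 1 := by
        have : 1 ≤ Fintype.card ι := Fintype.card_pos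
        have : (1 : ℝ) ≤ (Fintype.card ι : ℝ) := by exact_mod_cast this
        linarith
      have hmain : corr (amalLev ι lev) C (amal ν) = (Fintype.card ι : ℝ) * corr lev C ν -
          ((Fintype.card ι : ℝ) - 1) * ∑ s : S → U, ρ s * (Real.log (ρ s) -
          ∑ a : S, Real.log (C.law (lev (Sum.inl a)) (s a))) := by
        have h1 : ∀ z : S ⊕ (ι × T) → U, amal ν z * (Real.log (amal ν z) -
            ∑ v, Real.log (C.law (amalLev ι lev v) (z v))) =
            ∑ i : ι, amal ν z * (Real.log (ν (z ∘ inc i)) -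
              ∑ v, Real.log (C.law (lev v) ((z ∘ inc i) v))) -
            amal ν z * (((Fintype.card ι : ℝ) - 1) * (Real.log (ρ (z ∘ Sum.inl)) -
              ∑ a : S, Real.log (C.law (lev (Sum.inl a)) ((z ∘ Sum.inl) a)))) := by
          intro z
          rw [mul_sub, log_amal hν.nonneg z, hlev z, ← Finset.mul_sum, Finset.sum_sub_distrib]
          simp only [Function.comp]
          ring
        rw [corr, Finset.sum_congr rfl fun z _ => h1 z, Finset.sum_sub_distrib,
          Finset.sum_comm]
        rw [Finset.sum_congr rfl fun i _ => sum_amal ν hν.nonneg i fun z =>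
          (Real.log (ν z) - ∑ v, Real.log (C.law (lev v) (z v)))]
        rw [Finset.sum_const, Finset.card_univ, nsmul_eq_mul]
        rw [hcomp fun s => (((Fintype.card ι : ℝ) - 1) * (Real.log (ρ s) -
              ∑ a : S, Real.log (C.law (lev (Sum.inl a)) (s a))))]
        rw [corr, Finset.mul_sum (Finset.univ : Finset (S → U))]
        congr 1
        exact Finset.sum_congr rfl fun s _ => by ring
      have hb := hν.bound
      rw [hmain, sum_amalEdges E hE]
      have h2 : ∑ i : ι, ∑ e ∈ E, C.info (amalLev ι lev (inc i e.1)) (amalLev ι lev (inc i e.2)) =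
          (Fintype.card ι : ℝ) * ∑ e ∈ E, C.info (lev e.1) (lev e.2) := by
        simp only [amalLev_inc]
        rw [Finset.sum_const, Finset.card_univ, nsmul_eq_mul]
      rw [h2]
      have h3 := mul_nonneg hk hrel
      have h4 : (Fintype.card ι : ℝ) * corr lev C ν ≤
          (Fintype.card ι : ℝ) * ∑ e ∈ E, C.info (lev e.1) (lev e.2) :=
        mul_le_mul_of_nonneg_left hb (Nat.cast_nonneg _)
      linarith

end main

end Vale.Agent.P050.Lev
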