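import Vale.Agent.P050.Lev.Levels

/-!
A Markov chain whose first two states are blocks of vertices.
-/

namespace Vale.Agent.P050.Lev

open Finset

section block

variable {A B U : Type} [Fintype A] [DecidableEq A] [Fintype B] [DecidableEq B] [Fintype U]

/-- the law of the next block -/
noncomputable def blockStep (J : (A → U) → (B → U) → ℝ) (C : Chain U) (t : B) (l : ℕ) :
    ℕ → (A → U) ⊕ (B → U) → (B → U) → ℝ
  | 0, Sum.inl a, b' => if ∑ b, J a b = 0 then ∑ a', J a' b' else J a b' / ∑ b, J a b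
  | 0, Sum.inr _, b' => ∑ a', J a' b'
  | _ + 1, Sum.inl _, b' => ∑ a', J a' b'
  | i + 1, Sum.inr b, b' => ∑ y, C.step (l + i) (b t) y * (open Classical in
      if b' = fun _ => y then 1 else 0)

theorem blockStep_nonneg {J : (A → U) → (B → U) → ℝ} (hJ : ∀ a b, 0 ≤ J a b) (C : Chain U)
    (t : B) (l i : ℕ) (x : (A → U) ⊕ (B → U)) (b' : B → U) : 0 ≤ blockStep J C t l i x b' := by
  have h1 : 0 ≤ ∑ a', J a' b' := Finset.sum_nonneg fun _ _ => hJ _ _
  rcases i with _ | i <;> rcases x with a | b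
  · simp only [blockStep]
    split_ifs
    · exact h1
    · exact div_nonneg (hJ _ _) (Finset.sum_nonneg fun _ _ => hJ _ _)
  · exact h1
  · exact h1
  · refine Finset.sum_nonneg fun y _ => mul_nonneg (C.step_nonneg _ _ _) ?_
    split_ifs <;> norm_num

theorem blockStep_sum {J : (A → U) → (B → U) → ℝ} (hJ1 : ∑ a, ∑ b, J a b = 1) (C : Chain U)
    (t : B) (l i : ℕ) (x : (A → U) ⊕ (B → U)) : ∑ b', blockStep J C t l i x b' = 1 := by
  have h1 : ∑ b', ∑ a', J a' b' = 1 := by rw [Finset.sum_comm]; exact hJ1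
  rcases i with _ | i <;> rcases x with a | b
  · simp only [blockStep]
    by_cases h : ∑ b, J a b = 0
    · simp only [if_pos h]
      exact h1
    · simp only [if_neg h]
      rw [← Finset.sum_div, div_self h]
  · exact h1
  · exact h1
  · simp only [blockStep]
    rw [Finset.sum_comm]
    simp_rw [← Finset.mul_sum]
    simp [C.step_sum]

/-- the block chain: a block `A`, then a block `B`, then (if `B = {t}`) the chain `C` from the
time `l + 1` on -/
noncomputable def blockChain (J : (A → U) → (B → U) → ℝ) (hJ : ∀ a b, 0 ≤ J a b)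
    (hJ1 : ∑ a, ∑ b, J a b = 1) (C : Chain U) (t : B) (l : ℕ) : Chain ((A → U) ⊕ (B → U)) where
  init := Sum.elim (fun a => ∑ b, J a b) fun _ => 0
  step i x := Sum.elim (fun _ => 0) (blockStep J C t l i x)
  init_nonneg := by
    rintro (a | b)
    · exact Finset.sum_nonneg fun _ _ => hJ _ _
    · exact le_rfl
  init_sum := by
    rw [Fintype.sum_sum_type]
    simpa using hJ1
  step_nonneg i x := by
    rintro (a | b)
    · exact le_rfl
    · exact blockStep_nonneg hJ C t l i x b
  step_sum i x := by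
    rw [Fintype.sum_sum_type]
    simpa using blockStep_sum hJ1 C t l i x

variable {J : (A → U) → (B → U) → ℝ} {hJ : ∀ a b, 0 ≤ J a b} {hJ1 : ∑ a, ∑ b, J a b = 1}
  {C : Chain U} {t : B} {l : ℕ}

theorem bc_law_zero_inl (a : A → U) :
    (blockChain J hJ hJ1 C t l).law 0 (Sum.inl a) = ∑ b, J a b := rfl

theorem bc_law_zero_inr (b : B → U) : (blockChain J hJ hJ1 C t l).law 0 (Sum.inr b) = 0 := rfl

theorem bc_law_succ_inl (n : ℕ) (a : A → U) :
    (blockChain J hJ hJ1 C t l).law (n + 1) (Sum.inl a) = 0 := by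
  have h : (blockChain J hJ hJ1 C t l).law (n + 1) (Sum.inl a) =
    ∑ x, (blockChain J hJ hJ1 C t l).law n x * 0 := rfl
  rw [h]
  simp

theorem mul_blockStep_zero (hJ : ∀ a b, 0 ≤ J a b) (a : A → U) (b : B → U) :
    (∑ b, J a b) * blockStep J C t l 0 (Sum.inl a) b = J a b := by
  simp only [blockStep]
  split_ifs with h
  · have h2 := (Finset.sum_eq_zero_iff_of_nonneg fun b _ => hJ a b).1 h b (mem_univ b)
    rw [h, h2, zero_mul]
  · field_simp

theorem bc_law_succ_inr (n : ℕ) (b : B → U) :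
    (blockChain J hJ hJ1 C t l).law (n + 1) (Sum.inr b) =
      ∑ a, (blockChain J hJ hJ1 C t l).law n (Sum.inl a) * blockStep J C t l n (Sum.inl a) b +
      ∑ b', (blockChain J hJ hJ1 C t l).law n (Sum.inr b') *
        blockStep J C t l n (Sum.inr b') b := by
  have h : (blockChain J hJ hJ1 C t l).law (n + 1) (Sum.inr b) =
    ∑ x, (blockChain J hJ hJ1 C t l).law n x * blockStep J C t l n x b := rfl
  rw [h, Fintype.sum_sum_type]

theorem bc_law_one (b : B → U) :
    (blockChain J hJ hJ1 C t l).law 1 (Sum.inr b) = ∑ a, J a b := by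
  rw [bc_law_succ_inr 0 b]
  simp only [bc_law_zero_inl, bc_law_zero_inr, zero_mul, Finset.sum_const_zero, add_zero]
  exact Finset.sum_congr rfl fun a _ => mul_blockStep_zero hJ a b

theorem sum_blockStep_succ (i : ℕ) (b : B → U) (f : U → ℝ) :
    ∑ b', blockStep J C t l (i + 1) (Sum.inr b) b' * f (b' t) =
      ∑ y, C.step (l + i) (b t) y * f y := by
  classical
  simp only [blockStep, Finset.sum_mul]
  rw [Finset.sum_comm]
  refine Finset.sum_congr rfl fun y _ => ?_
  rw [Finset.sum_eq_single fun _ => y]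
  · simp
  · intro b' _ hb'
    rw [if_neg hb']
    ring
  · intro h
    exact absurd (mem_univ _) h

/-- later laws -/
theorem bc_law (hJt : ∀ f : U → ℝ, ∑ a, ∑ b, J a b * f (b t) = ∑ x, C.law l x * f x) (n : ℕ)
    (f : U → ℝ) : ∑ b, (blockChain J hJ hJ1 C t l).law (n + 1) (Sum.inr b) * f (b t) =
      ∑ x, C.law (l + n) x * f x := by
  induction n generalizing f with
  | zero =>
    simp only [Nat.reduceAdd, bc_law_one, Finset.sum_mul]
    rw [Finset.sum_comm]
    exact hJt f
  | succ n ih =>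
    simp only [bc_law_succ_inr (n + 1), bc_law_succ_inl, zero_mul, Finset.sum_const_zero,
      zero_add, Finset.sum_mul]
    rw [Finset.sum_comm]
    have h1 : ∀ b : B → U, ∑ b', (blockChain J hJ hJ1 C t l).law (n + 1) (Sum.inr b) *
        blockStep J C t l (n + 1) (Sum.inr b) b' * f (b' t) =
        (blockChain J hJ hJ1 C t l).law (n + 1) (Sum.inr b) *
          ∑ y, C.step (l + n) (b t) y * f y := by
      intro b
      rw [← sum_blockStep_succ (J := J) (C := C) (t := t) (l := l) n b f, Finset.mul_sum]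
      exact Finset.sum_congr rfl fun b' _ => by ring
    simp_rw [h1]
    rw [ih fun x => ∑ y, C.step (l + n) x y * f y]
    have h2 : ∀ y, C.law (l + (n + 1)) y = ∑ x, C.law (l + n) x * C.step (l + n) x y :=
      fun y => rfl
    simp_rw [h2, Finset.sum_mul, Finset.mul_sum]
    rw [Finset.sum_comm]
    exact Finset.sum_congr rfl fun y _ => Finset.sum_congr rfl fun x _ => by ring

theorem bc_ker_inr_inl (i n : ℕ) (b : B → U) (a : A → U) :
    (blockChain J hJ hJ1 C t l).ker i n (Sum.inr b) (Sum.inl a) = 0 := by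
  classical
  rcases n with _ | n
  · simp [Chain.ker]
  · have h : (blockChain J hJ hJ1 C t l).ker i (n + 1) (Sum.inr b) (Sum.inl a) =
      ∑ x, (blockChain J hJ hJ1 C t l).ker i n (Sum.inr b) x * 0 := rfl
    rw [h]
    simp

theorem bc_ker (i n : ℕ) (b : B → U) (f : U → ℝ) :
    ∑ b', (blockChain J hJ hJ1 C t l).ker (i + 1) n (Sum.inr b) (Sum.inr b') * f (b' t) =
      ∑ y, C.ker (l + i) n (b t) y * f y := by
  classical
  induction n generalizing f with
  | zero =>
    simp [Chain.ker]
  | succ n ih =>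
    have h : ∀ b' : B → U, (blockChain J hJ hJ1 C t l).ker (i + 1) (n + 1) (Sum.inr b)
        (Sum.inr b') = ∑ b1 : B → U, (blockChain J hJ hJ1 C t l).ker (i + 1) n (Sum.inr b)
          (Sum.inr b1) * blockStep J C t l (i + n + 1) (Sum.inr b1) b' := by
      intro b'
      have h1 : (blockChain J hJ hJ1 C t l).ker (i + 1) (n + 1) (Sum.inr b) (Sum.inr b') =
        ∑ x, (blockChain J hJ hJ1 C t l).ker (i + 1) n (Sum.inr b) x *
          blockStep J C t l (i + 1 + n) x b' := rfl
      rw [h1, Fintype.sum_sum_type]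
      simp only [bc_ker_inr_inl, zero_mul, Finset.sum_const_zero, zero_add]
      rw [show i + 1 + n = i + n + 1 by omega]
    simp_rw [h, Finset.sum_mul]
    rw [Finset.sum_comm]
    have h1 : ∀ b1 : B → U, ∑ b', (blockChain J hJ hJ1 C t l).ker (i + 1) n (Sum.inr b)
        (Sum.inr b1) * blockStep J C t l (i + n + 1) (Sum.inr b1) b' * f (b' t) =
        (blockChain J hJ hJ1 C t l).ker (i + 1) n (Sum.inr b) (Sum.inr b1) *
          ∑ y, C.step (l + (i + n)) (b1 t) y * f y := by
      intro b1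
      rw [← sum_blockStep_succ (J := J) (C := C) (t := t) (l := l) (i + n) b1 f, Finset.mul_sum]
      exact Finset.sum_congr rfl fun b' _ => by ring
    simp_rw [h1]
    rw [ih fun x => ∑ y, C.step (l + (i + n)) x y * f y]
    have h2 : ∀ y, C.ker (l + i) (n + 1) (b t) y =
        ∑ x, C.ker (l + i) n (b t) x * C.step (l + (i + n)) x y := by
      intro y
      rw [← add_assoc l i n]
      rfl
    simp_rw [h2, Finset.sum_mul, Finset.mul_sum]
    rw [Finset.sum_comm]
    exact Finset.sum_congr rfl fun y _ => Finset.sum_congr rfl fun x _ => by ring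

/-- later pairs -/
theorem bc_pair (hJt : ∀ f : U → ℝ, ∑ a, ∑ b, J a b * f (b t) = ∑ x, C.law l x * f x)
    {i j : ℕ} (h : i ≤ j) (f : U → U → ℝ) :
    ∑ b, ∑ b', (blockChain J hJ hJ1 C t l).pair (i + 1) (j + 1) (Sum.inr b) (Sum.inr b') *
      f (b t) (b' t) = ∑ x, ∑ y, C.pair (l + i) (l + j) x y * f x y := by
  have h1 : ∀ b : B → U, ∑ b', (blockChain J hJ hJ1 C t l).pair (i + 1) (j + 1) (Sum.inr b)
      (Sum.inr b') * f (b t) (b' t) = (blockChain J hJ hJ1 C t l).law (i + 1) (Sum.inr b) *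
        ∑ y, C.ker (l + i) (j - i) (b t) y * f (b t) y := by
    intro b
    have h2 := bc_ker (J := J) (hJ := hJ) (hJ1 := hJ1) (C := C) (t := t) (l := l) i (j - i) b
      (f (b t))
    rw [← h2, Finset.mul_sum]
    refine Finset.sum_congr rfl fun b' _ => ?_
    unfold Chain.pair
    rw [show j + 1 - (i + 1) = j - i by omega]
    ring
  simp_rw [h1]
  rw [bc_law hJt i fun x => ∑ y, C.ker (l + i) (j - i) x y * f x y]
  refine Finset.sum_congr rfl fun x _ => ?_
  rw [Finset.mul_sum]
  refine Finset.sum_congr rfl fun y _ => ?_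
  unfold Chain.pair
  rw [show l + j - (l + i) = j - i by omega]
  ring

/-- pairs from the first block -/
theorem bc_pair_zero (j : ℕ) (f : (A → U) → U → ℝ) :
    ∑ a, ∑ b', (blockChain J hJ hJ1 C t l).pair 0 (j + 1) (Sum.inl a) (Sum.inr b') *
      f a (b' t) = ∑ a, ∑ b, J a b * ∑ y, C.ker l j (b t) y * f a y := by
  refine Finset.sum_congr rfl fun a _ => ?_
  have h1 : ∀ b' : B → U, (blockChain J hJ hJ1 C t l).pair 0 (j + 1) (Sum.inl a) (Sum.inr b') =
      ∑ b : B → U, J a b * (blockChain J hJ hJ1 C t l).ker 1 j (Sum.inr b) (Sum.inr b') := by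
    intro b'
    unfold Chain.pair
    rw [bc_law_zero_inl, show j + 1 - 0 = j + 1 from rfl, Chain.fo_ker_succ',
      Fintype.sum_sum_type]
    have h2 : ∀ a' : A → U, (blockChain J hJ hJ1 C t l).step 0 (Sum.inl a) (Sum.inl a') = 0 :=
      fun _ => rfl
    have h3 : ∀ b : B → U, (blockChain J hJ hJ1 C t l).step 0 (Sum.inl a) (Sum.inr b) =
      blockStep J C t l 0 (Sum.inl a) b := fun _ => rfl
    simp only [h2, h3, zero_mul, Finset.sum_const_zero, zero_add]
    rw [Finset.mul_sum]
    refine Finset.sum_congr rfl fun b _ => ?_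
    rw [← mul_assoc, mul_blockStep_zero hJ]
  simp_rw [h1, Finset.sum_mul]
  rw [Finset.sum_comm]
  refine Finset.sum_congr rfl fun b _ => ?_
  have h4 := bc_ker (J := J) (hJ := hJ) (hJ1 := hJ1) (C := C) (t := t) (l := l) 0 j b (f a)
  rw [add_zero] at h4
  rw [← h4, Finset.mul_sum]
  refine Finset.sum_congr rfl fun b' _ => ?_
  rw [zero_add]
  ring

theorem bc_pair_zero_one (a : A → U) (b : B → U) :
    (blockChain J hJ hJ1 C t l).pair 0 1 (Sum.inl a) (Sum.inr b) = J a b := by
  unfold Chain.pair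
  rw [bc_law_zero_inl, show 1 - 0 = 1 from rfl, Chain.fo_ker_one]
  exact mul_blockStep_zero (C := C) (t := t) (l := l) hJ a b

theorem bc_pair_inl (i n : ℕ) (x : (A → U) ⊕ (B → U)) (a : A → U) :
    (blockChain J hJ hJ1 C t l).pair i (n + i + 1) x (Sum.inl a) = 0 := by
  unfold Chain.pair
  rw [show n + i + 1 - i = n + 1 by omega]
  have h : (blockChain J hJ hJ1 C t l).ker i (n + 1) x (Sum.inl a) =
      ∑ y, (blockChain J hJ hJ1 C t l).ker i n x y * 0 := rfl
  rw [h]
  simp

/-- the mutual information of the two blocks -/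
theorem bc_info_zero_one : (blockChain J hJ hJ1 C t l).info 0 1 =
    ∑ a, ∑ b, J a b * (Real.log (J a b) - Real.log (∑ b', J a b') -
      Real.log (∑ a', J a' b)) := by
  unfold Chain.info
  rw [Fintype.sum_sum_type]
  have h1 : ∀ b : B → U, ∑ y, (blockChain J hJ hJ1 C t l).pair 0 1 (Sum.inr b) y *
      (Real.log ((blockChain J hJ hJ1 C t l).pair 0 1 (Sum.inr b) y) -
        Real.log ((blockChain J hJ hJ1 C t l).law 0 (Sum.inr b)) -
        Real.log ((blockChain J hJ hJ1 C t l).law 1 y)) = 0 := by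
    intro b
    refine Finset.sum_eq_zero fun y _ => ?_
    have : (blockChain J hJ hJ1 C t l).pair 0 1 (Sum.inr b) y = 0 := by
      unfold Chain.pair
      rw [bc_law_zero_inr, zero_mul]
    rw [this, zero_mul]
  simp_rw [h1]
  rw [Finset.sum_const_zero, add_zero]
  refine Finset.sum_congr rfl fun a _ => ?_
  rw [Fintype.sum_sum_type]
  have h2 : ∀ a' : A → U, (blockChain J hJ hJ1 C t l).pair 0 1 (Sum.inl a) (Sum.inl a') = 0 :=
    fun a' => bc_pair_inl 0 0 _ a'
  simp only [h2, zero_mul, Finset.sum_const_zero, zero_add, bc_pair_zero_one, bc_law_zero_inl,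
    bc_law_one]

theorem bc_law_single (ht : ∀ b : B, b = t)
    (hJt : ∀ f : U → ℝ, ∑ a, ∑ b, J a b * f (b t) = ∑ x, C.law l x * f x) (n : ℕ)
    (b : B → U) : (blockChain J hJ hJ1 C t l).law (n + 1) (Sum.inr b) = C.law (l + n) (b t) := by
  classical
  have h := bc_law (hJ := hJ) (hJ1 := hJ1) hJt n fun x => if x = b t then 1 else 0
  simp only [mul_ite, mul_one, mul_zero, Finset.sum_ite_eq', Finset.mem_univ, if_true] at h
  rw [← h, Finset.sum_eq_single b]
  · simp
  · intro b' _ hb'
    rw [if_neg]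
    intro h1
    refine hb' (funext fun i => ?_)
    rw [ht i]
    exact h1
  · intro h1
    exact absurd (mem_univ _) h1

theorem bc_pair_single (ht : ∀ b : B, b = t)
    (hJt : ∀ f : U → ℝ, ∑ a, ∑ b, J a b * f (b t) = ∑ x, C.law l x * f x) {i j : ℕ} (h : i ≤ j)
    (b b' : B → U) : (blockChain J hJ hJ1 C t l).pair (i + 1) (j + 1) (Sum.inr b) (Sum.inr b') =
      C.pair (l + i) (l + j) (b t) (b' t) := by
  classical
  have h := bc_pair (hJ := hJ) (hJ1 := hJ1) hJt h fun x y => if x = b t ∧ y = b' t then 1 else 0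
  simp only [mul_ite, mul_one, mul_zero] at h
  have hR : ∑ x, ∑ y, (if x = b t ∧ y = b' t then C.pair (l + i) (l + j) x y else 0) =
      C.pair (l + i) (l + j) (b t) (b' t) := by
    rw [Finset.sum_eq_single (b t), Finset.sum_eq_single (b' t)]
    · simp
    · intro y _ hy; rw [if_neg fun h => hy h.2]
    · intro h1; exact absurd (mem_univ _) h1
    · intro x _ hx
      exact Finset.sum_eq_zero fun y _ => by rw [if_neg fun h => hx h.1]
    · intro h1; exact absurd (mem_univ _) h1
  rw [hR] at h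
  rw [← h, Finset.sum_eq_single b, Finset.sum_eq_single b']
  · simp
  · intro c _ hc
    rw [if_neg]
    rintro ⟨-, h1⟩
    exact hc (funext fun i => by rw [ht i]; exact h1)
  · intro h1; exact absurd (mem_univ _) h1
  · intro c _ hc
    refine Finset.sum_eq_zero fun c' _ => ?_
    rw [if_neg]
    rintro ⟨h1, -⟩
    exact hc (funext fun i => by rw [ht i]; exact h1)
  · intro h1; exact absurd (mem_univ _) h1

theorem bc_info_single (ht : ∀ b : B, b = t)
    (hJt : ∀ f : U → ℝ, ∑ a, ∑ b, J a b * f (b t) = ∑ x, C.law l x * f x) {i j : ℕ} (h : i < j) :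
    (blockChain J hJ hJ1 C t l).info (i + 1) (j + 1) = C.info (l + i) (l + j) := by
  unfold Chain.info
  rw [Fintype.sum_sum_type]
  have h1 : ∀ a : A → U, ∑ y, (blockChain J hJ hJ1 C t l).pair (i + 1) (j + 1) (Sum.inl a) y *
      (Real.log ((blockChain J hJ hJ1 C t l).pair (i + 1) (j + 1) (Sum.inl a) y) -
        Real.log ((blockChain J hJ hJ1 C t l).law (i + 1) (Sum.inl a)) -
        Real.log ((blockChain J hJ hJ1 C t l).law (j + 1) y)) = 0 := by
    intro a
    refine Finset.sum_eq_zero fun y _ => ?_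
    have : (blockChain J hJ hJ1 C t l).pair (i + 1) (j + 1) (Sum.inl a) y = 0 := by
      unfold Chain.pair
      rw [bc_law_succ_inl, zero_mul]
    rw [this, zero_mul]
  simp_rw [h1]
  rw [Finset.sum_const_zero, zero_add]
  have h2 := bc_pair (hJ := hJ) (hJ1 := hJ1) hJt h.le fun x y =>
    Real.log (C.pair (l + i) (l + j) x y) - Real.log (C.law (l + i) x) -
      Real.log (C.law (l + j) y)
  rw [← h2]
  refine Finset.sum_congr rfl fun b _ => ?_
  rw [Fintype.sum_sum_type]
  have h3 : ∀ a' : A → U, (blockChain J hJ hJ1 C t l).pair (i + 1) (j + 1) (Sum.inr b)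
      (Sum.inl a') = 0 := by
    intro a'
    have := bc_pair_inl (J := J) (hJ := hJ) (hJ1 := hJ1) (C := C) (t := t) (l := l) (i + 1)
      (j - i - 1) (Sum.inr b) a'
    rwa [show j - i - 1 + (i + 1) + 1 = j + 1 by omega] at this
  simp only [h3, zero_mul, Finset.sum_const_zero, zero_add]
  refine Finset.sum_congr rfl fun b' _ => ?_
  rw [bc_pair_single ht hJt h.le, bc_law_single ht hJt, bc_law_single ht hJt]

end block

end Vale.Agent.P050.Lev
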