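import Vale.Agent.P050.Lev.KSid

/-!
Statement-level definitions: an inductively defined class of levelled graphs with tied pairs.
-/

namespace Vale.Agent.P050.Lev.Cls

open Finset

section glue

variable {S L R : Type} [Fintype S] [DecidableEq S] [Fintype L] [DecidableEq L] [Fintype R]
  [DecidableEq R]

/-- gluing along `S`: the first part -/
def gl : S ⊕ L → S ⊕ (L ⊕ R) := Sum.map id Sum.inl

/-- gluing along `S`: the second part -/
def gr : S ⊕ R → S ⊕ (L ⊕ R) := Sum.map id Sum.inr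

/-- gluing: the edges -/
def glueEdges (E₁ : Finset ((S ⊕ L) × (S ⊕ L))) (E₂ : Finset ((S ⊕ R) × (S ⊕ R))) :
    Finset ((S ⊕ (L ⊕ R)) × (S ⊕ (L ⊕ R))) :=
  E₁.image (Prod.map gl gl) ∪ E₂.image (Prod.map gr gr)

/-- gluing: the tied pairs -/
def glueRel (R₁ : S ⊕ L → S ⊕ L → Prop) (R₂ : S ⊕ R → S ⊕ R → Prop)
    (u v : S ⊕ (L ⊕ R)) : Prop :=
  (∃ a b, u = gl a ∧ v = gl b ∧ R₁ a b) ∨ ∃ a b, u = gr a ∧ v = gr b ∧ R₂ a b

end glue

section cone

variable {V : Type} [Fintype V] [DecidableEq V]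

/-- the cone: the new vertex `none` is joined to the vertices of `D` -/
def coneEdges (E : Finset (V × V)) (D : Finset V) : Finset (Option V × Option V) :=
  E.image (fun e => (some e.1, some e.2)) ∪ D.image (fun d => (none, some d))

/-- the cone: the new vertex is tied to all others -/
def coneRel (R : V → V → Prop) : Option V → Option V → Prop
  | none, some _ => True
  | some a, some b => R a b
  | _, none => False

/-- the cone: the new vertex has level `0`, the others move up by one -/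
def coneLev (lev : V → ℕ) : Option V → ℕ
  | none => 0
  | some v => lev v + 1

variable {J : Type} [Fintype J] [DecidableEq J]

/-- clones of `v`: the clone `j` is related to the vertices of `N j` -/
def cloneRel (R : V → V → Prop) (lev : V → ℕ) (v : V) (N : J → Finset V) : V ⊕ J → V ⊕ J → Prop
  | Sum.inl a, Sum.inl b => R a b
  | Sum.inr j, Sum.inl a => a ∈ N j ∧ lev v < lev a
  | Sum.inl a, Sum.inr j => a ∈ N j ∧ lev a < lev v
  | Sum.inr _, Sum.inr _ => False

open Classical in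
/-- clones of `v`: the edges -/
noncomputable def cloneEdges (E : Finset (V × V)) (lev : V → ℕ) (v : V) (N : J → Finset V) :
    Finset ((V ⊕ J) × (V ⊕ J)) :=
  Finset.univ.filter fun e => cloneRel (fun a b => (a, b) ∈ E) lev v N e.1 e.2

end cone

section subst

variable {W : Type} [Fintype W] [DecidableEq W]

/-- the edges between level `0` and the other levels -/
abbrev LowE (EF : Finset (W × W)) (levF : W → ℕ) : Type :=
  {e : W × W // e ∈ EF ∧ levF e.1 = 0 ∧ levF e.2 ≠ 0}

/-- a copy of `A` for each vertex of level `0`, a copy of `B` for each other vertex -/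
abbrev BlkV (levF : W → ℕ) (A B : Type) : Type :=
  ({w : W // levF w = 0} × A) ⊕ ({w : W // levF w ≠ 0} × B)

/-- substitution: the vertices; there is a copy of `M` for each edge from level `0` -/
abbrev SubV (EF : Finset (W × W)) (levF : W → ℕ) (A B M : Type) : Type :=
  BlkV levF A B ⊕ (LowE EF levF × M)

variable {EF : Finset (W × W)} {levF : W → ℕ} {A B M : Type}

/-- the copies of `A` and `B` at the ends of the edge `e` -/
def blkInc (e : LowE EF levF) : A ⊕ B → BlkV levF A B
  | Sum.inl a => Sum.inl (⟨e.1.1, e.2.2.1⟩, a)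
  | Sum.inr b => Sum.inr (⟨e.1.2, e.2.2.2⟩, b)

/-- the copy of `A ⊕ B ⊕ M` at the edge `e` -/
def subInc (e : LowE EF levF) : (A ⊕ B) ⊕ M → SubV EF levF A B M :=
  Sum.map (blkInc e) (Prod.mk e)

/-- substitution: the levels -/
def subLev (EF : Finset (W × W)) (levF : W → ℕ) (levD : (A ⊕ B) ⊕ M → ℕ) :
    SubV EF levF A B M → ℕ
  | Sum.inl (Sum.inl p) => levD (Sum.inl (Sum.inl p.2))
  | Sum.inl (Sum.inr p) => levD (Sum.inl (Sum.inr p.2)) + (levF p.1 - 1)
  | Sum.inr p => levD (Sum.inr p.2)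

/-- substitution: the tied pairs -/
def subRel (EF : Finset (W × W)) (levF : W → ℕ) (RF : W → W → Prop)
    (RD : (A ⊕ B) ⊕ M → (A ⊕ B) ⊕ M → Prop) (t : B) (x y : SubV EF levF A B M) : Prop :=
  (∃ (e : LowE EF levF) (p q : (A ⊕ B) ⊕ M), x = subInc e p ∧ y = subInc e q ∧ RD p q) ∨
  (∃ w w' : {w : W // levF w ≠ 0}, x = Sum.inl (Sum.inr (w, t)) ∧
    y = Sum.inl (Sum.inr (w', t)) ∧ RF w w') ∨
  (∃ (w : {w : W // levF w = 0}) (a : A) (w' : {w : W // levF w ≠ 0}) (b : B),
    x = Sum.inl (Sum.inl (w, a)) ∧ y = Sum.inl (Sum.inr (w', b)) ∧ RF w w' ∧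
      RD (Sum.inl (Sum.inl a)) (Sum.inl (Sum.inr b)))

variable [Fintype A] [DecidableEq A] [Fintype B] [DecidableEq B] [Fintype M] [DecidableEq M]

open Classical in
/-- substitution: the edges -/
noncomputable def subEdges (EF : Finset (W × W)) (levF : W → ℕ)
    (ED : Finset (((A ⊕ B) ⊕ M) × ((A ⊕ B) ⊕ M))) (t : B) :
    Finset (SubV EF levF A B M × SubV EF levF A B M) :=
  univ.filter fun x => (∃ (e : LowE EF levF) (p q : (A ⊕ B) ⊕ M),
    x.1 = subInc e p ∧ x.2 = subInc e q ∧ (p, q) ∈ ED) ∨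
    ∃ w w' : {w : W // levF w ≠ 0}, x.1 = Sum.inl (Sum.inr (w, t)) ∧
      x.2 = Sum.inl (Sum.inr (w', t)) ∧ (w.1, w'.1) ∈ EF

open Classical in
omit [DecidableEq A] [DecidableEq B] [DecidableEq M] in
theorem mem_subEdges {ED : Finset (((A ⊕ B) ⊕ M) × ((A ⊕ B) ⊕ M))} {t : B}
    {x y : SubV EF levF A B M} : (x, y) ∈ subEdges EF levF ED t ↔
    (∃ (e : LowE EF levF) (p q : (A ⊕ B) ⊕ M),
      x = subInc e p ∧ y = subInc e q ∧ (p, q) ∈ ED) ∨
    ∃ w w' : {w : W // levF w ≠ 0}, x = Sum.inl (Sum.inr (w, t)) ∧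
      y = Sum.inl (Sum.inr (w', t)) ∧ (w.1, w'.1) ∈ EF := by
  rw [subEdges, Finset.mem_filter]
  exact and_iff_right (mem_univ _)

end subst

/-- The class of levelled graphs `(V, E, R, lev)`: `E` is the set of edges, directed upwards, `R`
the relation of tied pairs (it contains the edges), `lev` the level. -/
inductive LevelClass : ∀ (V : Type) [Fintype V] [DecidableEq V],
    Finset (V × V) → (V → V → Prop) → (V → ℕ) → Prop
  /-- a graph on two levels with the two-sided Sidorenko inequality; the edges are tied -/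
  | piece {V : Type} [Fintype V] [DecidableEq V] {E : Finset (V × V)} {side : V → Bool}
      (h : KSid E side) : LevelClass V E (fun u v => (u, v) ∈ E) (fun v => if side v then 1 else 0)
  /-- relabelling of the vertices, possibly with fewer tied pairs -/
  | relabel {V V' : Type} [Fintype V] [DecidableEq V] [Fintype V'] [DecidableEq V'] (φ : V ≃ V')
      {E : Finset (V × V)} {R : V → V → Prop} {lev : V → ℕ} (h : LevelClass V E R lev)
      {E' : Finset (V' × V')} {R' : V' → V' → Prop} {lev' : V' → ℕ}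
      (hE : ∀ a b, (φ a, φ b) ∈ E' ↔ (a, b) ∈ E) (hR : ∀ a b, R' (φ a) (φ b) → R a b)
      (hER : ∀ e ∈ E', R' e.1 e.2) (hl : ∀ a, lev' (φ a) = lev a) : LevelClass V' E' R' lev'
  /-- tied pairs may be made edges -/
  | more {V : Type} [Fintype V] [DecidableEq V] {E E' : Finset (V × V)} {R : V → V → Prop}
      {lev : V → ℕ} (h : LevelClass V E R lev) (hE : E ⊆ E') (hR : ∀ e ∈ E', R e.1 e.2) :
      LevelClass V E' R lev
  /-- monotone change of the levels which separates the tied pairs -/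
  | time {V : Type} [Fintype V] [DecidableEq V] {E : Finset (V × V)} {R : V → V → Prop}
      {lev : V → ℕ} (h : LevelClass V E R lev) {τ : ℕ → ℕ} (hτ : Monotone τ)
      (hR : ∀ u v, R u v → τ (lev u) < τ (lev v)) : LevelClass V E R (fun v => τ (lev v))
  /-- reversal of the levels -/
  | reverse {V : Type} [Fintype V] [DecidableEq V] {E : Finset (V × V)} {R : V → V → Prop}
      {lev : V → ℕ} (h : LevelClass V E R lev) {N : ℕ} (hN : ∀ v, lev v ≤ N) :
      LevelClass V (E.image Prod.swap) (fun a b => R b a) (fun v => N - lev v)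
  /-- ties through a cut vertex `v`: from a vertex below to a vertex above in another piece -/
  | cut {V : Type} [Fintype V] [DecidableEq V] {ι : Type} [Fintype ι] [DecidableEq ι]
      {E : Finset (V × V)} {R : V → V → Prop} {lev : V → ℕ} (h : LevelClass V E R lev) (v : V)
      (comp : V → ι) (hR : ∀ a b, R a b → a = v ∨ b = v ∨ comp a = comp b) :
      LevelClass V E (fun a b => R a b ∨ (R a v ∧ R v b ∧ comp a ≠ comp b)) lev
  /-- gluing along a vertex or a tied pair (or a disjoint union) -/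
  | glue {S L R : Type} [Fintype S] [DecidableEq S] [Fintype L] [DecidableEq L] [Fintype R]
      [DecidableEq R] {E₁ : Finset ((S ⊕ L) × (S ⊕ L))} {E₂ : Finset ((S ⊕ R) × (S ⊕ R))}
      {R₁ : S ⊕ L → S ⊕ L → Prop} {R₂ : S ⊕ R → S ⊕ R → Prop} {lev : S ⊕ (L ⊕ R) → ℕ}
      (h₁ : LevelClass (S ⊕ L) E₁ R₁ (lev ∘ gl)) (h₂ : LevelClass (S ⊕ R) E₂ R₂ (lev ∘ gr))
      (hc : Fintype.card S ≤ 2)
      (hS : ∀ u v : S, u ≠ v → (R₁ (Sum.inl u) (Sum.inl v) ∧ R₂ (Sum.inl u) (Sum.inl v)) ∨
        (R₁ (Sum.inl v) (Sum.inl u) ∧ R₂ (Sum.inl v) (Sum.inl u))) :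
      LevelClass (S ⊕ (L ⊕ R)) (glueEdges E₁ E₂) (glueRel R₁ R₂) lev
  /-- replacing an edge by a member of the class in which the ends of the edge are tied -/
  | replace {S L R : Type} [Fintype S] [DecidableEq S] [Fintype L] [DecidableEq L] [Fintype R]
      [DecidableEq R] {E₁ : Finset ((S ⊕ L) × (S ⊕ L))} {E₂ : Finset ((S ⊕ R) × (S ⊕ R))}
      {R₁ : S ⊕ L → S ⊕ L → Prop} {R₂ : S ⊕ R → S ⊕ R → Prop} {lev : S ⊕ (L ⊕ R) → ℕ}
      (h₁ : LevelClass (S ⊕ L) E₁ R₁ (lev ∘ gl)) (h₂ : LevelClass (S ⊕ R) E₂ R₂ (lev ∘ gr))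
      {u v : S} (hall : ∀ w : S, w = u ∨ w = v) (hR1 : R₁ (Sum.inl u) (Sum.inl v))
      (he : (Sum.inl u, Sum.inl v) ∈ E₂) :
      LevelClass (S ⊕ (L ⊕ R)) (glueEdges E₁ (E₂.erase (Sum.inl u, Sum.inl v)))
        (glueRel R₁ R₂) lev
  /-- a new vertex below everything, tied to everything, joined to at least the vertices without
  an edge from below -/
  | cone {V : Type} [Fintype V] [DecidableEq V] {E : Finset (V × V)} {R : V → V → Prop}
      {lev : V → ℕ} (h : LevelClass V E R lev) (D : Finset V)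
      (hD : ∀ v, v ∈ D ∨ ∃ u, (u, v) ∈ E) :
      LevelClass (Option V) (coneEdges E D) (coneRel R) (coneLev lev)
  /-- clones of a vertex `v`, each joined to vertices tied to `v` in different pieces at `v` -/
  | clone {V J : Type} [Fintype V] [DecidableEq V] [Fintype J] [DecidableEq J] {ι : Type}
      [Fintype ι] [DecidableEq ι] {E : Finset (V × V)} {R : V → V → Prop} {lev : V → ℕ}
      (h : LevelClass V E R lev) (v : V) (comp : V → ι)
      (hR : ∀ a b, R a b → a = v ∨ b = v ∨ comp a = comp b) (N : J → Finset V)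
      (hNR : ∀ j, ∀ a ∈ N j, R v a ∨ R a v)
      (hN : ∀ j, ∀ a ∈ N j, ∀ b ∈ N j, comp a = comp b → a = b) :
      LevelClass (V ⊕ J) (cloneEdges E lev v N) (cloneRel R lev v N)
        (Sum.elim lev fun _ : J => lev v)
  /-- substitution: each vertex of level `0` becomes a copy of `A`, each other vertex a copy of
  `B`, and each edge between level `0` and level `1` carries a copy of a member of the class on
  `A ⊔ B ⊔ M`; the edges inside `A` and inside `B` form forests directed away from the roots -/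
  | subst {W A B M : Type} [Fintype W] [DecidableEq W] [Fintype A] [DecidableEq A] [Fintype B]
      [DecidableEq B] [Fintype M] [DecidableEq M]
      {EF : Finset (W × W)} {RF : W → W → Prop} {levF : W → ℕ}
      {ED : Finset (((A ⊕ B) ⊕ M) × ((A ⊕ B) ⊕ M))} {RD : (A ⊕ B) ⊕ M → (A ⊕ B) ⊕ M → Prop}
      {levD : (A ⊕ B) ⊕ M → ℕ} (hF : LevelClass W EF RF levF)
      (hD : LevelClass ((A ⊕ B) ⊕ M) ED RD levD)
      (t : B) (h01 : ∀ e ∈ EF, levF e.1 = 0 → levF e.2 = 1)
      (hA : ∀ w, levF w = 0 → ∃ e ∈ EF, e.1 = w)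
      (hB : (∀ b : B, b = t) ∨ ((∀ w, levF w ≤ 1) ∧ ∀ w, levF w = 1 → ∃ e ∈ EF, e.2 = w))
      (hinA : ∀ a a' c : A, (Sum.inl (Sum.inl a), Sum.inl (Sum.inl c)) ∈ ED →
        (Sum.inl (Sum.inl a'), Sum.inl (Sum.inl c)) ∈ ED → a = a')
      (hinB : ∀ b b' c : B, (Sum.inl (Sum.inr b), Sum.inl (Sum.inr c)) ∈ ED →
        (Sum.inl (Sum.inr b'), Sum.inl (Sum.inr c)) ∈ ED → b = b') :
      LevelClass (SubV EF levF A B M) (subEdges EF levF ED t) (subRel EF levF RF RD t)
        (subLev EF levF levD)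

end Vale.Agent.P050.Lev.Cls
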