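import Vale.Agent.P050.Lev.ClassDefs
import Vale.Agent.P050.Lev.TwoEnds

/-!
Every member of the class is good.
-/

namespace Vale.Agent.P050.Lev

open Finset

theorem coneRel_eq {V : Type} (R : V → V → Prop) : Cls.coneRel R = coneRel R := by
  funext a b
  rcases a with _ | a <;> rcases b with _ | b <;> rfl

theorem coneLev_eq {V : Type} (lev : V → ℕ) : Cls.coneLev lev = coneLev lev := by
  funext a
  rcases a with _ | a <;> rfl

theorem cloneRel_eq {V J : Type} [Fintype V] [DecidableEq V] [Fintype J] [DecidableEq J]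
    (R : V → V → Prop) (lev : V → ℕ) (v : V) (N : J → Finset V) :
    Cls.cloneRel R lev v N = cloneRel R lev v N := by
  funext a b
  rcases a with a | a <;> rcases b with b | b <;> rfl

theorem subLev_eq {W A B M : Type} (EF : Finset (W × W)) (levF : W → ℕ)
    (levD : (A ⊕ B) ⊕ M → ℕ) : Cls.subLev EF levF levD = subLev EF levF levD := by
  funext a
  rcases a with (a | a) | a <;> rfl

theorem subInc_eq {W A B M : Type} {EF : Finset (W × W)} {levF : W → ℕ} (e : LowE EF levF) :
    (Cls.subInc e : (A ⊕ B) ⊕ M → SubV EF levF A B M) = subInc e := by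
  funext a
  rcases a with (a | a) | a <;> rfl

theorem cloneEdges_eq {V J : Type} [Fintype V] [DecidableEq V] [Fintype J] [DecidableEq J]
    (E : Finset (V × V)) (lev : V → ℕ) (v : V) (N : J → Finset V) :
    Cls.cloneEdges E lev v N = cloneEdges E lev v N := by
  classical
  ext x
  rw [Cls.cloneEdges, cloneEdges, Finset.mem_filter, Finset.mem_filter, cloneRel_eq]

theorem subRel_eq {W A B M : Type} (EF : Finset (W × W)) (levF : W → ℕ) (RF : W → W → Prop)
    (RD : (A ⊕ B) ⊕ M → (A ⊕ B) ⊕ M → Prop) (t : B) :
    Cls.subRel EF levF RF RD t = subRel EF levF RF RD t := by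
  funext x y
  unfold Cls.subRel subRel
  simp only [subInc_eq]

theorem subEdges_eq {W A B M : Type} [Fintype W] [DecidableEq W] [Fintype A] [DecidableEq A]
    [Fintype B] [DecidableEq B] [Fintype M] [DecidableEq M] (EF : Finset (W × W)) (levF : W → ℕ)
    (ED : Finset (((A ⊕ B) ⊕ M) × ((A ⊕ B) ⊕ M))) (t : B) :
    Cls.subEdges EF levF ED t = subEdges EF levF ED t := by
  ext ⟨x, y⟩
  refine Cls.mem_subEdges.trans ?_
  rw [mem_subEdges]
  simp only [subInc_eq]

/-- Every member of the class is good. -/
theorem levelClass_good {V : Type} [Fintype V] [DecidableEq V] {E : Finset (V × V)}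
    {R : V → V → Prop} {lev : V → ℕ} (h : Cls.LevelClass V E R lev) : Good E R lev := by
  induction h with
  | piece h => exact good_of_KSid h 0 _ fun v => by simp
  | relabel φ h hE hR hER hl ih => exact ih.transport φ hE hR hER hl
  | more h hE hR ih => exact ih.more hE hR
  | time h hτ hR ih => exact ih.timeChange hτ hR
  | reverse h hN ih => exact ih.reverse hN
  | cut h v comp hR ih => exact ih.cut v comp hR
  | glue h₁ h₂ hc hS ih₁ ih₂ => exact ih₁.glue ih₂ hc hS
  | replace h₁ h₂ hall hR1 he ih₁ ih₂ => exact ih₁.glueDrop ih₂ hall hR1 he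
  | cone h D hD ih =>
    rw [coneRel_eq, coneLev_eq]
    exact ih.cone D hD
  | clone h v comp hR N hNR hN ih =>
    have h1 := ih.clone v comp hR N hNR hN
    rw [cloneRel_eq, cloneEdges_eq]
    exact h1
  | subst hF hD t h01 hA hB hinA hinB ihF ihD =>
    have h1 := ihF.subst ihD t h01 hA hB hinA hinB
    rw [subLev_eq, subRel_eq, subEdges_eq]
    exact h1

/-- A graph whose edges, directed upwards, form a member of the class satisfies the two-sided
Sidorenko inequality. -/
theorem levelClass_gsid {V : Type} [Fintype V] [DecidableEq V] {E : Finset (V × V)}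
    {R : V → V → Prop} {lev : V → ℕ} (h : Cls.LevelClass V E R lev)
    (hE : ∀ e ∈ E, lev e.2 = lev e.1 + 1) {H : SimpleGraph V}
    (hH : ∀ u v, H.Adj u v ↔ (u, v) ∈ E ∨ (v, u) ∈ E) :
    GSid H fun v => decide (lev v % 2 = 1) := by
  have hadj : ∀ u v, H.Adj u v → lev v = lev u + 1 ∨ lev u = lev v + 1 := by
    intro u v huv
    rcases (hH u v).1 huv with h1 | h1
    · exact Or.inl (hE _ h1)
    · exact Or.inr (hE _ h1)
  refine gsid_of_good H lev R hadj ?_
  have hEE : upEdges H lev = E := by
    ext ⟨u, v⟩
    rw [mem_upEdges, hH]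
    constructor
    · rintro ⟨h1 | h1, h2⟩
      · exact h1
      · have := hE _ h1
        simp only at this
        omega
    · intro h1
      exact ⟨Or.inl h1, hE _ h1⟩
  rw [hEE]
  exact levelClass_good h

end Vale.Agent.P050.Lev
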