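import Mathlib
import Vale.Agent.P050.Lev.Defs
import Vale.Agent.P050.Lev.Amalgam

/-!
The clone rule: new vertices which are copies of a vertex `v`, each attached to neighbours of `v`
lying in distinct components of the graph without `v`.
-/

set_option linter.unusedSectionVars false

namespace Vale.Agent.P050.Lev

open Finset

section star

variable {ι U : Type} [Fintype ι] [DecidableEq ι] [Fintype U] {Y : ι → Type}
  [∀ i, Fintype (Y i)]

/-- The law of a star: a root with law `p`, and leaves which are conditionally independent given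
the root; `A i` is the joint law of the root and the leaf `i`. -/
noncomputable def star (p : U → ℝ) (A : ∀ i, U → Y i → ℝ) (x : U) (y : ∀ i, Y i) : ℝ :=
  p x * ∏ i, (A i x (y i) / p x)

theorem star_prod (p : U → ℝ) (A : ∀ i, U → Y i → ℝ) (x : U) (F : ∀ i, Y i → ℝ) :
    ∑ y : (∀ i, Y i), star p A x y * ∏ i, F i (y i) =
      p x * ∏ i, ((∑ u, A i x u * F i u) / p x) := by
  have h := Finset.prod_univ_sum (fun i : ι => (Finset.univ : Finset (Y i)))
    (fun i u => A i x u * F i u / p x)
  rw [Fintype.piFinset_univ] at h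
  simp only [Finset.sum_div]
  rw [h, Finset.mul_sum]
  refine Finset.sum_congr rfl fun y _ => ?_
  rw [star, mul_assoc, ← Finset.prod_mul_distrib]
  congr 1
  refine Finset.prod_congr rfl fun i _ => ?_
  ring

theorem star_nonneg {p : U → ℝ} {A : ∀ i, U → Y i → ℝ} (hp : ∀ x, 0 ≤ p x)
    (hA : ∀ i x u, 0 ≤ A i x u) (x : U) (y : ∀ i, Y i) : 0 ≤ star p A x y :=
  mul_nonneg (hp x) (Finset.prod_nonneg fun i _ => div_nonneg (hA i x _) (hp x))

theorem star_marg {p : U → ℝ} {A : ∀ i, U → Y i → ℝ} (hA : ∀ i x u, 0 ≤ A i x u)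
    (hs : ∀ i x, ∑ u, A i x u = p x) (i : ι) (x : U) (g : Y i → ℝ) :
    ∑ y : (∀ i, Y i), star p A x y * g (y i) = ∑ u, A i x u * g u := by
  rcases eq_or_ne (p x) 0 with h0 | h0
  · have hz : ∀ u, A i x u = 0 := fun u =>
      (Finset.sum_eq_zero_iff_of_nonneg fun u _ => hA i x u).1 ((hs i x).trans h0) u
        (Finset.mem_univ u)
    simp [star, h0, hz]
  · have h := star_prod p A x (Function.update (fun j (_ : Y j) => (1 : ℝ)) i g)
    have h1 : ∀ y : (∀ j, Y j),
        ∏ j, (Function.update (fun j (_ : Y j) => (1 : ℝ)) i g) j (y j) = g (y i) := by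
      intro y
      rw [Finset.prod_eq_single i]
      · rw [Function.update_self]
      · intro j _ hj
        rw [Function.update_of_ne hj]
      · intro h; exact absurd (Finset.mem_univ i) h
    simp only [h1] at h
    rw [h, Finset.prod_eq_single i]
    · rw [Function.update_self]; field_simp
    · intro j _ hj
      rw [Function.update_of_ne hj]
      simp [hs, h0]
    · intro h; exact absurd (Finset.mem_univ i) h

theorem star_total {p : U → ℝ} {A : ∀ i, U → Y i → ℝ}
    (hs : ∀ i x, ∑ u, A i x u = p x) (x : U) :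
    ∑ y : (∀ i, Y i), star p A x y = p x := by
  have h := star_prod p A x (fun j (_ : Y j) => (1 : ℝ))
  simp only [Finset.prod_const_one, mul_one, hs] at h
  rw [h]
  rcases eq_or_ne (p x) 0 with h0 | h0
  · rw [h0, zero_mul]
  · simp [h0]

theorem star_ne_zero {p : U → ℝ} {A : ∀ i, U → Y i → ℝ} {x : U} {y : ∀ i, Y i}
    (h : star p A x y ≠ 0) : p x ≠ 0 ∧ ∀ i, A i x (y i) ≠ 0 := by
  refine ⟨fun h1 => h (by simp [star, h1]), fun i h1 => h ?_⟩
  have : ∏ i, (A i x (y i) / p x) = 0 :=
    Finset.prod_eq_zero (Finset.mem_univ i) (by rw [h1, zero_div])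
  simp [star, this]

theorem log_star {p : U → ℝ} {A : ∀ i, U → Y i → ℝ} {x : U} {y : ∀ i, Y i}
    (hp : p x ≠ 0) (hA : ∀ i, A i x (y i) ≠ 0) :
    Real.log (star p A x y) =
      Real.log (p x) + ∑ i, (Real.log (A i x (y i)) - Real.log (p x)) := by
  rw [star, Real.log_mul hp (Finset.prod_ne_zero_iff.2 fun i _ => div_ne_zero (hA i) hp),
    Real.log_prod (fun i _ => div_ne_zero (hA i) hp)]
  rw [Finset.sum_congr rfl fun i _ => Real.log_div (hA i) hp]

theorem mul_log_star (p : U → ℝ) (A : ∀ i, U → Y i → ℝ) (x : U) (y : ∀ i, Y i) :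
    star p A x y * Real.log (star p A x y) = star p A x y *
      (Real.log (p x) + ∑ i, (Real.log (A i x (y i)) - Real.log (p x))) := by
  rcases eq_or_ne (star p A x y) 0 with h0 | h0
  · rw [h0]; ring
  · rw [log_star (star_ne_zero h0).1 (star_ne_zero h0).2]

/-- In a star, the information of the root about all the leaves is at most the sum of its
informations about the single leaves. -/
theorem star_info {p : U → ℝ} {A : ∀ i, U → Y i → ℝ} (hp : ∀ x, 0 ≤ p x) (hp1 : ∑ x, p x = 1)
    (hA : ∀ i x u, 0 ≤ A i x u) (hs : ∀ i x, ∑ u, A i x u = p x) :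
    ∑ x, ∑ y : (∀ i, Y i), star p A x y * (Real.log (star p A x y) -
        Real.log (∑ x', star p A x' y) - Real.log (p x)) ≤
      ∑ i, ∑ x, ∑ u, A i x u * (Real.log (A i x u) - Real.log (p x) -
        Real.log (∑ x', A i x' u)) := by
  classical
  set B : (∀ i, Y i) → ℝ := fun y => ∑ x', star p A x' y with hB
  set b : ∀ i, Y i → ℝ := fun i u => ∑ x', A i x' u with hb
  have hB0 : ∀ y, 0 ≤ B y := fun y => Finset.sum_nonneg fun x _ => star_nonneg hp hA x y
  have hb0 : ∀ i u, 0 ≤ b i u := fun i u => Finset.sum_nonneg fun x _ => hA i x u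
  have hb1 : ∀ i, ∑ u, b i u = 1 := by
    intro i
    simp only [hb]
    rw [Finset.sum_comm, Finset.sum_congr rfl fun x _ => hs i x, hp1]
  have hBm : ∀ (i : ι) (g : Y i → ℝ), ∑ y, B y * g (y i) = ∑ u, b i u * g u := by
    intro i g
    simp only [hB, hb, Finset.sum_mul]
    rw [Finset.sum_comm, Finset.sum_congr rfl fun x _ => star_marg hA hs i x g, Finset.sum_comm]
  have hBt : ∑ y, B y = 1 := by
    simp only [hB]
    rw [Finset.sum_comm, Finset.sum_congr rfl fun x _ => star_total hs x, hp1]
  have hq : ∑ y : (∀ i, Y i), ∏ i, b i (y i) = 1 := by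
    have h := Finset.prod_univ_sum (fun i : ι => (Finset.univ : Finset (Y i))) b
    rw [Fintype.piFinset_univ] at h
    rw [← h, Finset.prod_congr rfl fun i _ => hb1 i, Finset.prod_const_one]
  have hz : ∀ y, ∏ i, b i (y i) = 0 → B y = 0 := by
    intro y hy
    obtain ⟨i, _, hi⟩ := Finset.prod_eq_zero_iff.1 hy
    simp only [hB]
    refine Finset.sum_eq_zero fun x _ => ?_
    by_contra hne
    have h1 := (star_ne_zero hne).2 i
    exact h1 ((Finset.sum_eq_zero_iff_of_nonneg fun x _ => hA i x (y i)).1 hi x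
      (Finset.mem_univ x))
  have hg := gibbs_aux B (fun y => ∏ i, b i (y i)) hB0
    (fun y => Finset.prod_nonneg fun i _ => hb0 i _) (by rw [hq, hBt]) hz
  have hg2 : ∑ y, B y * (Real.log (B y) - Real.log (∏ i, b i (y i))) =
      ∑ y, B y * Real.log (B y) - ∑ i, ∑ u, b i u * Real.log (b i u) := by
    have h1 : ∀ y, B y * (Real.log (B y) - Real.log (∏ i, b i (y i))) =
        B y * Real.log (B y) - ∑ i, B y * Real.log (b i (y i)) := by
      intro y
      rcases eq_or_ne (B y) 0 with h0 | h0
      · rw [h0]; simp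
      · rw [Real.log_prod (fun i hi h2 => h0 (hz y (Finset.prod_eq_zero hi h2))), mul_sub,
          Finset.mul_sum]
    rw [Finset.sum_congr rfl fun y _ => h1 y, Finset.sum_sub_distrib, Finset.sum_comm]
    congr 1
    exact Finset.sum_congr rfl fun i _ => hBm i fun u => Real.log (b i u)
  rw [hg2] at hg
  have hL : ∑ x, ∑ y : (∀ i, Y i), star p A x y * (Real.log (star p A x y) -
      Real.log (B y) - Real.log (p x)) =
      ∑ i, ∑ x, ∑ u, A i x u * (Real.log (A i x u) - Real.log (p x)) -
        ∑ y, B y * Real.log (B y) := by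
    have h1 : ∀ x y, star p A x y * (Real.log (star p A x y) - Real.log (B y) - Real.log (p x)) =
        ∑ i, star p A x y * (Real.log (A i x (y i)) - Real.log (p x)) -
          star p A x y * Real.log (B y) := by
      intro x y
      have h2 := mul_log_star p A x y
      rw [mul_sub, mul_sub, h2, mul_add, Finset.mul_sum]
      ring
    rw [Finset.sum_congr rfl fun x _ => Finset.sum_congr rfl fun y _ => h1 x y]
    simp only [Finset.sum_sub_distrib]
    congr 1
    · rw [Finset.sum_comm (f := fun i x => ∑ u, A i x u * (Real.log (A i x u) - Real.log (p x)))]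
      refine Finset.sum_congr rfl fun x _ => ?_
      rw [Finset.sum_comm]
      exact Finset.sum_congr rfl fun i _ =>
        star_marg hA hs i x fun u => Real.log (A i x u) - Real.log (p x)
    · rw [Finset.sum_comm]
      exact Finset.sum_congr rfl fun y _ => (Finset.sum_mul _ _ _).symm
  have hR : ∑ i, ∑ x, ∑ u, A i x u * (Real.log (A i x u) - Real.log (p x) - Real.log (b i u)) =
      ∑ i, ∑ x, ∑ u, A i x u * (Real.log (A i x u) - Real.log (p x)) -
        ∑ i, ∑ u, b i u * Real.log (b i u) := by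
    rw [← Finset.sum_sub_distrib]
    refine Finset.sum_congr rfl fun i _ => ?_
    simp only [hb, Finset.sum_mul]
    rw [Finset.sum_comm (f := fun u x => A i x u * _), ← Finset.sum_sub_distrib]
    refine Finset.sum_congr rfl fun x _ => ?_
    rw [← Finset.sum_sub_distrib]
    exact Finset.sum_congr rfl fun u _ => by ring
  rw [hL, hR]
  linarith

end star

section reglue

variable {V ι U : Type} [Fintype V] [DecidableEq V] [Fintype ι] [DecidableEq ι] [Fintype U]

/-- the vertices other than `v` in the piece `i` -/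
abbrev Piece (v : V) (comp : V → ι) (i : ι) : Type := {a : V // a ≠ v ∧ comp a = i}

variable (v : V) (comp : V → ι)

/-- the map on `V` with the given value at `v` and the given restrictions to the pieces -/
def mkz (x : U) (t : ∀ i, Piece v comp i → U) (a : V) : U :=
  if h : a = v then x else t (comp a) ⟨a, h, rfl⟩

theorem mkz_self (x : U) (t : ∀ i, Piece v comp i → U) : mkz v comp x t v = x := by
  simp [mkz]

theorem mkz_piece (x : U) (t : ∀ i, Piece v comp i → U) (i : ι) (a : Piece v comp i) :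
    mkz v comp x t a.1 = t i a := by
  obtain ⟨a, ha, rfl⟩ := a
  simp [mkz, ha]

/-- a map on `V` is a value at `v` and restrictions to the pieces -/
def splitEquiv : (V → U) ≃ U × (∀ i, Piece v comp i → U) where
  toFun z := (z v, fun _ a => z a.1)
  invFun p := mkz v comp p.1 p.2
  left_inv z := by
    funext a
    simp only [mkz]
    split_ifs with h
    · rw [h]
    · rfl
  right_inv p := by
    refine Prod.ext (mkz_self v comp _ _) ?_
    funext i a
    exact mkz_piece v comp _ _ i a

theorem sum_split (F : (V → U) → ℝ) :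
    ∑ z, F z = ∑ x, ∑ t : (∀ i, Piece v comp i → U), F (mkz v comp x t) := by
  rw [← Equiv.sum_comp (splitEquiv v comp).symm, Fintype.sum_prod_type]
  rfl

theorem prod_vertices (g : V → ℝ) :
    ∏ a, g a = g v * ∏ i, ∏ a : Piece v comp i, g a.1 := by
  rw [← Finset.mul_prod_erase _ _ (Finset.mem_univ v)]
  congr 1
  rw [← Finset.prod_fiberwise (Finset.univ.erase v) comp]
  refine Finset.prod_congr rfl fun i _ => ?_
  exact Finset.prod_subtype _ (fun a => by simp) _

theorem sum_vertices (g : V → ℝ) :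
    ∑ a, g a = g v + ∑ i, ∑ a : Piece v comp i, g a.1 := by
  rw [← Finset.add_sum_erase _ _ (Finset.mem_univ v)]
  congr 1
  rw [← Finset.sum_fiberwise (Finset.univ.erase v) comp]
  refine Finset.sum_congr rfl fun i _ => ?_
  exact Finset.sum_subtype _ (fun a => by simp) _

/-- the law of the value at `v` -/
noncomputable def rootLaw (ν : (V → U) → ℝ) (x : U) : ℝ :=
  ∑ t : (∀ i, Piece v comp i → U), ν (mkz v comp x t)

open Classical in
/-- the law of the value at `v` and the restriction to the piece `i` -/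
noncomputable def pieceLaw (ν : (V → U) → ℝ) (i : ι) (x : U) (s : Piece v comp i → U) : ℝ :=
  ∑ t : (∀ i, Piece v comp i → U), if t i = s then ν (mkz v comp x t) else 0

theorem sum_pieceLaw (ν : (V → U) → ℝ) (i : ι) (x : U) (g : (Piece v comp i → U) → ℝ) :
    ∑ s, pieceLaw v comp ν i x s * g s = ∑ t, ν (mkz v comp x t) * g (t i) := by
  classical
  simp only [pieceLaw, Finset.sum_mul]
  rw [Finset.sum_comm]
  refine Finset.sum_congr rfl fun t _ => ?_
  simp [ite_mul]

theorem pieceLaw_total (ν : (V → U) → ℝ) (i : ι) (x : U) :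
    ∑ s, pieceLaw v comp ν i x s = rootLaw v comp ν x := by
  have h := sum_pieceLaw v comp ν i x fun _ => 1
  simpa [rootLaw] using h

variable {ν : (V → U) → ℝ}

theorem rootLaw_nonneg (hν : ∀ z, 0 ≤ ν z) (x : U) : 0 ≤ rootLaw v comp ν x :=
  Finset.sum_nonneg fun _ _ => hν _

theorem pieceLaw_nonneg (hν : ∀ z, 0 ≤ ν z) (i : ι) (x : U) (s : Piece v comp i → U) :
    0 ≤ pieceLaw v comp ν i x s :=
  Finset.sum_nonneg fun t _ => by
    split_ifs
    · exact hν _
    · exact le_rfl

/-- make the pieces conditionally independent given the value at `v` -/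
noncomputable def reglue (ν : (V → U) → ℝ) (z : V → U) : ℝ :=
  star (rootLaw v comp ν) (pieceLaw v comp ν) (z v) (fun _ a => z a.1)

theorem reglue_mkz (x : U) (t : ∀ i, Piece v comp i → U) :
    reglue v comp ν (mkz v comp x t) = star (rootLaw v comp ν) (pieceLaw v comp ν) x t := by
  have h := (splitEquiv (U := U) v comp).right_inv (x, t)
  have h1 : mkz v comp x t v = x := congrArg Prod.fst h
  have h2 : (fun i (a : Piece v comp i) => mkz v comp x t a.1) = t := congrArg Prod.snd h
  rw [reglue, h1, h2]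

theorem reglue_nonneg (hν : ∀ z, 0 ≤ ν z) (z : V → U) : 0 ≤ reglue v comp ν z :=
  star_nonneg (rootLaw_nonneg v comp hν) (pieceLaw_nonneg v comp hν) _ _

theorem reglue_root (f : U → ℝ) :
    ∑ z, reglue v comp ν z * f (z v) = ∑ z, ν z * f (z v) := by
  rw [sum_split v comp, sum_split v comp]
  refine Finset.sum_congr rfl fun x _ => ?_
  simp only [mkz_self, reglue_mkz]
  rw [← Finset.sum_mul, ← Finset.sum_mul, star_total (pieceLaw_total v comp ν)]
  rfl

theorem reglue_piece (hν : ∀ z, 0 ≤ ν z) (i : ι) (f : U → (Piece v comp i → U) → ℝ) :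
    ∑ z, reglue v comp ν z * f (z v) (fun a => z a.1) =
      ∑ z, ν z * f (z v) (fun a => z a.1) := by
  rw [sum_split v comp, sum_split v comp]
  refine Finset.sum_congr rfl fun x _ => ?_
  simp only [mkz_self, reglue_mkz, mkz_piece]
  rw [star_marg (pieceLaw_nonneg v comp hν) (pieceLaw_total v comp ν) i x (f x), sum_pieceLaw]

/-- the value at a vertex of the piece `i`, or at `v` -/
def valAt (i : ι) (x : U) (s : Piece v comp i → U) (a : V) : U :=
  if h : a ≠ v ∧ comp a = i then s ⟨a, h⟩ else x

theorem valAt_eq (z : V → U) (i : ι) (a : V) (h : a = v ∨ comp a = i) :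
    valAt v comp i (z v) (fun b : Piece v comp i => z b.1) a = z a := by
  rw [valAt]
  split_ifs with h1
  · rfl
  · rcases h with h | h
    · rw [h]
    · by_cases h2 : a = v
      · rw [h2]
      · exact absurd ⟨h2, h⟩ h1

theorem reglue_pair (hν : ∀ z, 0 ≤ ν z) (a b : V) (h : a = v ∨ b = v ∨ comp a = comp b)
    (f : U → U → ℝ) :
    ∑ z, reglue v comp ν z * f (z a) (z b) = ∑ z, ν z * f (z a) (z b) := by
  obtain ⟨i, ha, hb⟩ : ∃ i, (a = v ∨ comp a = i) ∧ (b = v ∨ comp b = i) := by
    rcases h with h | h | h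
    · exact ⟨comp b, Or.inl h, Or.inr rfl⟩
    · exact ⟨comp a, Or.inr rfl, Or.inl h⟩
    · exact ⟨comp a, Or.inr rfl, Or.inr h.symm⟩
  have h1 := reglue_piece v comp hν i fun x s =>
    f (valAt v comp i x s a) (valAt v comp i x s b)
  simpa only [valAt_eq v comp _ i a ha, valAt_eq v comp _ i b hb] using h1

theorem reglue_star (x : U) (N : Finset V) (hvN : v ∉ N)
    (hN : ∀ a ∈ N, ∀ b ∈ N, comp a = comp b → a = b) (F : V → U → ℝ) :
    ∑ t, reglue v comp ν (mkz v comp x t) * ∏ a ∈ N, F a (mkz v comp x t a) =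
      rootLaw v comp ν x * ∏ a ∈ N,
        ((∑ t, ν (mkz v comp x t) * F a (mkz v comp x t a)) / rootLaw v comp ν x) := by
  rcases eq_or_ne (rootLaw v comp ν x) 0 with h0 | h0
  · simp [reglue_mkz, star, h0]
  set F' : ∀ i, (Piece v comp i → U) → ℝ := fun i s =>
    ∏ a : Piece v comp i, if a.1 ∈ N then F a.1 (s a) else 1 with hF'
  have h := star_prod (rootLaw v comp ν) (pieceLaw v comp ν) x F'
  have h1 : ∀ G : V → ℝ, ∏ i, ∏ a : Piece v comp i, (if a.1 ∈ N then G a.1 else 1) =
      ∏ a ∈ N, G a := by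
    intro G
    have h2 := prod_vertices v comp fun a => if a ∈ N then G a else 1
    rw [if_neg hvN, one_mul] at h2
    rw [← h2, Finset.prod_ite_mem, Finset.univ_inter]
  have h2 : ∀ t : (∀ i, Piece v comp i → U),
      ∏ i, F' i (t i) = ∏ a ∈ N, F a (mkz v comp x t a) := by
    intro t
    rw [← h1]
    refine Finset.prod_congr rfl fun i _ => ?_
    simp only [hF', mkz_piece]
  simp only [h2] at h
  simp only [reglue_mkz]
  rw [h, ← h1]
  congr 1
  refine Finset.prod_congr rfl fun i _ => ?_
  by_cases hi : ∃ a : Piece v comp i, a.1 ∈ N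
  · obtain ⟨a, ha⟩ := hi
    have huniq : ∀ b : Piece v comp i, b ≠ a → b.1 ∉ N := by
      intro b hb hbN
      exact hb (Subtype.ext (hN b.1 hbN a.1 ha (b.2.2.trans a.2.2.symm)))
    have h3 : ∀ s, F' i s = F a.1 (s a) := by
      intro s
      simp only [hF']
      rw [Finset.prod_eq_single a, if_pos ha]
      · intro b _ hb
        rw [if_neg (huniq b hb)]
      · intro h; exact absurd (Finset.mem_univ a) h
    rw [Finset.prod_eq_single a, if_pos ha]
    · simp only [h3]
      rw [sum_pieceLaw v comp ν i x fun s => F a.1 (s a)]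
      simp only [mkz_piece]
    · intro b _ hb
      rw [if_neg (huniq b hb)]
    · intro h; exact absurd (Finset.mem_univ a) h
  · push Not at hi
    have h3 : ∀ s, F' i s = 1 := fun s => Finset.prod_eq_one fun a _ => if_neg (hi a)
    rw [Finset.prod_eq_one fun a _ => if_neg (hi a)]
    simp only [h3, mul_one, pieceLaw_total]
    exact div_self h0

theorem reglue_total : ∑ z, reglue v comp ν z = ∑ z, ν z := by
  have h := reglue_root v comp (ν := ν) fun _ => 1
  simpa using h

theorem reglue_corr (hν : ∀ z, 0 ≤ ν z) (lev : V → ℕ) (C : Chain U) :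
    corr lev C (reglue v comp ν) ≤ corr lev C ν := by
  set G : (V → U) → ℝ := fun z =>
    Real.log (rootLaw v comp ν (z v)) - Real.log (C.law (lev v) (z v)) +
      ∑ i, (Real.log (pieceLaw v comp ν i (z v) fun a => z a.1) -
        Real.log (rootLaw v comp ν (z v)) - ∑ a : Piece v comp i,
          Real.log (C.law (lev a.1) (z a.1))) with hG
  have hG2 : ∀ z, G z = Real.log (rootLaw v comp ν (z v)) +
      ∑ i, (Real.log (pieceLaw v comp ν i (z v) fun a => z a.1) -
        Real.log (rootLaw v comp ν (z v))) - ∑ a, Real.log (C.law (lev a) (z a)) := by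
    intro z
    simp only [hG]
    rw [sum_vertices v comp fun a => Real.log (C.law (lev a) (z a)),
      Finset.sum_sub_distrib _ (fun i => ∑ a : Piece v comp i, Real.log (C.law (lev a.1) (z a.1)))]
    ring
  have h1 : corr lev C (reglue v comp ν) = ∑ z, reglue v comp ν z * G z := by
    refine Finset.sum_congr rfl fun z _ => ?_
    rw [hG2, mul_sub, mul_sub]
    congr 1
    exact mul_log_star _ _ _ _
  have h2 : ∑ z, reglue v comp ν z * G z = ∑ z, ν z * G z := by
    simp only [hG, mul_add, Finset.sum_add_distrib, Finset.mul_sum]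
    congr 1
    · exact reglue_root v comp fun x =>
        Real.log (rootLaw v comp ν x) - Real.log (C.law (lev v) x)
    · rw [Finset.sum_comm, Finset.sum_comm (f := fun z i => ν z * _)]
      refine Finset.sum_congr rfl fun i _ => ?_
      exact reglue_piece v comp hν i fun x s =>
        Real.log (pieceLaw v comp ν i x s) - Real.log (rootLaw v comp ν x) -
          ∑ a : Piece v comp i, Real.log (C.law (lev a.1) (s a))
  have hsupp : ∀ z, ν z ≠ 0 → rootLaw v comp ν (z v) ≠ 0 ∧
      ∀ i, pieceLaw v comp ν i (z v) (fun a => z a.1) ≠ 0 := by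
    intro z hz
    have hz1 : mkz v comp (z v) (fun _ a => z a.1) = z := (splitEquiv v comp).left_inv z
    have hpos : 0 < ν z := lt_of_le_of_ne (hν z) hz.symm
    constructor
    · refine ne_of_gt (Finset.sum_pos' (fun t _ => hν _) ⟨fun _ a => z a.1, Finset.mem_univ _, ?_⟩)
      rw [hz1]; exact hpos
    · intro i
      refine ne_of_gt (Finset.sum_pos' (fun t _ => ?_) ⟨fun _ a => z a.1, Finset.mem_univ _, ?_⟩)
      · split_ifs
        · exact hν _
        · exact le_rfl
      · rw [if_pos rfl, hz1]; exact hpos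
  have h3 : ∑ z, ν z * G z ≤ corr lev C ν := by
    have hg := gibbs_aux ν (reglue v comp ν) hν (reglue_nonneg v comp hν)
      (reglue_total v comp).le ?_
    · have h4 : ∀ z, ν z * G z = ν z * (Real.log (reglue v comp ν z) -
          ∑ a, Real.log (C.law (lev a) (z a))) := by
        intro z
        rcases eq_or_ne (ν z) 0 with h0 | h0
        · rw [h0]; ring
        · rw [hG2, reglue, log_star (hsupp z h0).1 (hsupp z h0).2]
      rw [Finset.sum_congr rfl fun z _ => h4 z, corr, ← sub_nonneg, ← Finset.sum_sub_distrib]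
      refine hg.trans (le_of_eq ?_)
      exact Finset.sum_congr rfl fun z _ => by ring
    · intro z hz
      by_contra hne
      have h5 := hsupp z hne
      rw [reglue, star] at hz
      rcases mul_eq_zero.1 hz with h6 | h6
      · exact h5.1 h6
      · obtain ⟨i, _, hi⟩ := Finset.prod_eq_zero_iff.1 h6
        rcases div_eq_zero_iff.1 hi with h7 | h7
        · exact h5.2 i h7
        · exact h5.1 h7
  rw [h1, h2]
  exact h3

/-- In a coupling, the pieces may be made conditionally independent given the value at `v`. -/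
theorem Coupling.reglue {E : Finset (V × V)} {R : V → V → Prop} {lev : V → ℕ} {C : Chain U}
    {ν : (V → U) → ℝ} (hν : Coupling E R lev C ν)
    (hR : ∀ a b, R a b → a = v ∨ b = v ∨ comp a = comp b) :
    Coupling E R lev C (reglue v comp ν) where
  nonneg := reglue_nonneg v comp hν.nonneg
  total := (reglue_total v comp).trans hν.total
  vertex a f := by
    rw [← hν.vertex a f]
    exact reglue_pair v comp hν.nonneg a v (Or.inr (Or.inl rfl)) fun x _ => f x
  tied a b hab f := by
    rw [← hν.tied a b hab f]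
    exact reglue_pair v comp hν.nonneg a b (hR a b hab) f
  bound := (reglue_corr v comp hν.nonneg lev C).trans hν.bound

end reglue

section clone

variable {V J U : Type} [Fintype V] [DecidableEq V] [Fintype J] [DecidableEq J] [Fintype U]
  {O : J → Type} [∀ j, Fintype (O j)]

open Classical in
/-- the joint law of the value at `v` and an observation -/
noncomputable def obsLaw {O : Type} (v : V) (ν : (V → U) → ℝ) (o : (V → U) → O) (x : U) (y : O) :
    ℝ :=
  ∑ z, if z v = x ∧ o z = y then ν z else 0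

theorem sum_obsLaw {O : Type} [Fintype O] (v : V) (ν : (V → U) → ℝ) (o : (V → U) → O)
    (g : U → O → ℝ) :
    ∑ x, ∑ y, obsLaw v ν o x y * g x y = ∑ z, ν z * g (z v) (o z) := by
  classical
  simp only [obsLaw, Finset.sum_mul]
  have h : ∀ x : U, ∑ y : O, ∑ z : V → U, (if z v = x ∧ o z = y then ν z else 0) * g x y =
      ∑ z : V → U, ∑ y : O, (if z v = x ∧ o z = y then ν z else 0) * g x y := fun x =>
    Finset.sum_comm
  rw [Finset.sum_congr rfl fun x _ => h x, Finset.sum_comm]
  refine Finset.sum_congr rfl fun z _ => ?_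
  rw [Finset.sum_eq_single (z v)]
  · rw [Finset.sum_eq_single (o z)]
    · simp
    · intro y _ hy
      rw [if_neg (fun h => hy h.2.symm), zero_mul]
    · intro h; exact absurd (Finset.mem_univ _) h
  · intro x _ hx
    exact Finset.sum_eq_zero fun y _ => by rw [if_neg (fun h => hx h.1.symm), zero_mul]
  · intro h; exact absurd (Finset.mem_univ _) h

theorem obsLaw_nonneg {O : Type} (v : V) {ν : (V → U) → ℝ} (hν : ∀ z, 0 ≤ ν z)
    (o : (V → U) → O) (x : U) (y : O) : 0 ≤ obsLaw v ν o x y :=
  Finset.sum_nonneg fun z _ => by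
    split_ifs
    · exact hν _
    · exact le_rfl

/-- the conditional law of the value at `v` given the observation -/
noncomputable def cker {O : Type} (v : V) (ν : (V → U) → ℝ) (o : (V → U) → O) (z : V → U)
    (w : U) : ℝ :=
  obsLaw v ν o w (o z) / ∑ x, obsLaw v ν o x (o z)

theorem obsTot_ne_zero {O : Type} (v : V) {ν : (V → U) → ℝ} (hν : ∀ z, 0 ≤ ν z)
    (o : (V → U) → O) {z : V → U} (hz : ν z ≠ 0) : ∑ x, obsLaw v ν o x (o z) ≠ 0 := by
  classical
  refine ne_of_gt (Finset.sum_pos' (fun x _ => obsLaw_nonneg v hν o x _)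
    ⟨z v, Finset.mem_univ _, ?_⟩)
  refine Finset.sum_pos' (fun t _ => ?_) ⟨z, Finset.mem_univ _, ?_⟩
  · split_ifs
    · exact hν _
    · exact le_rfl
  · rw [if_pos ⟨rfl, rfl⟩]
    exact lt_of_le_of_ne (hν z) hz.symm

theorem cker_nonneg {O : Type} (v : V) {ν : (V → U) → ℝ} (hν : ∀ z, 0 ≤ ν z)
    (o : (V → U) → O) (z : V → U) (w : U) : 0 ≤ cker v ν o z w :=
  div_nonneg (obsLaw_nonneg v hν o _ _) (Finset.sum_nonneg fun x _ => obsLaw_nonneg v hν o x _)

theorem cker_total {O : Type} (v : V) {ν : (V → U) → ℝ} (hν : ∀ z, 0 ≤ ν z)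
    (o : (V → U) → O) {z : V → U} (hz : ν z ≠ 0) : ∑ w, cker v ν o z w = 1 := by
  simp only [cker]
  rw [← Finset.sum_div]
  exact div_self (obsTot_ne_zero v hν o hz)

/-- the copy of `v` and the observation have the same joint law as `v` and the observation -/
theorem sum_cker {O : Type} [Fintype O] (v : V) {ν : (V → U) → ℝ} (hν : ∀ z, 0 ≤ ν z)
    (o : (V → U) → O) (g : U → O → ℝ) :
    ∑ z, ν z * ∑ w, cker v ν o z w * g w (o z) = ∑ z, ν z * g (z v) (o z) := by
  have h := sum_obsLaw v ν o fun _ y => ∑ w, obsLaw v ν o w y / (∑ x, obsLaw v ν o x y) * g w y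
  have h1 : ∑ z, ν z * ∑ w, cker v ν o z w * g w (o z) =
      ∑ z, ν z * ∑ w, obsLaw v ν o w (o z) / (∑ x, obsLaw v ν o x (o z)) * g w (o z) := rfl
  rw [h1, ← h, ← sum_obsLaw v ν o g, Finset.sum_comm, Finset.sum_comm (f := fun x y => _ * g x y)]
  refine Finset.sum_congr rfl fun y _ => ?_
  rw [← Finset.sum_mul, Finset.mul_sum]
  refine Finset.sum_congr rfl fun w _ => ?_
  rcases eq_or_ne (∑ x, obsLaw v ν o x y) 0 with h0 | h0
  · have h2 : obsLaw v ν o w y = 0 :=
      (Finset.sum_eq_zero_iff_of_nonneg fun x _ => obsLaw_nonneg v hν o x y).1 h0 w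
        (Finset.mem_univ w)
    rw [h0, h2]; ring
  · field_simp

/-- a copy of `v` for each `j`, given the observation `o j` -/
noncomputable def cloneLaw (v : V) (ν : (V → U) → ℝ) (o : ∀ j, (V → U) → O j)
    (z : V ⊕ J → U) : ℝ :=
  ν (z ∘ Sum.inl) * ∏ j, cker v ν (o j) (z ∘ Sum.inl) (z (Sum.inr j))

theorem sum_elim_arrow (F : (V ⊕ J → U) → ℝ) :
    ∑ z, F z = ∑ z : V → U, ∑ w : J → U, F (Sum.elim z w) := by
  rw [← Equiv.sum_comp (Equiv.sumArrowEquivProdArrow V J U).symm, Fintype.sum_prod_type]
  rfl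

theorem sum_cloneLaw (v : V) {ν : (V → U) → ℝ} (hν : ∀ z, 0 ≤ ν z) (o : ∀ j, (V → U) → O j)
    (j : J) (f : (V → U) → U → ℝ) :
    ∑ z : V ⊕ J → U, cloneLaw v ν o z * f (z ∘ Sum.inl) (z (Sum.inr j)) =
      ∑ z, ν z * ∑ w, cker v ν (o j) z w * f z w := by
  rw [sum_elim_arrow]
  refine Finset.sum_congr rfl fun z _ => ?_
  rcases eq_or_ne (ν z) 0 with h0 | h0
  · rw [h0, zero_mul]
    refine Finset.sum_eq_zero fun w _ => ?_
    rw [cloneLaw, Sum.elim_comp_inl, h0, zero_mul, zero_mul]
  · have h := Finset.prod_univ_sum (fun _ : J => (Finset.univ : Finset U))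
      (fun k w => cker v ν (o k) z w * (Function.update (fun _ _ => (1 : ℝ)) j (f z) : J → U → ℝ) k w)
    rw [Fintype.piFinset_univ] at h
    have h1 : ∏ k, ∑ w, cker v ν (o k) z w *
        (Function.update (fun _ _ => (1 : ℝ)) j (f z) : J → U → ℝ) k w =
        ∑ w, cker v ν (o j) z w * f z w := by
      rw [Finset.prod_eq_single j]
      · rw [Function.update_self]
      · intro k _ hk
        rw [Function.update_of_ne hk]
        simp only [mul_one]
        exact cker_total v hν (o k) h0
      · intro h; exact absurd (Finset.mem_univ j) h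
    rw [h1] at h
    rw [h, Finset.mul_sum]
    refine Finset.sum_congr rfl fun w _ => ?_
    rw [Finset.prod_mul_distrib, cloneLaw, Sum.elim_comp_inl]
    simp only [Sum.elim_inr]
    rw [Finset.prod_eq_single (a := j) (f := fun k =>
      (Function.update (fun _ _ => (1 : ℝ)) j (f z) : J → U → ℝ) k (w k))]
    · rw [Function.update_self]; ring
    · intro k _ hk
      rw [Function.update_of_ne hk]
    · intro h; exact absurd (Finset.mem_univ j) h

theorem sum_cloneLaw_left (v : V) {ν : (V → U) → ℝ} (hν : ∀ z, 0 ≤ ν z)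
    (o : ∀ j, (V → U) → O j) (f : (V → U) → ℝ) :
    ∑ z : V ⊕ J → U, cloneLaw v ν o z * f (z ∘ Sum.inl) = ∑ z, ν z * f z := by
  rw [sum_elim_arrow]
  refine Finset.sum_congr rfl fun z _ => ?_
  rcases eq_or_ne (ν z) 0 with h0 | h0
  · rw [h0, zero_mul]
    refine Finset.sum_eq_zero fun w _ => ?_
    rw [cloneLaw, Sum.elim_comp_inl, h0, zero_mul, zero_mul]
  · have h := Finset.prod_univ_sum (fun _ : J => (Finset.univ : Finset U))
      (fun k w => cker v ν (o k) z w)
    rw [Fintype.piFinset_univ] at h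
    rw [Finset.prod_congr rfl fun k _ => cker_total v hν (o k) h0, Finset.prod_const_one] at h
    simp only [cloneLaw, Sum.elim_comp_inl, Sum.elim_inr]
    rw [← Finset.sum_mul, ← Finset.mul_sum, ← h, mul_one]

theorem mul_log_cloneLaw (v : V) (ν : (V → U) → ℝ) (o : ∀ j, (V → U) → O j) (z : V ⊕ J → U) :
    cloneLaw v ν o z * Real.log (cloneLaw v ν o z) = cloneLaw v ν o z *
      (Real.log (ν (z ∘ Sum.inl)) +
        ∑ j, Real.log (cker v ν (o j) (z ∘ Sum.inl) (z (Sum.inr j)))) := by
  rcases eq_or_ne (cloneLaw v ν o z) 0 with h0 | h0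
  · rw [h0]; ring
  · have h1 : ν (z ∘ Sum.inl) ≠ 0 := fun h => h0 (by rw [cloneLaw, h, zero_mul])
    have h2 : ∀ j ∈ Finset.univ, cker v ν (o j) (z ∘ Sum.inl) (z (Sum.inr j)) ≠ 0 := by
      intro j _ h
      exact h0 (by rw [cloneLaw, Finset.prod_eq_zero (Finset.mem_univ j) h, mul_zero])
    congr 1
    rw [cloneLaw, Real.log_mul h1 (Finset.prod_ne_zero_iff.2 h2), Real.log_prod h2]

theorem corr_cloneLaw (v : V) {ν : (V → U) → ℝ} (hν : ∀ z, 0 ≤ ν z) (o : ∀ j, (V → U) → O j)
    (lev : V → ℕ) (C : Chain U) :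
    corr (Sum.elim lev fun _ : J => lev v) C (cloneLaw v ν o) = corr lev C ν +
      ∑ j, ∑ x, ∑ y, obsLaw v ν (o j) x y * (Real.log (obsLaw v ν (o j) x y) -
        Real.log (∑ x', obsLaw v ν (o j) x' y) - Real.log (C.law (lev v) x)) := by
  have h1 : ∀ z : V ⊕ J → U, cloneLaw v ν o z * (Real.log (cloneLaw v ν o z) -
      ∑ a, Real.log (C.law ((Sum.elim lev fun _ : J => lev v) a) (z a))) =
      cloneLaw v ν o z * (Real.log (ν (z ∘ Sum.inl)) -
        ∑ a, Real.log (C.law (lev a) ((z ∘ Sum.inl) a))) +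
      ∑ j, cloneLaw v ν o z * (Real.log (cker v ν (o j) (z ∘ Sum.inl) (z (Sum.inr j))) -
        Real.log (C.law (lev v) (z (Sum.inr j)))) := by
    intro z
    rw [mul_sub, mul_log_cloneLaw, ← Finset.mul_sum, Fintype.sum_sum_type,
      Finset.sum_sub_distrib]
    simp only [Sum.elim_inl, Sum.elim_inr, Function.comp]
    ring
  rw [corr, Finset.sum_congr rfl fun z _ => h1 z, Finset.sum_add_distrib,
    sum_cloneLaw_left v hν o fun z => (Real.log (ν z) - ∑ a, Real.log (C.law (lev a) (z a))),
    Finset.sum_comm]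
  congr 1
  refine Finset.sum_congr rfl fun j _ => ?_
  rw [sum_cloneLaw v hν o j fun z w => Real.log (cker v ν (o j) z w) -
    Real.log (C.law (lev v) w)]
  have h2 := sum_cker v hν (o j) fun w y =>
    Real.log (obsLaw v ν (o j) w y / ∑ x, obsLaw v ν (o j) x y) - Real.log (C.law (lev v) w)
  refine h2.trans ?_
  rw [← sum_obsLaw v ν (o j) fun w y =>
    Real.log (obsLaw v ν (o j) w y / ∑ x, obsLaw v ν (o j) x y) - Real.log (C.law (lev v) w)]
  refine Finset.sum_congr rfl fun x _ => Finset.sum_congr rfl fun y _ => ?_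
  rcases eq_or_ne (obsLaw v ν (o j) x y) 0 with h0 | h0
  · rw [h0, zero_mul, zero_mul]
  · have h3 : ∑ x', obsLaw v ν (o j) x' y ≠ 0 := by
      intro h
      exact h0 ((Finset.sum_eq_zero_iff_of_nonneg fun x _ => obsLaw_nonneg v hν (o j) x y).1 h x
        (Finset.mem_univ x))
    rw [Real.log_div h0 h3]

end clone

section main

variable {V J ι : Type} [Fintype V] [DecidableEq V] [Fintype J] [DecidableEq J] [Fintype ι]
  [DecidableEq ι]

/-- the tied pairs after adding clones of `v` with neighbourhoods `N j` -/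
def cloneRel (R : V → V → Prop) (lev : V → ℕ) (v : V) (N : J → Finset V) : V ⊕ J → V ⊕ J → Prop
  | Sum.inl a, Sum.inl b => R a b
  | Sum.inr j, Sum.inl a => a ∈ N j ∧ lev v < lev a
  | Sum.inl a, Sum.inr j => a ∈ N j ∧ lev a < lev v
  | Sum.inr _, Sum.inr _ => False

open Classical in
/-- the edges after adding clones of `v` with neighbourhoods `N j` -/
noncomputable def cloneEdges (E : Finset (V × V)) (lev : V → ℕ) (v : V) (N : J → Finset V) :
    Finset ((V ⊕ J) × (V ⊕ J)) :=
  Finset.univ.filter fun e => cloneRel (fun a b => (a, b) ∈ E) lev v N e.1 e.2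

theorem sum_cloneEdges (E : Finset (V × V)) (lev : V → ℕ) (v : V) (N : J → Finset V)
    (hN : ∀ j, ∀ a ∈ N j, lev a ≠ lev v) (f : V ⊕ J → V ⊕ J → ℝ) :
    ∑ e ∈ cloneEdges E lev v N, f e.1 e.2 = ∑ e ∈ E, f (Sum.inl e.1) (Sum.inl e.2) +
      ∑ j, ∑ a ∈ N j, (if lev v < lev a then f (Sum.inr j) (Sum.inl a)
        else f (Sum.inl a) (Sum.inr j)) := by
  classical
  rw [cloneEdges, Finset.sum_filter, Fintype.sum_prod_type]
  set G : V ⊕ J → V ⊕ J → ℝ := fun a b =>
    if cloneRel (fun a b => (a, b) ∈ E) lev v N a b then f a b else 0 with hG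
  have g1 : ∀ a b, G (Sum.inl a) (Sum.inl b) =
      if (a, b) ∈ E then f (Sum.inl a) (Sum.inl b) else 0 := by
    intro a b
    by_cases h : (a, b) ∈ E
    · rw [if_pos h]; exact if_pos h
    · rw [if_neg h]; exact if_neg h
  have g2 : ∀ a j, G (Sum.inl a) (Sum.inr j) =
      if a ∈ N j ∧ lev a < lev v then f (Sum.inl a) (Sum.inr j) else 0 := by
    intro a j
    by_cases h : a ∈ N j ∧ lev a < lev v
    · rw [if_pos h]; exact if_pos h
    · rw [if_neg h]; exact if_neg h
  have g3 : ∀ a j, G (Sum.inr j) (Sum.inl a) =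
      if a ∈ N j ∧ lev v < lev a then f (Sum.inr j) (Sum.inl a) else 0 := by
    intro a j
    by_cases h : a ∈ N j ∧ lev v < lev a
    · rw [if_pos h]; exact if_pos h
    · rw [if_neg h]; exact if_neg h
  have g4 : ∀ j k, G (Sum.inr j) (Sum.inr k) = 0 := fun j k => if_neg id
  change ∑ a, ∑ b, G a b = _
  simp only [Fintype.sum_sum_type, g1, g2, g3, g4, Finset.sum_const_zero, add_zero,
    Finset.sum_add_distrib]
  have h1 : ∑ x, ∑ y, (if (x, y) ∈ E then f (Sum.inl x) (Sum.inl y) else 0) =
      ∑ e ∈ E, f (Sum.inl e.1) (Sum.inl e.2) := by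
    rw [← Fintype.sum_prod_type (f := fun e : V × V =>
      if e ∈ E then f (Sum.inl e.1) (Sum.inl e.2) else 0)]
    rw [Finset.sum_ite_mem, Finset.univ_inter]
  rw [h1, add_assoc]
  congr 1
  rw [Finset.sum_comm (f := fun a j => if a ∈ N j ∧ lev a < lev v then
    f (Sum.inl a) (Sum.inr j) else 0), ← Finset.sum_add_distrib]
  refine Finset.sum_congr rfl fun j _ => ?_
  rw [← Finset.sum_add_distrib, ← Finset.univ_inter (N j), ← Finset.sum_ite_mem]
  refine Finset.sum_congr rfl fun a _ => ?_
  by_cases ha : a ∈ N j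
  · rcases lt_or_gt_of_ne (hN j a ha) with h | h
    · simp [ha, h, not_lt_of_gt h]
    · simp [ha, h, not_lt_of_gt h]
  · simp [ha]

variable {U : Type} [Fintype U]

open Classical in
theorem obsLaw_mkz {O : Type} (v : V) (comp : V → ι) (μ : (V → U) → ℝ) (o : (V → U) → O) (x : U)
    (y : O) : obsLaw v μ o x y =
      ∑ t, if o (mkz v comp x t) = y then μ (mkz v comp x t) else 0 := by
  rw [obsLaw, sum_split v comp, Finset.sum_eq_single x]
  · refine Finset.sum_congr rfl fun t _ => ?_
    rw [mkz_self]; simp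
  · intro x' _ hx'
    refine Finset.sum_eq_zero fun t _ => ?_
    rw [mkz_self, if_neg fun h => hx' h.1]
  · intro h; exact absurd (Finset.mem_univ x) h

/-- In the reglued coupling, `v` and the vertices of `N` form a star. -/
theorem obsLaw_reglue (ν : (V → U) → ℝ) (v : V) (comp : V → ι) (N : Finset V)
    (hvN : v ∉ N) (hN : ∀ a ∈ N, ∀ b ∈ N, comp a = comp b → a = b) (x : U) (y : N → U) :
    obsLaw v (reglue v comp ν) (fun z (a : N) => z a.1) x y =
      star (rootLaw v comp ν) (fun (a : N) x u => obsLaw v ν (fun z => z a.1) x u) x y := by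
  classical
  set F : V → U → ℝ := fun a u => if h : a ∈ N then (if u = y ⟨a, h⟩ then 1 else 0) else 1 with hF
  have h := reglue_star v comp (ν := ν) x N hvN hN F
  have hL : obsLaw v (reglue v comp ν) (fun z (a : N) => z a.1) x y =
      ∑ t, reglue v comp ν (mkz v comp x t) * ∏ a ∈ N, F a (mkz v comp x t a) := by
    rw [obsLaw_mkz v comp]
    refine Finset.sum_congr rfl fun t _ => ?_
    split_ifs with h1
    · rw [Finset.prod_eq_one, mul_one]
      intro a ha
      simp only [hF, dif_pos ha]
      rw [if_pos]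
      exact congrFun h1 ⟨a, ha⟩
    · have : ∃ a : N, mkz v comp x t a.1 ≠ y a := by
        by_contra h2
        push Not at h2
        exact h1 (funext h2)
      obtain ⟨a, ha⟩ := this
      rw [Finset.prod_eq_zero a.2, mul_zero]
      simp only [hF, dif_pos a.2]
      rw [if_neg ha]
  rw [hL, h, star]
  congr 1
  rw [← Finset.prod_coe_sort N]
  refine Finset.prod_congr rfl fun a _ => ?_
  congr 1
  rw [obsLaw_mkz v comp]
  refine Finset.sum_congr rfl fun t _ => ?_
  simp only [hF, dif_pos a.2, Subtype.coe_eta]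
  by_cases hh : mkz v comp x t a.1 = y a
  · simp [hh]
  · simp [hh]

theorem rootLaw_eq {E : Finset (V × V)} {R : V → V → Prop} {lev : V → ℕ} {C : Chain U}
    {ν : (V → U) → ℝ} (hν : Coupling E R lev C ν) (v : V) (comp : V → ι) (x : U) :
    rootLaw v comp ν x = C.law (lev v) x := by
  classical
  have h := hν.vertex v fun x' => if x' = x then 1 else 0
  simp only [mul_ite, mul_one, mul_zero, Finset.sum_ite_eq', Finset.mem_univ, if_true] at h
  rw [← h, sum_split v comp, Finset.sum_eq_single x]
  · simp [mkz_self, rootLaw]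
  · intro x' _ hx'
    exact Finset.sum_eq_zero fun t _ => by rw [mkz_self, if_neg hx']
  · intro h; exact absurd (Finset.mem_univ x) h

theorem obsLaw_up {E : Finset (V × V)} {R : V → V → Prop} {lev : V → ℕ} {C : Chain U}
    {ν : (V → U) → ℝ} (hν : Coupling E R lev C ν) {v a : V} (h : R v a) (x u : U) :
    obsLaw v ν (fun z => z a) x u = C.pair (lev v) (lev a) x u := by
  classical
  have h1 := hν.tied v a h fun x' u' => if x' = x ∧ u' = u then 1 else 0
  simp only [mul_ite, mul_one, mul_zero] at h1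
  rw [obsLaw, h1, Finset.sum_eq_single x, Finset.sum_eq_single u]
  · simp
  · intro u' _ hu; rw [if_neg fun h => hu h.2]
  · intro h; exact absurd (Finset.mem_univ _) h
  · intro x' _ hx; exact Finset.sum_eq_zero fun u' _ => if_neg fun h => hx h.1
  · intro h; exact absurd (Finset.mem_univ _) h

theorem obsLaw_down {E : Finset (V × V)} {R : V → V → Prop} {lev : V → ℕ} {C : Chain U}
    {ν : (V → U) → ℝ} (hν : Coupling E R lev C ν) {v a : V} (h : R a v) (x u : U) :
    obsLaw v ν (fun z => z a) x u = C.pair (lev a) (lev v) u x := by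
  classical
  have h1 := hν.tied a v h fun u' x' => if x' = x ∧ u' = u then 1 else 0
  simp only [mul_ite, mul_one, mul_zero] at h1
  rw [obsLaw, h1, Finset.sum_eq_single u, Finset.sum_eq_single x]
  · simp
  · intro u' _ hu; rw [if_neg fun h => hu h.1]
  · intro h; exact absurd (Finset.mem_univ _) h
  · intro x' _ hx; exact Finset.sum_eq_zero fun u' _ => if_neg fun h => hx h.2
  · intro h; exact absurd (Finset.mem_univ _) h

theorem sum_obsLaw_fst {E : Finset (V × V)} {R : V → V → Prop} {lev : V → ℕ} {C : Chain U}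
    {ν : (V → U) → ℝ} (hν : Coupling E R lev C ν) (v a : V) (u : U) :
    ∑ x, obsLaw v ν (fun z => z a) x u = C.law (lev a) u := by
  classical
  have h := hν.vertex a fun x' => if x' = u then 1 else 0
  simp only [mul_ite, mul_one, mul_zero, Finset.sum_ite_eq', Finset.mem_univ, if_true] at h
  rw [← h]
  simp only [obsLaw]
  rw [Finset.sum_comm]
  refine Finset.sum_congr rfl fun z _ => ?_
  rw [Finset.sum_eq_single (z v)]
  · simp
  · intro x _ hx
    rw [if_neg fun h => hx h.1.symm]
  · intro h; exact absurd (Finset.mem_univ _) h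

theorem sum_obsLaw_snd {E : Finset (V × V)} {R : V → V → Prop} {lev : V → ℕ} {C : Chain U}
    {ν : (V → U) → ℝ} (hν : Coupling E R lev C ν) (v a : V) (x : U) :
    ∑ u, obsLaw v ν (fun z => z a) x u = C.law (lev v) x := by
  classical
  have h := hν.vertex v fun x' => if x' = x then 1 else 0
  simp only [mul_ite, mul_one, mul_zero, Finset.sum_ite_eq', Finset.mem_univ, if_true] at h
  rw [← h]
  simp only [obsLaw]
  rw [Finset.sum_comm]
  refine Finset.sum_congr rfl fun z _ => ?_
  rw [Finset.sum_eq_single (z a)]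
  · simp
  · intro u _ hu
    rw [if_neg fun h => hu h.2.symm]
  · intro h; exact absurd (Finset.mem_univ _) h

theorem star_bound {E : Finset (V × V)} {R : V → V → Prop} {lev : V → ℕ} {C : Chain U}
    {ν : (V → U) → ℝ} (hν : Coupling E R lev C ν) (v : V) (comp : V → ι) (N : Finset V)
    (hl : ∀ a ∈ N, lev a ≠ lev v) (hup : ∀ a ∈ N, lev v < lev a → R v a)
    (hdown : ∀ a ∈ N, lev a < lev v → R a v)
    (hN : ∀ a ∈ N, ∀ b ∈ N, comp a = comp b → a = b) :
    ∑ x, ∑ y : N → U, obsLaw v (reglue v comp ν) (fun z (a : N) => z a.1) x y *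
      (Real.log (obsLaw v (reglue v comp ν) (fun z (a : N) => z a.1) x y) -
        Real.log (∑ x', obsLaw v (reglue v comp ν) (fun z (a : N) => z a.1) x' y) -
          Real.log (C.law (lev v) x)) ≤
      ∑ a ∈ N, (if lev v < lev a then C.info (lev v) (lev a) else C.info (lev a) (lev v)) := by
  have hvN : v ∉ N := fun h => hl v h rfl
  have hroot : rootLaw v comp ν = C.law (lev v) := funext fun x => rootLaw_eq hν v comp x
  have h1 : ∀ x y, obsLaw v (reglue v comp ν) (fun z (a : N) => z a.1) x y =
      star (C.law (lev v)) (fun (a : N) x u => obsLaw v ν (fun z => z a.1) x u) x y := by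
    intro x y
    rw [← hroot]
    exact obsLaw_reglue ν v comp N hvN hN x y
  simp only [h1]
  have hp : ∀ x, 0 ≤ C.law (lev v) x := by
    intro x
    rw [← hroot]
    exact rootLaw_nonneg v comp hν.nonneg x
  have hp1 : ∑ x, C.law (lev v) x = 1 := by
    have h := hν.vertex v fun _ => 1
    simp only [mul_one] at h
    rw [← h, hν.total]
  have h2 := star_info (Y := fun _ : N => U)
    (A := fun (a : N) x u => obsLaw v ν (fun z => z a.1) x u) hp hp1
    (fun a x u => obsLaw_nonneg v hν.nonneg _ x u) (fun a x => sum_obsLaw_snd hν v a.1 x)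
  refine h2.trans (le_of_eq ?_)
  rw [← Finset.sum_coe_sort N]
  refine Finset.sum_congr rfl fun a _ => ?_
  split_ifs with hlt
  · have h2 : R v a.1 := hup a.1 a.2 hlt
    simp only [sum_obsLaw_fst hν v a.1]
    simp only [obsLaw_up hν h2]
    rw [Chain.info]
  · have hlt' : lev a.1 < lev v := lt_of_le_of_ne (not_lt.1 hlt) (hl a.1 a.2)
    have h2 : R a.1 v := hdown a.1 a.2 hlt'
    simp only [sum_obsLaw_fst hν v a.1]
    simp only [obsLaw_down hν h2]
    rw [Finset.sum_comm, Chain.info]
    refine Finset.sum_congr rfl fun x _ => Finset.sum_congr rfl fun y _ => ?_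
    ring

theorem Coupling.clone {E : Finset (V × V)} {R : V → V → Prop} {lev : V → ℕ} {C : Chain U}
    {ν : (V → U) → ℝ} (hν : Coupling E R lev C ν) (v : V) (N : J → Finset V)
    (hNl : ∀ j, ∀ a ∈ N j, lev a ≠ lev v)
    (hup : ∀ j, ∀ a ∈ N j, lev v < lev a → R v a)
    (hdown : ∀ j, ∀ a ∈ N j, lev a < lev v → R a v)
    (hb : ∀ j, ∑ x, ∑ y : N j → U, obsLaw v ν (fun z (a : N j) => z a.1) x y *
      (Real.log (obsLaw v ν (fun z (a : N j) => z a.1) x y) -
        Real.log (∑ x', obsLaw v ν (fun z (a : N j) => z a.1) x' y) -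
          Real.log (C.law (lev v) x)) ≤
      ∑ a ∈ N j, (if lev v < lev a then C.info (lev v) (lev a) else C.info (lev a) (lev v))) :
    Coupling (cloneEdges E lev v N) (cloneRel R lev v N) (Sum.elim lev fun _ : J => lev v) C
      (cloneLaw v ν fun j z (a : N j) => z a.1) where
  nonneg z :=
    mul_nonneg (hν.nonneg _) (Finset.prod_nonneg fun j _ => cker_nonneg v hν.nonneg _ _ _)
  total := by
    have h := sum_cloneLaw_left v hν.nonneg (fun j z (a : N j) => z a.1) fun _ => 1
    simp only [mul_one] at h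
    rw [h, hν.total]
  vertex := by
    rintro (a | j) f
    · exact (sum_cloneLaw_left v hν.nonneg (fun j z (a : N j) => z a.1) fun z => f (z a)).trans
        (hν.vertex a f)
    · refine (sum_cloneLaw v hν.nonneg (fun j z (a : N j) => z a.1) j fun _ w => f w).trans ?_
      exact (sum_cker v hν.nonneg (fun z (a : N j) => z a.1) fun w _ => f w).trans (hν.vertex v f)
  tied := by
    rintro (a | j) (b | k) h f
    · exact (sum_cloneLaw_left v hν.nonneg (fun j z (a : N j) => z a.1)
        fun z => f (z a) (z b)).trans (hν.tied a b h f)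
    · obtain ⟨haN, hlt⟩ := h
      refine (sum_cloneLaw v hν.nonneg (fun j z (a : N j) => z a.1) k
        fun z w => f (z a) w).trans ?_
      refine (sum_cker v hν.nonneg (fun z (a : N k) => z a.1)
        fun w y => f (y ⟨a, haN⟩) w).trans ?_
      exact hν.tied a v (hdown k a haN hlt) f
    · obtain ⟨hbN, hlt⟩ := h
      refine (sum_cloneLaw v hν.nonneg (fun j z (a : N j) => z a.1) j
        fun z w => f w (z b)).trans ?_
      refine (sum_cker v hν.nonneg (fun z (a : N j) => z a.1)
        fun w y => f w (y ⟨b, hbN⟩)).trans ?_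
      exact hν.tied v b (hup j b hbN hlt) f
    · exact absurd h id
  bound := by
    rw [corr_cloneLaw v hν.nonneg (fun j z (a : N j) => z a.1) lev C]
    rw [sum_cloneEdges E lev v N hNl fun a b => C.info
      ((Sum.elim lev fun _ : J => lev v) a) ((Sum.elim lev fun _ : J => lev v) b)]
    simp only [Sum.elim_inl, Sum.elim_inr]
    exact add_le_add hν.bound (Finset.sum_le_sum fun j _ => hb j)

/-- **Clone rule.** Add to a good levelled graph new vertices `j`, each a copy of `v` joined to a
set `N j` of vertices tied to `v`, at most one from each of the pieces into which `v` cuts the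
graph. The new levelled graph is good. -/
theorem Good.clone {E : Finset (V × V)} {R : V → V → Prop} {lev : V → ℕ} (hg : Good E R lev)
    (v : V) (comp : V → ι) (hR : ∀ a b, R a b → a = v ∨ b = v ∨ comp a = comp b)
    (N : J → Finset V) (hNR : ∀ j, ∀ a ∈ N j, R v a ∨ R a v)
    (hN : ∀ j, ∀ a ∈ N j, ∀ b ∈ N j, comp a = comp b → a = b) :
    Good (cloneEdges E lev v N) (cloneRel R lev v N) (Sum.elim lev fun _ : J => lev v) := by
  obtain ⟨hER, hRl, hC⟩ := hg
  have hNl : ∀ j, ∀ a ∈ N j, lev a ≠ lev v := by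
    intro j a ha
    rcases hNR j a ha with h | h
    · exact (hRl _ _ h).ne'
    · exact (hRl _ _ h).ne
  have hup : ∀ j, ∀ a ∈ N j, lev v < lev a → R v a := by
    intro j a ha h
    rcases hNR j a ha with h1 | h1
    · exact h1
    · exact absurd (hRl _ _ h1) (not_lt_of_gt h)
  have hdown : ∀ j, ∀ a ∈ N j, lev a < lev v → R a v := by
    intro j a ha h
    rcases hNR j a ha with h1 | h1
    · exact absurd (hRl _ _ h1) (not_lt_of_gt h)
    · exact h1
  refine ⟨?_, ?_, ?_⟩
  · intro e he
    simp only [cloneEdges, Finset.mem_filter, Finset.mem_univ, true_and] at he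
    obtain ⟨a | j, b | k⟩ := e
    · exact hER (a, b) he
    · exact he
    · exact he
    · exact he
  · rintro (a | j) (b | k) h
    · exact hRl a b h
    · exact h.2
    · exact h.2
    · exact absurd h id
  · intro U _ C
    obtain ⟨ν, hν⟩ := hC U C
    exact ⟨_, (hν.reglue v comp hR).clone v N hNl hup hdown fun j =>
      star_bound hν v comp (N j) (hNl j) (hup j) (hdown j) (hN j)⟩

end main

end Vale.Agent.P050.Lev
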