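import Vale.Agent.P050.Lev.Defs

/-!
Forests with level functions are good.
-/

namespace Vale.Agent.P050.Lev

open Finset

namespace Chain

variable {U : Type} [Fintype U] (C : Chain U)

theorem fo_law_nonneg (n : ℕ) (x : U) : 0 ≤ C.law n x := by
  induction n generalizing x with
  | zero => exact C.init_nonneg x
  | succ n ih => exact Finset.sum_nonneg fun y _ => mul_nonneg (ih y) (C.step_nonneg n y x)

theorem fo_law_sum (n : ℕ) : ∑ x, C.law n x = 1 := by
  induction n with
  | zero => exact C.init_sum
  | succ n ih =>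
    simp only [law]
    rw [Finset.sum_comm]
    simp_rw [← Finset.mul_sum, C.step_sum, mul_one]
    exact ih

theorem fo_ker_nonneg (i n : ℕ) (x y : U) : 0 ≤ C.ker i n x y := by
  induction n generalizing y with
  | zero => simp only [ker]; split_ifs <;> norm_num
  | succ n ih => exact Finset.sum_nonneg fun z _ => mul_nonneg (ih z) (C.step_nonneg _ z y)

theorem fo_ker_sum (i n : ℕ) (x : U) : ∑ y, C.ker i n x y = 1 := by
  induction n with
  | zero =>
    simp only [ker]
    rw [Finset.sum_eq_single x] <;> simp +contextual [eq_comm]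
  | succ n ih =>
    simp only [ker]
    rw [Finset.sum_comm]
    simp_rw [← Finset.mul_sum, C.step_sum, mul_one]
    exact ih

theorem fo_ker_one (i : ℕ) (x y : U) : C.ker i 1 x y = C.step i x y := by
  simp only [ker]
  rw [Finset.sum_eq_single x] <;> simp +contextual [eq_comm]

theorem fo_law_ker (i n : ℕ) (y : U) : ∑ x, C.law i x * C.ker i n x y = C.law (i + n) y := by
  induction n generalizing y with
  | zero =>
    simp only [ker]
    rw [Finset.sum_eq_single y] <;> simp +contextual
  | succ n ih =>
    simp only [ker]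
    simp_rw [Finset.mul_sum]
    rw [Finset.sum_comm]
    simp_rw [← mul_assoc, ← Finset.sum_mul, ih]
    rfl

theorem fo_ker_succ' (i n : ℕ) (x z : U) :
    C.ker i (n + 1) x z = ∑ y, C.step i x y * C.ker (i + 1) n y z := by
  induction n generalizing z with
  | zero =>
    rw [C.fo_ker_one, Finset.sum_eq_single z] <;> simp +contextual [ker]
  | succ n ih =>
    rw [ker]
    simp_rw [ih, Finset.sum_mul]
    rw [Finset.sum_comm]
    refine Finset.sum_congr rfl fun y _ => ?_
    rw [ker, Finset.mul_sum]
    refine Finset.sum_congr rfl fun w _ => ?_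
    rw [show i + 1 + n = i + (n + 1) by ring, mul_assoc]

theorem fo_pair_nonneg (i j : ℕ) (x y : U) : 0 ≤ C.pair i j x y :=
  mul_nonneg (C.fo_law_nonneg i x) (C.fo_ker_nonneg _ _ x y)

theorem fo_pair_fst (i j : ℕ) (x : U) : ∑ y, C.pair i j x y = C.law i x := by
  simp_rw [pair, ← Finset.mul_sum, C.fo_ker_sum, mul_one]

theorem fo_pair_snd {i j : ℕ} (h : i ≤ j) (y : U) : ∑ x, C.pair i j x y = C.law j y := by
  simp_rw [pair]
  rw [C.fo_law_ker, Nat.add_sub_cancel' h]

end Chain

section extend

variable {V U : Type} [Fintype V] [DecidableEq V] [Fintype U] {v : V}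

/-- put the value `y` at `v` -/
def put (v : V) (y : U) (z : {w : V // w ≠ v} → U) (j : V) : U :=
  if h : j = v then y else z ⟨j, h⟩

omit [Fintype V] [Fintype U] in
theorem put_self (v : V) (y : U) (z : {w : V // w ≠ v} → U) : put v y z v = y := by
  simp [put]

omit [Fintype V] [Fintype U] in
theorem put_ne (v : V) (y : U) (z : {w : V // w ≠ v} → U) (j : {w : V // w ≠ v}) :
    put v y z j = z j := by
  simp [put, j.2]

theorem sum_put (v : V) (g : (V → U) → ℝ) :
    ∑ z, g z = ∑ z : {w : V // w ≠ v} → U, ∑ y, g (put v y z) := by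
  rw [← (Equiv.funSplitAt v U).symm.sum_comp g, Fintype.sum_prod_type_right]
  refine Finset.sum_congr rfl fun z _ => Finset.sum_congr rfl fun y _ => ?_
  congr 1
  funext j
  by_cases h : j = v
  · subst h
    simp [put, Equiv.funSplitAt, Equiv.piSplitAt]
  · simp [put, Equiv.funSplitAt, Equiv.piSplitAt, h]

/-- Extend the law `ν` by a vertex `v` that depends only on the vertex `u`. -/
noncomputable def ext (v : V) (u : {w : V // w ≠ v}) (ν : ({w : V // w ≠ v} → U) → ℝ)
    (κ : U → U → ℝ) (z : V → U) : ℝ :=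
  ν (fun j => z j) * κ (z u) (z v)

theorem sum_ext (v : V) (u : {w : V // w ≠ v}) (ν : ({w : V // w ≠ v} → U) → ℝ)
    (κ : U → U → ℝ) (g : (V → U) → ℝ) :
    ∑ z, ext v u ν κ z * g z = ∑ z, ν z * ∑ y, κ (z u) y * g (put v y z) := by
  rw [sum_put v]
  refine Finset.sum_congr rfl fun z _ => ?_
  rw [Finset.mul_sum]
  refine Finset.sum_congr rfl fun y _ => ?_
  simp only [ext, put_self, put_ne]
  ring

/-- the conditional law of the second coordinate, for the joint law `J` with marginals `a`, `b` -/
noncomputable def condKer (a b : U → ℝ) (J : U → U → ℝ) (x y : U) : ℝ :=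
  if a x = 0 then b y else J x y / a x

omit [Fintype V] [DecidableEq V] in
theorem mul_condKer {a b : U → ℝ} {J : U → U → ℝ} (hJ : ∀ x y, 0 ≤ J x y)
    (h1 : ∀ x, ∑ y, J x y = a x) (x y : U) : a x * condKer a b J x y = J x y := by
  unfold condKer
  split_ifs with h
  · have := h1 x
    rw [h] at this
    have h3 := (Finset.sum_eq_zero_iff_of_nonneg (fun y _ => hJ x y)).1 this y (mem_univ y)
    rw [h, h3, zero_mul]
  · field_simp

omit [Fintype V] [DecidableEq V] [Fintype U] in
theorem condKer_nonneg {a b : U → ℝ} {J : U → U → ℝ} (hJ : ∀ x y, 0 ≤ J x y)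
    (ha : ∀ x, 0 ≤ a x) (hb : ∀ x, 0 ≤ b x) (x y : U) : 0 ≤ condKer a b J x y := by
  unfold condKer
  split_ifs with h
  · exact hb y
  · exact div_nonneg (hJ x y) (ha x)

omit [Fintype V] [DecidableEq V] in
theorem condKer_sum {a b : U → ℝ} {J : U → U → ℝ}
    (h1 : ∀ x, ∑ y, J x y = a x) (hb : ∑ x, b x = 1) (x : U) : ∑ y, condKer a b J x y = 1 := by
  unfold condKer
  split_ifs with h
  · exact hb
  · rw [← Finset.sum_div, h1, div_self h]

/-- the extended law: vertices -/
theorem ext_vertex {E' : Finset ({w : V // w ≠ v} × {w : V // w ≠ v})}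
    {R' : {w : V // w ≠ v} → {w : V // w ≠ v} → Prop} {lev : V → ℕ} {C : Chain U}
    {ν : ({w : V // w ≠ v} → U) → ℝ} (h : Coupling E' R' (fun w => lev w) C ν)
    (u : {w : V // w ≠ v}) {J : U → U → ℝ} (hJ : ∀ x y, 0 ≤ J x y)
    (h1 : ∀ x, ∑ y, J x y = C.law (lev u) x) (h2 : ∀ y, ∑ x, J x y = C.law (lev v) y) :
    ∀ (w : V) (f : U → ℝ),
      ∑ z, ext v u ν (condKer (C.law (lev u)) (C.law (lev v)) J) z * f (z w)
        = ∑ x, C.law (lev w) x * f x := by
  intro w f
  rw [sum_ext]
  by_cases hw : w = v
  · subst hw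
    simp_rw [put_self]
    rw [h.vertex u (fun x => ∑ y, condKer (C.law (lev u)) (C.law (lev w)) J x y * f y)]
    simp_rw [Finset.mul_sum, ← mul_assoc, mul_condKer hJ h1]
    rw [Finset.sum_comm]
    simp_rw [← Finset.sum_mul, h2]
  · have : ∀ (y : U) (z : {w : V // w ≠ v} → U), put v y z w = z ⟨w, hw⟩ := fun y z =>
      put_ne v y z ⟨w, hw⟩
    simp_rw [this, ← Finset.sum_mul, condKer_sum h1 (C.fo_law_sum _), one_mul]
    exact h.vertex ⟨w, hw⟩ f

theorem ext_pair {E' : Finset ({w : V // w ≠ v} × {w : V // w ≠ v})}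
    {R' : {w : V // w ≠ v} → {w : V // w ≠ v} → Prop} {lev : V → ℕ} {C : Chain U}
    {ν : ({w : V // w ≠ v} → U) → ℝ} (h : Coupling E' R' (fun w => lev w) C ν)
    (u : {w : V // w ≠ v}) {J : U → U → ℝ} (hJ : ∀ x y, 0 ≤ J x y)
    (h1 : ∀ x, ∑ y, J x y = C.law (lev u) x) (f : U → U → ℝ) :
      ∑ z, ext v u ν (condKer (C.law (lev u)) (C.law (lev v)) J) z * f (z u) (z v)
        = ∑ x, ∑ y, J x y * f x y := by
  rw [sum_ext]
  have : ∀ (y : U) (z : {w : V // w ≠ v} → U), put v y z u = z u := fun y z =>
      put_ne v y z u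
  simp_rw [this, put_self]
  rw [h.vertex u (fun x => ∑ y, condKer (C.law (lev u)) (C.law (lev v)) J x y * f x y)]
  simp_rw [Finset.mul_sum, ← mul_assoc, mul_condKer hJ h1]

theorem ext_old {E' : Finset ({w : V // w ≠ v} × {w : V // w ≠ v})}
    {R' : {w : V // w ≠ v} → {w : V // w ≠ v} → Prop} {lev : V → ℕ} {C : Chain U}
    {ν : ({w : V // w ≠ v} → U) → ℝ} (h : Coupling E' R' (fun w => lev w) C ν)
    (u : {w : V // w ≠ v}) {J : U → U → ℝ}
    (h1 : ∀ x, ∑ y, J x y = C.law (lev u) x) (w w' : {w : V // w ≠ v}) (hR : R' w w')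
    (f : U → U → ℝ) :
      ∑ z, ext v u ν (condKer (C.law (lev u)) (C.law (lev v)) J) z * f (z w) (z w')
        = ∑ x, ∑ y, C.pair (lev w) (lev w') x y * f x y := by
  rw [sum_ext]
  have : ∀ (y : U) (z : {w : V // w ≠ v} → U) (w), put v y z (w : {w : V // w ≠ v}) = z w :=
    fun y z w => put_ne v y z w
  simp_rw [this, ← Finset.sum_mul, condKer_sum h1 (C.fo_law_sum _), one_mul]
  exact h.tied w w' hR f

theorem ext_corr {E' : Finset ({w : V // w ≠ v} × {w : V // w ≠ v})}
    {R' : {w : V // w ≠ v} → {w : V // w ≠ v} → Prop} {lev : V → ℕ} {C : Chain U}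
    {ν : ({w : V // w ≠ v} → U) → ℝ} (h : Coupling E' R' (fun w => lev w) C ν)
    (u : {w : V // w ≠ v}) {J : U → U → ℝ} (hJ : ∀ x y, 0 ≤ J x y)
    (h1 : ∀ x, ∑ y, J x y = C.law (lev u) x) :
    corr lev C (ext v u ν (condKer (C.law (lev u)) (C.law (lev v)) J))
      = corr (fun w : {w : V // w ≠ v} => lev w) C ν
        + ∑ x, ∑ y, J x y * (Real.log (J x y) - Real.log (C.law (lev u) x)
            - Real.log (C.law (lev v) y)) := by
  unfold corr
  rw [sum_ext]
  set κ := condKer (C.law (lev u)) (C.law (lev v)) J with hκ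
  have key : ∀ z : {w : V // w ≠ v} → U, ν z * ∑ y, κ (z u) y *
      (Real.log (ext v u ν κ (put v y z)) - ∑ w, Real.log (C.law (lev w) (put v y z w)))
      = ν z * (Real.log (ν z) - ∑ w : {w : V // w ≠ v}, Real.log (C.law (lev w) (z w)))
        + ν z * ∑ y, κ (z u) y * (Real.log (κ (z u) y) - Real.log (C.law (lev v) y)) := by
    intro z
    rw [← mul_add]
    by_cases hz : ν z = 0
    · simp [hz]
    congr 1
    rw [← one_mul (Real.log (ν z) - _), ← condKer_sum (J := J) h1 (C.fo_law_sum (lev v)) (z u),
      ← hκ, Finset.sum_mul, ← Finset.sum_add_distrib]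
    refine Finset.sum_congr rfl fun y _ => ?_
    rw [← mul_add]
    by_cases hy : κ (z u) y = 0
    · simp [hy]
    congr 1
    rw [Fintype.sum_eq_add_sum_subtype_ne _ v]
    simp only [ext, put_self, put_ne]
    rw [Real.log_mul hz hy]
    ring
  rw [Finset.sum_congr rfl fun z _ => key z, Finset.sum_add_distrib]
  congr 1
  rw [h.vertex u (fun x => ∑ y, κ x y * (Real.log (κ x y) - Real.log (C.law (lev v) y)))]
  refine Finset.sum_congr rfl fun x _ => ?_
  rw [Finset.mul_sum]
  refine Finset.sum_congr rfl fun y _ => ?_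
  rw [← mul_assoc, hκ, mul_condKer hJ h1]
  by_cases hJ0 : J x y = 0
  · simp [hJ0]
  have hm := mul_condKer (b := C.law (lev v)) hJ h1 x y
  have hx : C.law (lev u) x ≠ 0 := fun h0 => hJ0 (by rw [← hm, h0, zero_mul])
  have hk : condKer (C.law (lev u)) (C.law (lev v)) J x y ≠ 0 := fun h0 =>
    hJ0 (by rw [← hm, h0, mul_zero])
  congr 1
  rw [← hm, Real.log_mul hx hk]
  ring

/-- Extend the law `ν` by an independent vertex `v` with law `b`. -/
noncomputable def ext0 (v : V) (ν : ({w : V // w ≠ v} → U) → ℝ) (b : U → ℝ) (z : V → U) : ℝ :=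
  ν (fun j => z j) * b (z v)

theorem sum_ext0 (v : V) (ν : ({w : V // w ≠ v} → U) → ℝ) (b : U → ℝ) (g : (V → U) → ℝ) :
    ∑ z, ext0 v ν b z * g z = ∑ z, ν z * ∑ y, b y * g (put v y z) := by
  rw [sum_put v]
  refine Finset.sum_congr rfl fun z _ => ?_
  rw [Finset.mul_sum]
  refine Finset.sum_congr rfl fun y _ => ?_
  simp only [ext0, put_self, put_ne]
  ring

theorem coupling_ext0 {E' : Finset ({w : V // w ≠ v} × {w : V // w ≠ v})}
    {R' : {w : V // w ≠ v} → {w : V // w ≠ v} → Prop} {lev : V → ℕ} {C : Chain U}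
    {ν : ({w : V // w ≠ v} → U) → ℝ} (h : Coupling E' R' (fun w => lev w) C ν)
    {E : Finset (V × V)} {R : V → V → Prop}
    (hE : ∑ e ∈ E', C.info (lev e.1) (lev e.2) ≤ ∑ e ∈ E, C.info (lev e.1) (lev e.2))
    (hR : ∀ a b, R a b → ∃ (ha : a ≠ v) (hb : b ≠ v), R' ⟨a, ha⟩ ⟨b, hb⟩) :
    Coupling E R lev C (ext0 v ν (C.law (lev v))) where
  nonneg z := mul_nonneg (h.nonneg _) (C.fo_law_nonneg _ _)
  total := by
    have := sum_ext0 v ν (C.law (lev v)) (fun _ => 1)
    simp_rw [mul_one, C.fo_law_sum, mul_one] at this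
    rw [this, h.total]
  vertex w f := by
    rw [sum_ext0]
    by_cases hw : w = v
    · subst hw
      simp_rw [put_self, ← Finset.sum_mul, h.total, one_mul]
    · have : ∀ (y : U) (z : {w : V // w ≠ v} → U), put v y z w = z ⟨w, hw⟩ := fun y z =>
        put_ne v y z ⟨w, hw⟩
      simp_rw [this, ← Finset.sum_mul, C.fo_law_sum, one_mul]
      exact h.vertex ⟨w, hw⟩ f
  tied a b hab f := by
    obtain ⟨ha, hb, hr⟩ := hR a b hab
    rw [sum_ext0]
    have h1 : ∀ (y : U) (z : {w : V // w ≠ v} → U), put v y z a = z ⟨a, ha⟩ := fun y z =>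
      put_ne v y z ⟨a, ha⟩
    have h2 : ∀ (y : U) (z : {w : V // w ≠ v} → U), put v y z b = z ⟨b, hb⟩ := fun y z =>
      put_ne v y z ⟨b, hb⟩
    simp_rw [h1, h2, ← Finset.sum_mul, C.fo_law_sum, one_mul]
    exact h.tied _ _ hr f
  bound := by
    refine le_trans (le_of_eq ?_) (le_trans h.bound hE)
    unfold corr
    rw [sum_ext0]
    refine Finset.sum_congr rfl fun z _ => ?_
    by_cases hz : ν z = 0
    · simp [hz]
    congr 1
    rw [← one_mul (Real.log (ν z) - _), ← C.fo_law_sum (lev v), Finset.sum_mul]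
    refine Finset.sum_congr rfl fun y _ => ?_
    by_cases hy : C.law (lev v) y = 0
    · simp [hy]
    congr 1
    rw [Fintype.sum_eq_add_sum_subtype_ne _ v]
    simp only [ext0, put_self, put_ne]
    rw [Real.log_mul hz hy]
    ring

end extend

section leaf

variable {V : Type} [Fintype V] [DecidableEq V] {v : V}

/-- add a vertex `v` one level above the vertex `u` -/
theorem good_up {E' : Finset ({w : V // w ≠ v} × {w : V // w ≠ v})}
    {R' : {w : V // w ≠ v} → {w : V // w ≠ v} → Prop} {lev : V → ℕ}
    (h : Good E' R' (fun w => lev w)) (u : {w : V // w ≠ v}) (hu : lev v = lev u + 1)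
    {E : Finset (V × V)} {R : V → V → Prop}
    (hE : E = insert ((u : V), v) (E'.map
      ((Function.Embedding.subtype _).prodMap (Function.Embedding.subtype _))))
    (hR : ∀ a b, R a b → (∃ (ha : a ≠ v) (hb : b ≠ v), R' ⟨a, ha⟩ ⟨b, hb⟩) ∨
      (b = v ∧ (a = u ∨ ∃ ha : a ≠ v, R' ⟨a, ha⟩ u)))
    (hER : ∀ e ∈ E, R e.1 e.2) :
    Good E R lev := by
  obtain ⟨-, hlt, hc⟩ := h
  refine ⟨hER, ?_, ?_⟩
  · intro a b hab
    rcases hR a b hab with ⟨ha, hb, hr⟩ | ⟨rfl, rfl | ⟨ha, hr⟩⟩
    · exact hlt _ _ hr
    · omega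
    · have := hlt _ _ hr
      simp only at this
      omega
  intro U _ C
  obtain ⟨ν, hν⟩ := hc U C
  have hpair : ∀ x y, C.pair (lev u) (lev v) x y = C.law (lev u) x * C.step (lev u) x y := by
    intro x y
    rw [Chain.pair, hu, Nat.add_sub_cancel_left, C.fo_ker_one]
  have hJ : ∀ x y, 0 ≤ C.pair (lev u) (lev v) x y := C.fo_pair_nonneg _ _
  have h1 : ∀ x, ∑ y, C.pair (lev u) (lev v) x y = C.law (lev u) x := C.fo_pair_fst _ _
  have h2 : ∀ y, ∑ x, C.pair (lev u) (lev v) x y = C.law (lev v) y := C.fo_pair_snd (by omega)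
  refine ⟨ext v u ν (condKer (C.law (lev u)) (C.law (lev v)) (C.pair (lev u) (lev v))),
    ?_, ?_, ext_vertex hν u hJ h1 h2, ?_, ?_⟩
  · intro z
    exact mul_nonneg (hν.nonneg _)
      (condKer_nonneg hJ (C.fo_law_nonneg _) (C.fo_law_nonneg _) _ _)
  · have := sum_ext v u ν (condKer (C.law (lev u)) (C.law (lev v)) (C.pair (lev u) (lev v)))
      (fun _ => 1)
    simp_rw [mul_one, condKer_sum h1 (C.fo_law_sum _), mul_one] at this
    rw [this, hν.total]
  · intro a b hab f
    rcases hR a b hab with ⟨ha, hb, hr⟩ | ⟨rfl, rfl | ⟨ha, hr⟩⟩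
    · exact ext_old hν u h1 ⟨a, ha⟩ ⟨b, hb⟩ hr f
    · exact ext_pair hν u hJ h1 f
    · rw [sum_ext]
      have e1 : ∀ (y : U) (z : {w : V // w ≠ b} → U), put b y z a = z ⟨a, ha⟩ := fun y z =>
        put_ne b y z ⟨a, ha⟩
      simp_rw [e1, put_self]
      rw [hν.tied _ _ hr (fun x x' => ∑ y, condKer (C.law (lev u)) (C.law (lev b))
        (C.pair (lev u) (lev b)) x' y * f x y)]
      refine Finset.sum_congr rfl fun x _ => ?_
      simp_rw [Finset.mul_sum]
      rw [Finset.sum_comm]
      refine Finset.sum_congr rfl fun y _ => ?_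
      simp_rw [← mul_assoc]
      rw [← Finset.sum_mul]
      congr 1
      have hlt' := hlt _ _ hr
      simp only at hlt'
      have hstep : ∀ x', C.pair (lev a) (lev u) x x' * condKer (C.law (lev u)) (C.law (lev b))
          (C.pair (lev u) (lev b)) x' y = C.pair (lev a) (lev u) x x' * C.step (lev u) x' y := by
        intro x'
        by_cases hx : C.law (lev u) x' = 0
        · have h4 := C.fo_pair_snd (le_of_lt hlt') x'
          rw [hx] at h4
          have := (Finset.sum_eq_zero_iff_of_nonneg
            (fun w _ => C.fo_pair_nonneg _ _ w x')).1 h4 x (mem_univ x)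
          rw [this, zero_mul, zero_mul]
        · congr 1
          have h5 := mul_condKer (b := C.law (lev b)) hJ h1 x' y
          rw [hpair] at h5
          exact mul_left_cancel₀ hx h5
      simp_rw [hstep]
      simp only [Chain.pair]
      rw [show lev b - lev a = (lev u - lev a) + 1 by omega]
      simp_rw [Chain.ker, mul_assoc, ← Finset.mul_sum]
      rw [show lev a + (lev u - lev a) = lev u by omega]
  · rw [ext_corr hν u hJ h1, hE, Finset.sum_insert, Finset.sum_map]
    · have := hν.bound
      simp only [Function.Embedding.coe_prodMap, Prod.map_fst, Prod.map_snd,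
        Function.Embedding.subtype_apply, Chain.info] at this ⊢
      linarith
    · simp only [Finset.mem_map, not_exists, not_and]
      rintro ⟨a, b⟩ - hab
      simp only [Function.Embedding.coe_prodMap, Prod.map_apply,
        Function.Embedding.subtype_apply] at hab
      exact b.2 (Prod.ext_iff.1 hab).2

/-- add a vertex `v` one level below the vertex `u` -/
theorem good_down {E' : Finset ({w : V // w ≠ v} × {w : V // w ≠ v})}
    {R' : {w : V // w ≠ v} → {w : V // w ≠ v} → Prop} {lev : V → ℕ}
    (h : Good E' R' (fun w => lev w)) (u : {w : V // w ≠ v}) (hu : lev u = lev v + 1)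
    {E : Finset (V × V)} {R : V → V → Prop}
    (hE : E = insert (v, (u : V)) (E'.map
      ((Function.Embedding.subtype _).prodMap (Function.Embedding.subtype _))))
    (hR : ∀ a b, R a b → (∃ (ha : a ≠ v) (hb : b ≠ v), R' ⟨a, ha⟩ ⟨b, hb⟩) ∨
      (a = v ∧ (b = u ∨ ∃ hb : b ≠ v, R' u ⟨b, hb⟩)))
    (hER : ∀ e ∈ E, R e.1 e.2) :
    Good E R lev := by
  obtain ⟨-, hlt, hc⟩ := h
  refine ⟨hER, ?_, ?_⟩
  · intro a b hab
    rcases hR a b hab with ⟨ha, hb, hr⟩ | ⟨rfl, rfl | ⟨hb, hr⟩⟩
    · exact hlt _ _ hr
    · omega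
    · have := hlt _ _ hr
      simp only at this
      omega
  intro U _ C
  obtain ⟨ν, hν⟩ := hc U C
  have hpair : ∀ x y, C.pair (lev v) (lev u) y x = C.law (lev v) y * C.step (lev v) y x := by
    intro x y
    rw [Chain.pair, hu, Nat.add_sub_cancel_left, C.fo_ker_one]
  set J : U → U → ℝ := fun x y => C.pair (lev v) (lev u) y x with hJdef
  have hJ : ∀ x y, 0 ≤ J x y := fun x y => C.fo_pair_nonneg _ _ _ _
  have h1 : ∀ x, ∑ y, J x y = C.law (lev u) x := fun x => C.fo_pair_snd (by omega) x
  have h2 : ∀ y, ∑ x, J x y = C.law (lev v) y := fun y => C.fo_pair_fst _ _ y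
  refine ⟨ext v u ν (condKer (C.law (lev u)) (C.law (lev v)) J),
    ?_, ?_, ext_vertex hν u hJ h1 h2, ?_, ?_⟩
  · intro z
    exact mul_nonneg (hν.nonneg _)
      (condKer_nonneg hJ (C.fo_law_nonneg _) (C.fo_law_nonneg _) _ _)
  · have := sum_ext v u ν (condKer (C.law (lev u)) (C.law (lev v)) J) (fun _ => 1)
    simp_rw [mul_one, condKer_sum h1 (C.fo_law_sum _), mul_one] at this
    rw [this, hν.total]
  · intro a b hab f
    rcases hR a b hab with ⟨ha, hb, hr⟩ | ⟨rfl, rfl | ⟨hb, hr⟩⟩
    · exact ext_old hν u h1 ⟨a, ha⟩ ⟨b, hb⟩ hr f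
    · rw [ext_pair hν u hJ h1 (fun x y => f y x), Finset.sum_comm]
    · rw [sum_ext]
      have e1 : ∀ (y : U) (z : {w : V // w ≠ a} → U), put a y z b = z ⟨b, hb⟩ := fun y z =>
        put_ne a y z ⟨b, hb⟩
      simp_rw [e1, put_self]
      rw [hν.tied _ _ hr (fun x x' => ∑ y, condKer (C.law (lev u)) (C.law (lev a)) J x y * f y x')]
      have hlt' := hlt _ _ hr
      simp only at hlt'
      simp_rw [Chain.pair, Finset.mul_sum]
      have hstep : ∀ x x' y, C.law (lev u) x * C.ker (lev u) (lev b - lev u) x x' *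
          (condKer (C.law (lev u)) (C.law (lev a)) J x y * f y x')
          = C.law (lev a) y * (C.step (lev a) y x * C.ker (lev u) (lev b - lev u) x x')
            * f y x' := by
        intro x x' y
        have h5 := mul_condKer (b := C.law (lev a)) hJ h1 x y
        rw [hJdef] at h5
        simp only [hpair] at h5
        calc _ = (C.law (lev u) x * condKer (C.law (lev u)) (C.law (lev a)) J x y)
              * C.ker (lev u) (lev b - lev u) x x' * f y x' := by ring
          _ = _ := by rw [hJdef]; simp only [hpair]; rw [h5]; ring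
      simp_rw [hstep]
      rw [Finset.sum_comm]
      rw [Finset.sum_congr rfl fun x' _ => Finset.sum_comm, Finset.sum_comm]
      refine Finset.sum_congr rfl fun y _ => Finset.sum_congr rfl fun x' _ => ?_
      rw [← Finset.sum_mul, ← Finset.mul_sum]
      congr 2
      rw [show lev b - lev a = (lev u - (lev a + 1)) + (lev b - lev u) + 1 by omega,
        show lev u - (lev a + 1) = 0 by omega, Nat.zero_add, C.fo_ker_succ', ← hu]
  · rw [ext_corr hν u hJ h1, hE, Finset.sum_insert, Finset.sum_map]
    · have := hν.bound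
      simp only [Function.Embedding.coe_prodMap, Prod.map_fst, Prod.map_snd,
        Function.Embedding.subtype_apply, Chain.info] at this ⊢
      have e : ∑ x, ∑ y, J x y * (Real.log (J x y) - Real.log (C.law (lev u) x)
            - Real.log (C.law (lev v) y)) = ∑ x, ∑ y, C.pair (lev v) (lev u) x y *
            (Real.log (C.pair (lev v) (lev u) x y) - Real.log (C.law (lev v) x)
            - Real.log (C.law (lev u) y)) := by
        rw [Finset.sum_comm]
        refine Finset.sum_congr rfl fun y _ => Finset.sum_congr rfl fun x _ => ?_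
        rw [hJdef]
        ring
      rw [e]
      linarith
    · simp only [Finset.mem_map, not_exists, not_and]
      rintro ⟨a, b⟩ - hab
      simp only [Function.Embedding.coe_prodMap, Prod.map_apply,
        Function.Embedding.subtype_apply] at hab
      exact a.2 (Prod.ext_iff.1 hab).1

/-- add an isolated vertex `v` -/
theorem good_isolated {E' : Finset ({w : V // w ≠ v} × {w : V // w ≠ v})}
    {R' : {w : V // w ≠ v} → {w : V // w ≠ v} → Prop} {lev : V → ℕ}
    (h : Good E' R' (fun w => lev w))
    {E : Finset (V × V)} {R : V → V → Prop}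
    (hE : E = E'.map ((Function.Embedding.subtype _).prodMap (Function.Embedding.subtype _)))
    (hR : ∀ a b, R a b → ∃ (ha : a ≠ v) (hb : b ≠ v), R' ⟨a, ha⟩ ⟨b, hb⟩)
    (hER : ∀ e ∈ E, R e.1 e.2) :
    Good E R lev := by
  obtain ⟨-, hlt, hc⟩ := h
  refine ⟨hER, ?_, ?_⟩
  · intro a b hab
    obtain ⟨ha, hb, hr⟩ := hR a b hab
    exact hlt _ _ hr
  intro U _ C
  obtain ⟨ν, hν⟩ := hc U C
  refine ⟨ext0 v ν (C.law (lev v)), coupling_ext0 hν (le_of_eq ?_) hR⟩
  rw [hE, Finset.sum_map]
  rfl

end leaf

section forest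

variable {V : Type}

/-- one step upwards along an edge of `F` -/
def Up (F : SimpleGraph V) (lev : V → ℕ) (a b : V) : Prop := F.Adj a b ∧ lev b = lev a + 1

theorem transGen_up_lt {F : SimpleGraph V} {lev : V → ℕ} {a b : V}
    (h : Relation.TransGen (Up F lev) a b) : lev a < lev b := by
  induction h with
  | single h => rw [h.2]; omega
  | tail _ h ih => rw [h.2]; omega

/-- an acyclic finite graph has a vertex of degree at most one -/
theorem exists_leaf [Finite V] [Nonempty V] {F : SimpleGraph V} (hF : F.IsAcyclic) :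
    ∃ v, (∀ w, ¬ F.Adj v w) ∨ ∃ u, F.Adj v u ∧ ∀ w, F.Adj v w → w = u := by
  classical
  obtain ⟨u, v, p, hp, hmax⟩ := SimpleGraph.Walk.exists_isPath_forall_isPath_length_le_length F
  refine ⟨u, ?_⟩
  by_cases hn : p.Nil
  · left
    intro w hw
    have := hmax u w hw.toWalk (by simp [SimpleGraph.Walk.isPath_def, hw.ne])
    rw [SimpleGraph.Walk.length_eq_zero_iff.2 hn] at this
    simp at this
  · right
    refine ⟨_, p.adj_snd hn, fun w hadj => ?_⟩
    apply hF.eq_snd_of_adj_start hp hadj
    by_contra hs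
    have h2 := hmax _ _ (p.cons hadj.symm) (hp.cons hs)
    simp at h2

theorem transGen_up_avoid {F : SimpleGraph V} {lev : V → ℕ} {v u : V} (huv : u ≠ v)
    (hl : ∀ w, F.Adj v w → w = u) {a b : V}
    (h : Relation.TransGen (Up F lev) a b) (ha : a ≠ v) :
    (∀ hb : b ≠ v, Relation.TransGen (Up (F.comap (Subtype.val : {w : V // w ≠ v} → V))
        (fun w => lev w)) ⟨a, ha⟩ ⟨b, hb⟩) ∧
    (b = v → lev v = lev u + 1 ∧ (a = u ∨ Relation.TransGen
      (Up (F.comap (Subtype.val : {w : V // w ≠ v} → V)) (fun w => lev w)) ⟨a, ha⟩ ⟨u, huv⟩)) := by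
  induction h with
  | @single b h =>
    refine ⟨fun hb => Relation.TransGen.single h, ?_⟩
    rintro rfl
    have := hl a h.1.symm
    subst this
    exact ⟨h.2, Or.inl rfl⟩
  | @tail b c hab hbc ih =>
    by_cases hb : b = v
    · subst hb
      exfalso
      have h1 := (ih.2 rfl).1
      have h2 := hl c hbc.1
      subst h2
      have := hbc.2
      omega
    · refine ⟨fun hc => (ih.1 hb).tail hbc, ?_⟩
      rintro rfl
      have := hl b hbc.1.symm
      subst this
      exact ⟨hbc.2, Or.inr (ih.1 hb)⟩

/-- Forests are good, with all pairs on monotone paths tied. -/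
theorem good_forest : ∀ (n : ℕ) (V : Type) [Fintype V] [DecidableEq V] (F : SimpleGraph V)
    (_ : F.IsAcyclic) (lev : V → ℕ)
    (_ : ∀ a b, F.Adj a b → lev b = lev a + 1 ∨ lev a = lev b + 1)
    (E : Finset (V × V)) (_ : ∀ e, e ∈ E ↔ Up F lev e.1 e.2) (_ : Fintype.card V = n),
    Good E (Relation.TransGen (Up F lev)) lev := by
  intro n
  induction n with
  | zero =>
    intro V _ _ F hF lev hlev E hE hn
    have : IsEmpty V := Fintype.card_eq_zero_iff.1 hn
    refine ⟨fun e => (IsEmpty.false e.1).elim, fun a => (IsEmpty.false a).elim, fun U _ C => ?_⟩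
    refine ⟨fun _ => 1, fun _ => zero_le_one, by simp, fun a => (IsEmpty.false a).elim,
      fun a => (IsEmpty.false a).elim, ?_⟩
    have : E = ∅ := Finset.eq_empty_of_forall_notMem fun e => (IsEmpty.false e.1).elim
    simp [corr, this]
  | succ n ih =>
    intro V _ _ F hF lev hlev E hE hn
    have : Nonempty V := Fintype.card_pos_iff.1 (by omega)
    obtain ⟨v, hv⟩ := exists_leaf hF
    classical
    set F' := F.comap (Subtype.val : {w : V // w ≠ v} → V) with hF'
    set E' : Finset ({w : V // w ≠ v} × {w : V // w ≠ v}) :=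
      Finset.univ.filter (fun e => Up F' (fun w => lev w) e.1 e.2) with hE'
    have hG := ih {w : V // w ≠ v} F'
      (hF.comap ⟨Subtype.val, fun h => h⟩ Subtype.val_injective)
      (fun w => lev w) (fun a b hab => hlev a b hab) E' (by simp [hE'])
      (by rw [Fintype.card_subtype_compl]; simp; omega)
    have hER : ∀ e ∈ E, Relation.TransGen (Up F lev) e.1 e.2 := fun e he =>
      Relation.TransGen.single ((hE e).1 he)
    rcases hv with hv | ⟨u, hu, hl⟩
    · -- isolated
      have hmem : ∀ {a b : V}, Up F lev a b → a ≠ v ∧ b ≠ v := by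
        rintro a b ⟨h, -⟩
        refine ⟨?_, ?_⟩
        · rintro rfl
          exact hv _ h
        · rintro rfl
          exact hv _ h.symm
      refine good_isolated hG ?_ ?_ hER
      · ext ⟨a, b⟩
        simp only [hE, Finset.mem_map, hE', Finset.mem_filter, Finset.mem_univ, true_and,
          Function.Embedding.coe_prodMap, Prod.exists, Prod.map_apply,
          Function.Embedding.subtype_apply, Prod.mk.injEq]
        constructor
        · intro h
          exact ⟨⟨a, (hmem h).1⟩, ⟨b, (hmem h).2⟩, h, rfl, rfl⟩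
        · rintro ⟨a', b', h, rfl, rfl⟩
          exact h
      · intro a b hab
        have ha : a ≠ v := by
          rintro rfl
          obtain ⟨c, hc, -⟩ := Relation.TransGen.head'_iff.1 hab
          exact (hmem hc).1 rfl
        have hb : b ≠ v := by
          rintro rfl
          obtain ⟨c, -, hc⟩ := Relation.TransGen.tail'_iff.1 hab
          exact (hmem hc).2 rfl
        refine ⟨ha, hb, ?_⟩
        clear hG
        induction hab with
        | single h => exact Relation.TransGen.single h
        | @tail b c hab hbc ih2 => exact (ih2 (hmem hbc).1).tail hbc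
    · have huv : u ≠ v := hu.ne'
      rcases hlev v u hu with h | h
      · -- `v` below `u`
        refine good_down hG ⟨u, huv⟩ h ?_ ?_ hER
        · ext ⟨a, b⟩
          simp only [hE, Finset.mem_insert, Finset.mem_map, hE', Finset.mem_filter,
            Finset.mem_univ, true_and, Function.Embedding.coe_prodMap, Prod.exists, Prod.map_apply,
            Function.Embedding.subtype_apply, Prod.mk.injEq]
          constructor
          · intro hab
            by_cases ha : a = v
            · left
              subst ha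
              exact ⟨rfl, hl b hab.1⟩
            by_cases hb : b = v
            · exfalso
              subst hb
              have h1 := hl a hab.1.symm
              subst h1
              have := hab.2
              omega
            · exact Or.inr ⟨⟨a, ha⟩, ⟨b, hb⟩, hab, rfl, rfl⟩
          · rintro (⟨rfl, rfl⟩ | ⟨a', b', h', rfl, rfl⟩)
            · exact ⟨hu, h⟩
            · exact h'
        · intro a b hab
          by_cases ha : a = v
          · right
            refine ⟨ha, ?_⟩
            subst ha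
            obtain ⟨c, hc, hcb⟩ := Relation.TransGen.head'_iff.1 hab
            have h1 := hl c hc.1
            subst h1
            rcases Relation.reflTransGen_iff_eq_or_transGen.1 hcb with h2 | h2
            · exact Or.inl h2
            · right
              have hb : b ≠ a := by
                rintro rfl
                have := transGen_up_lt h2
                omega
              exact ⟨hb, (transGen_up_avoid huv hl h2 huv).1 hb⟩
          · left
            have hb : b ≠ v := by
              rintro rfl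
              have := ((transGen_up_avoid huv hl hab ha).2 rfl).1
              omega
            exact ⟨ha, hb, (transGen_up_avoid huv hl hab ha).1 hb⟩
      · -- `v` above `u`
        refine good_up hG ⟨u, huv⟩ h ?_ ?_ hER
        · ext ⟨a, b⟩
          simp only [hE, Finset.mem_insert, Finset.mem_map, hE', Finset.mem_filter,
            Finset.mem_univ, true_and, Function.Embedding.coe_prodMap, Prod.exists, Prod.map_apply,
            Function.Embedding.subtype_apply, Prod.mk.injEq]
          constructor
          · intro hab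
            by_cases hb : b = v
            · left
              subst hb
              exact ⟨hl a hab.1.symm, rfl⟩
            by_cases ha : a = v
            · exfalso
              subst ha
              have h1 := hl b hab.1
              subst h1
              have := hab.2
              omega
            · exact Or.inr ⟨⟨a, ha⟩, ⟨b, hb⟩, hab, rfl, rfl⟩
          · rintro (⟨rfl, rfl⟩ | ⟨a', b', h', rfl, rfl⟩)
            · exact ⟨hu.symm, h⟩
            · exact h'
        · intro a b hab
          have ha : a ≠ v := by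
            rintro rfl
            obtain ⟨c, hc, -⟩ := Relation.TransGen.head'_iff.1 hab
            have h1 := hl c hc.1
            subst h1
            have := hc.2
            omega
          by_cases hb : b = v
          · right
            refine ⟨hb, ?_⟩
            rcases ((transGen_up_avoid huv hl hab ha).2 hb).2 with h2 | h2
            · exact Or.inl h2
            · exact Or.inr ⟨ha, h2⟩
          · exact Or.inl ⟨ha, hb, (transGen_up_avoid huv hl hab ha).1 hb⟩

end forest

end Vale.Agent.P050.Lev
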