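import Vale.Agent.P050.Lev.Main
import Vale.Agent.P050.Lev.Cone

/-!
Gluing two good levelled graphs along at most two vertices.
-/

set_option linter.unusedSectionVars false

namespace Vale.Agent.P050.Lev

open Finset

section glue

variable {S L R U : Type} [Fintype S] [DecidableEq S] [Fintype L] [DecidableEq L] [Fintype R]
  [DecidableEq R] [Fintype U]

/-- inclusion of the left part -/
def gl : S ⊕ L → S ⊕ (L ⊕ R) := Sum.map id Sum.inl

/-- inclusion of the right part -/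
def gr : S ⊕ R → S ⊕ (L ⊕ R) := Sum.map id Sum.inr

/-- glue two laws with the same `S`-marginal -/
noncomputable def glueLaw (ν₁ : (S ⊕ L → U) → ℝ) (ν₂ : (S ⊕ R → U) → ℝ)
    (z : S ⊕ (L ⊕ R) → U) : ℝ :=
  ν₁ (z ∘ gl) * ν₂ (z ∘ gr) / smarg ν₁ (z ∘ Sum.inl)

theorem sum_three (F : (S ⊕ (L ⊕ R) → U) → ℝ) :
    ∑ z, F z = ∑ s : S → U, ∑ l : L → U, ∑ r : R → U, F (Sum.elim s (Sum.elim l r)) := by
  rw [sum_sumArrow (S := S) (T := L ⊕ R)]
  refine Finset.sum_congr rfl fun s _ => ?_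
  rw [sum_sumArrow (S := L) (T := R) (f := fun t => F (Sum.elim s t))]

theorem elim_gl (s : S → U) (l : L → U) (r : R → U) :
    (Sum.elim s (Sum.elim l r)) ∘ gl = Sum.elim s l := by
  funext x; rcases x with x | x <;> rfl

theorem elim_gr (s : S → U) (l : L → U) (r : R → U) :
    (Sum.elim s (Sum.elim l r)) ∘ gr = Sum.elim s r := by
  funext x; rcases x with x | x <;> rfl

theorem elim_inl (s : S → U) (t : L ⊕ R → U) : (Sum.elim s t) ∘ Sum.inl = s := rfl

variable {ν₁ : (S ⊕ L → U) → ℝ} {ν₂ : (S ⊕ R → U) → ℝ}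

theorem sum_glue_left (h₁ : ∀ z, 0 ≤ ν₁ z) (hm : ∀ s, smarg ν₁ s = smarg ν₂ s)
    (f : (S ⊕ L → U) → ℝ) :
    ∑ z, glueLaw ν₁ ν₂ z * f (z ∘ gl) = ∑ z, ν₁ z * f z := by
  rw [sum_three, sum_sumArrow]
  refine Finset.sum_congr rfl fun s _ => Finset.sum_congr rfl fun l _ => ?_
  simp only [glueLaw, elim_gl, elim_gr, elim_inl]
  by_cases hs : smarg ν₁ s = 0
  · simp [hs, eq_zero_of_smarg h₁ hs]
  · have h2 : ∀ r : R → U, ν₁ (Sum.elim s l) * ν₂ (Sum.elim s r) / smarg ν₁ s *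
        f (Sum.elim s l) = ν₁ (Sum.elim s l) * f (Sum.elim s l) / smarg ν₁ s *
          ν₂ (Sum.elim s r) := fun r => by ring
    rw [Finset.sum_congr rfl fun r _ => h2 r, ← Finset.mul_sum]
    have h3 : ∑ r : R → U, ν₂ (Sum.elim s r) = smarg ν₁ s := (hm s).symm
    rw [h3]
    field_simp

theorem sum_glue_right (h₂ : ∀ z, 0 ≤ ν₂ z) (hm : ∀ s, smarg ν₁ s = smarg ν₂ s)
    (f : (S ⊕ R → U) → ℝ) :
    ∑ z, glueLaw ν₁ ν₂ z * f (z ∘ gr) = ∑ z, ν₂ z * f z := by
  rw [sum_three, sum_sumArrow]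
  refine Finset.sum_congr rfl fun s _ => ?_
  rw [Finset.sum_comm]
  refine Finset.sum_congr rfl fun r _ => ?_
  simp only [glueLaw, elim_gl, elim_gr, elim_inl]
  by_cases hs : smarg ν₁ s = 0
  · have hs2 : smarg ν₂ s = 0 := (hm s).symm.trans hs
    simp [hs, eq_zero_of_smarg h₂ hs2]
  · have h2 : ∀ l : L → U, ν₁ (Sum.elim s l) * ν₂ (Sum.elim s r) / smarg ν₁ s *
        f (Sum.elim s r) = ν₂ (Sum.elim s r) * f (Sum.elim s r) / smarg ν₁ s *
          ν₁ (Sum.elim s l) := fun l => by ring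
    rw [Finset.sum_congr rfl fun l _ => h2 l, ← Finset.mul_sum]
    have h3 : ∑ l : L → U, ν₁ (Sum.elim s l) = smarg ν₁ s := rfl
    rw [h3]
    field_simp

theorem sum_smarg {T : Type} [Fintype T] [DecidableEq T] (ν : (S ⊕ T → U) → ℝ)
    (G : (S → U) → ℝ) : ∑ z, ν z * G (z ∘ Sum.inl) = ∑ s, smarg ν s * G s := by
  rw [sum_sumArrow]
  refine Finset.sum_congr rfl fun s _ => ?_
  rw [smarg, Finset.sum_mul]
  rfl

theorem glueLaw_nonneg (h₁ : ∀ z, 0 ≤ ν₁ z) (h₂ : ∀ z, 0 ≤ ν₂ z) (z : S ⊕ (L ⊕ R) → U) :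
    0 ≤ glueLaw ν₁ ν₂ z :=
  div_nonneg (mul_nonneg (h₁ _) (h₂ _)) (smarg_nonneg h₁ _)

theorem mul_log_glue (z : S ⊕ (L ⊕ R) → U) :
    glueLaw ν₁ ν₂ z * Real.log (glueLaw ν₁ ν₂ z) = glueLaw ν₁ ν₂ z *
      (Real.log (ν₁ (z ∘ gl)) + Real.log (ν₂ (z ∘ gr)) - Real.log (smarg ν₁ (z ∘ Sum.inl))) := by
  by_cases h0 : glueLaw ν₁ ν₂ z = 0
  · rw [h0]; ring
  · have h1 : ν₁ (z ∘ gl) ≠ 0 := fun h => h0 (by simp [glueLaw, h])
    have h2 : ν₂ (z ∘ gr) ≠ 0 := fun h => h0 (by simp [glueLaw, h])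
    have h3 : smarg ν₁ (z ∘ Sum.inl) ≠ 0 := fun h => h0 (by simp [glueLaw, h])
    congr 1
    rw [glueLaw, Real.log_div (mul_ne_zero h1 h2) h3, Real.log_mul h1 h2]

theorem corr_glue (h₁ : ∀ z, 0 ≤ ν₁ z) (h₂ : ∀ z, 0 ≤ ν₂ z)
    (hm : ∀ s, smarg ν₁ s = smarg ν₂ s) (lev : S ⊕ (L ⊕ R) → ℕ) (C : Chain U) :
    corr lev C (glueLaw ν₁ ν₂) = corr (lev ∘ gl) C ν₁ + corr (lev ∘ gr) C ν₂ -
      corr (lev ∘ Sum.inl) C (smarg ν₁) := by
  have h : ∀ z : S ⊕ (L ⊕ R) → U, glueLaw ν₁ ν₂ z * (Real.log (glueLaw ν₁ ν₂ z) -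
      ∑ v, Real.log (C.law (lev v) (z v))) =
      glueLaw ν₁ ν₂ z * (Real.log (ν₁ (z ∘ gl)) -
        ∑ v, Real.log (C.law ((lev ∘ gl) v) ((z ∘ gl) v))) +
      glueLaw ν₁ ν₂ z * (Real.log (ν₂ (z ∘ gr)) -
        ∑ v, Real.log (C.law ((lev ∘ gr) v) ((z ∘ gr) v))) -
      glueLaw ν₁ ν₂ z * ((fun z' : S ⊕ L → U => Real.log (smarg ν₁ (z' ∘ Sum.inl)) -
        ∑ v, Real.log (C.law ((lev ∘ Sum.inl) v) ((z' ∘ Sum.inl) v))) (z ∘ gl)) := by
    intro z
    have h3 : (z ∘ gl) ∘ Sum.inl = z ∘ Sum.inl := rfl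
    rw [mul_sub, mul_log_glue]
    simp only [h3, Fintype.sum_sum_type]
    simp only [gl, gr, Function.comp, Sum.map_inl, Sum.map_inr, id]
    ring
  rw [corr, Finset.sum_congr rfl fun z _ => h z, Finset.sum_sub_distrib, Finset.sum_add_distrib]
  have e1 := sum_glue_left h₁ hm fun z => Real.log (ν₁ z) -
    ∑ v, Real.log (C.law ((lev ∘ gl) v) (z v))
  have e2 := sum_glue_right h₂ hm fun z => Real.log (ν₂ z) -
    ∑ v, Real.log (C.law ((lev ∘ gr) v) (z v))
  have e3 := sum_glue_left h₁ hm fun z' : S ⊕ L → U => Real.log (smarg ν₁ (z' ∘ Sum.inl)) -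
    ∑ v, Real.log (C.law ((lev ∘ Sum.inl) v) ((z' ∘ Sum.inl) v))
  have e4 := sum_smarg ν₁ fun s => Real.log (smarg ν₁ s) -
    ∑ v, Real.log (C.law ((lev ∘ Sum.inl) v) (s v))
  exact congrArg₂ (· - ·) (congrArg₂ (· + ·) e1 e2) (e3.trans e4)

/-- the tied pairs after gluing -/
def glueRel (R₁ : S ⊕ L → S ⊕ L → Prop) (R₂ : S ⊕ R → S ⊕ R → Prop)
    (u v : S ⊕ (L ⊕ R)) : Prop :=
  (∃ a b, u = gl a ∧ v = gl b ∧ R₁ a b) ∨ ∃ a b, u = gr a ∧ v = gr b ∧ R₂ a b

theorem Coupling.glue {E₁ : Finset ((S ⊕ L) × (S ⊕ L))} {E₂ : Finset ((S ⊕ R) × (S ⊕ R))}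
    {R₁ : S ⊕ L → S ⊕ L → Prop} {R₂ : S ⊕ R → S ⊕ R → Prop} {lev : S ⊕ (L ⊕ R) → ℕ}
    {C : Chain U} (h₁ : Coupling E₁ R₁ (lev ∘ gl) C ν₁) (h₂ : Coupling E₂ R₂ (lev ∘ gr) C ν₂)
    (hm : ∀ s, smarg ν₁ s = smarg ν₂ s) {E : Finset ((S ⊕ (L ⊕ R)) × (S ⊕ (L ⊕ R)))}
    (hE : ∑ e ∈ E₁, C.info ((lev ∘ gl) e.1) ((lev ∘ gl) e.2) +
      ∑ e ∈ E₂, C.info ((lev ∘ gr) e.1) ((lev ∘ gr) e.2) - corr (lev ∘ Sum.inl) C (smarg ν₁) ≤
        ∑ e ∈ E, C.info (lev e.1) (lev e.2)) :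
    Coupling E (glueRel R₁ R₂) lev C (glueLaw ν₁ ν₂) where
  nonneg := glueLaw_nonneg h₁.nonneg h₂.nonneg
  total := by
    have h := sum_glue_left h₁.nonneg hm fun _ => 1
    simp only [mul_one] at h
    rw [h, h₁.total]
  vertex := by
    rintro (v | v | v) f
    · exact (sum_glue_left h₁.nonneg hm fun z => f (z (Sum.inl v))).trans
        (h₁.vertex (Sum.inl v) f)
    · exact (sum_glue_left h₁.nonneg hm fun z => f (z (Sum.inr v))).trans
        (h₁.vertex (Sum.inr v) f)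
    · exact (sum_glue_right h₂.nonneg hm fun z => f (z (Sum.inr v))).trans
        (h₂.vertex (Sum.inr v) f)
  tied := by
    rintro u v (⟨a, b, rfl, rfl, h⟩ | ⟨a, b, rfl, rfl, h⟩) f
    · exact (sum_glue_left h₁.nonneg hm fun z => f (z a) (z b)).trans (h₁.tied a b h f)
    · exact (sum_glue_right h₂.nonneg hm fun z => f (z a) (z b)).trans (h₂.tied a b h f)
  bound := by
    rw [corr_glue h₁.nonneg h₂.nonneg hm]
    have := h₁.bound
    have := h₂.bound
    linarith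

theorem smarg_apply {T : Type} [Fintype T] [DecidableEq T] [DecidableEq U]
    (ν : (S ⊕ T → U) → ℝ) (s : S → U) :
    smarg ν s = ∑ z, ν z * (if z ∘ Sum.inl = s then 1 else 0) := by
  rw [sum_smarg ν fun s' => if s' = s then 1 else 0]
  simp

theorem smarg_pair {T : Type} [Fintype T] [DecidableEq T] {E : Finset ((S ⊕ T) × (S ⊕ T))}
    {R : S ⊕ T → S ⊕ T → Prop} {lev : S ⊕ T → ℕ} {C : Chain U} {ν : (S ⊕ T → U) → ℝ}
    (hν : Coupling E R lev C ν) {u v : S} (huv : ∀ w : S, w = u ∨ w = v)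
    (hR : R (Sum.inl u) (Sum.inl v)) (s : S → U) :
    smarg ν s = C.pair (lev (Sum.inl u)) (lev (Sum.inl v)) (s u) (s v) := by
  classical
  rw [smarg_apply]
  have h := hν.tied _ _ hR fun x y => if x = s u ∧ y = s v then 1 else 0
  have h1 : ∀ z : S ⊕ T → U, (if z ∘ Sum.inl = s then (1 : ℝ) else 0) =
      if z (Sum.inl u) = s u ∧ z (Sum.inl v) = s v then 1 else 0 := by
    intro z
    congr 1
    refine propext ⟨fun h => ⟨congrFun h u, congrFun h v⟩, fun h => funext fun w => ?_⟩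
    rcases huv w with rfl | rfl
    · exact h.1
    · exact h.2
  rw [Finset.sum_congr rfl fun z _ => by rw [h1 z], h, Finset.sum_eq_single (s u),
    Finset.sum_eq_single (s v)]
  · simp
  · intro y _ hy
    rw [if_neg fun h => hy h.2, mul_zero]
  · intro h; exact absurd (Finset.mem_univ _) h
  · intro x _ hx
    exact Finset.sum_eq_zero fun y _ => by rw [if_neg fun h => hx h.1, mul_zero]
  · intro h; exact absurd (Finset.mem_univ _) h

theorem smarg_single {T : Type} [Fintype T] [DecidableEq T] {E : Finset ((S ⊕ T) × (S ⊕ T))}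
    {R : S ⊕ T → S ⊕ T → Prop} {lev : S ⊕ T → ℕ} {C : Chain U} {ν : (S ⊕ T → U) → ℝ}
    (hν : Coupling E R lev C ν) {u : S} (hu : ∀ w : S, w = u) (s : S → U) :
    smarg ν s = C.law (lev (Sum.inl u)) (s u) := by
  classical
  rw [smarg_apply]
  have h := hν.vertex (Sum.inl u) fun x => if x = s u then 1 else 0
  have h1 : ∀ z : S ⊕ T → U, (if z ∘ Sum.inl = s then (1 : ℝ) else 0) =
      if z (Sum.inl u) = s u then 1 else 0 := by
    intro z
    congr 1
    refine propext ⟨fun h => congrFun h u, fun h => funext fun w => ?_⟩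
    rw [hu w]
    exact h
  rw [Finset.sum_congr rfl fun z _ => by rw [h1 z], h]
  simp

theorem smarg_empty {T : Type} [Fintype T] [DecidableEq T] {E : Finset ((S ⊕ T) × (S ⊕ T))}
    {R : S ⊕ T → S ⊕ T → Prop} {lev : S ⊕ T → ℕ} {C : Chain U} {ν : (S ⊕ T → U) → ℝ}
    (hν : Coupling E R lev C ν) (hS : IsEmpty S) (s : S → U) :
    smarg ν s = 1 := by
  classical
  rw [smarg_apply, Finset.sum_congr rfl fun z _ => by
    rw [if_pos (funext fun w => (hS.false w).elim), mul_one], hν.total]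

/-- the `S`-marginal has nonnegative total correlation -/
theorem corr_smarg_nonneg {T : Type} [Fintype T] [DecidableEq T]
    {E : Finset ((S ⊕ T) × (S ⊕ T))} {R : S ⊕ T → S ⊕ T → Prop} {lev : S ⊕ T → ℕ} {C : Chain U}
    {ν : (S ⊕ T → U) → ℝ} (hν : Coupling E R lev C ν) :
    0 ≤ corr (fun a => lev (Sum.inl a)) C (smarg ν) := by
  classical
  have hρ0 : ∀ s, 0 ≤ smarg ν s := smarg_nonneg hν.nonneg
  have hρ1 : ∑ s, smarg ν s = 1 := by
    have h := sum_smarg ν fun _ => 1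
    simp only [mul_one] at h
    rw [← h, hν.total]
  have hz : ∀ s : S → U, ∏ a : S, C.law (lev (Sum.inl a)) (s a) = 0 → smarg ν s = 0 := by
    intro s hs
    obtain ⟨a, _, ha⟩ := Finset.prod_eq_zero_iff.1 hs
    have h := hν.vertex (Sum.inl a) fun x => if x = s a then 1 else 0
    simp only [mul_ite, mul_one, mul_zero, Finset.sum_ite_eq', Finset.mem_univ, if_true, ha] at h
    have h2 : ∀ z, (if z (Sum.inl a) = s a then ν z else 0) = 0 := fun z =>
      (Finset.sum_eq_zero_iff_of_nonneg fun z _ => by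
        split_ifs
        · exact hν.nonneg z
        · exact le_rfl).1 h z (Finset.mem_univ z)
    rw [smarg]
    refine Finset.sum_eq_zero fun t _ => ?_
    have := h2 (Sum.elim s t)
    simpa using this
  have h := gibbs_aux (smarg ν) (fun s => ∏ a : S, C.law (lev (Sum.inl a)) (s a)) hρ0
    (fun s => Finset.prod_nonneg fun a _ => C.fo_law_nonneg _ _) ?_ hz
  · refine h.trans (le_of_eq ?_)
    refine Finset.sum_congr rfl fun s _ => ?_
    by_cases h0 : smarg ν s = 0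
    · rw [h0]; ring
    · congr 2
      rw [Real.log_prod]
      intro a _ ha
      exact h0 (hz s (Finset.prod_eq_zero (Finset.mem_univ a) ha))
  · rw [hρ1]
    have h2 := Finset.prod_univ_sum (fun _ : S => (Finset.univ : Finset U))
      (fun a x => C.law (lev (Sum.inl a)) x)
    rw [Fintype.piFinset_univ] at h2
    rw [← h2]
    simp [C.fo_law_sum]

theorem gl_injective : Function.Injective (gl : S ⊕ L → S ⊕ (L ⊕ R)) := by
  intro a b h
  rcases a with a | a <;> rcases b with b | b <;> simp_all [gl]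

theorem gr_injective : Function.Injective (gr : S ⊕ R → S ⊕ (L ⊕ R)) := by
  intro a b h
  rcases a with a | a <;> rcases b with b | b <;> simp_all [gr]

/-- the edges after gluing -/
def glueEdges (E₁ : Finset ((S ⊕ L) × (S ⊕ L))) (E₂ : Finset ((S ⊕ R) × (S ⊕ R))) :
    Finset ((S ⊕ (L ⊕ R)) × (S ⊕ (L ⊕ R))) :=
  E₁.image (Prod.map gl gl) ∪ E₂.image (Prod.map gr gr)

/-- **Gluing rule.** Two good levelled graphs glued along at most two vertices (tied in both parts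
if there are two of them) form a good levelled graph. -/
theorem Good.glue {E₁ : Finset ((S ⊕ L) × (S ⊕ L))} {E₂ : Finset ((S ⊕ R) × (S ⊕ R))}
    {R₁ : S ⊕ L → S ⊕ L → Prop} {R₂ : S ⊕ R → S ⊕ R → Prop} {lev : S ⊕ (L ⊕ R) → ℕ}
    (h₁ : Good E₁ R₁ (lev ∘ gl)) (h₂ : Good E₂ R₂ (lev ∘ gr)) (hc : Fintype.card S ≤ 2)
    (hS : ∀ u v : S, u ≠ v → (R₁ (Sum.inl u) (Sum.inl v) ∧ R₂ (Sum.inl u) (Sum.inl v)) ∨
      (R₁ (Sum.inl v) (Sum.inl u) ∧ R₂ (Sum.inl v) (Sum.inl u))) :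
    Good (glueEdges E₁ E₂) (glueRel R₁ R₂) lev := by
  obtain ⟨hER₁, hRl₁, hC₁⟩ := h₁
  obtain ⟨hER₂, hRl₂, hC₂⟩ := h₂
  refine ⟨?_, ?_, ?_⟩
  · intro e he
    rcases Finset.mem_union.1 he with he | he
    · obtain ⟨e', he', rfl⟩ := Finset.mem_image.1 he
      exact Or.inl ⟨e'.1, e'.2, rfl, rfl, hER₁ e' he'⟩
    · obtain ⟨e', he', rfl⟩ := Finset.mem_image.1 he
      exact Or.inr ⟨e'.1, e'.2, rfl, rfl, hER₂ e' he'⟩
  · rintro u v (⟨a, b, rfl, rfl, h⟩ | ⟨a, b, rfl, rfl, h⟩)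
    · exact hRl₁ a b h
    · exact hRl₂ a b h
  · intro U _ C
    obtain ⟨ν₁, hν₁⟩ := hC₁ U C
    obtain ⟨ν₂, hν₂⟩ := hC₂ U C
    have hsum : ∑ e ∈ E₁, C.info ((lev ∘ gl) e.1) ((lev ∘ gl) e.2) +
        ∑ e ∈ E₂, C.info ((lev ∘ gr) e.1) ((lev ∘ gr) e.2) =
        ∑ e ∈ glueEdges E₁ E₂, C.info (lev e.1) (lev e.2) +
          ∑ e ∈ E₁.image (Prod.map gl gl) ∩ E₂.image (Prod.map gr gr),
            C.info (lev e.1) (lev e.2) := by
      rw [glueEdges, Finset.sum_union_inter]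
      congr 1
      · rw [Finset.sum_image fun a _ b _ h =>
          (gl_injective.prodMap gl_injective) h]
        rfl
      · rw [Finset.sum_image fun a _ b _ h =>
          (gr_injective.prodMap gr_injective) h]
        rfl
    have hinter : ∀ e ∈ E₁.image (Prod.map gl gl) ∩ E₂.image (Prod.map gr gr),
        ∃ u v : S, e = (Sum.inl u, Sum.inl v) ∧ lev (Sum.inl u) < lev (Sum.inl v) := by
      intro e he
      obtain ⟨he1, he2⟩ := Finset.mem_inter.1 he
      obtain ⟨⟨a, b⟩, hab, rfl⟩ := Finset.mem_image.1 he1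
      obtain ⟨⟨c, d⟩, _, hcd⟩ := Finset.mem_image.1 he2
      simp only [Prod.map, Prod.mk.injEq] at hcd
      obtain ⟨h1, h2⟩ := hcd
      have hlt := hRl₁ a b (hER₁ _ hab)
      rcases a with a | a
      · rcases b with b | b
        · exact ⟨a, b, rfl, hlt⟩
        · rcases d with d | d
          · simp [gl, gr] at h2
          · simp [gl, gr] at h2
      · rcases c with c | c
        · simp [gl, gr] at h1
        · simp [gl, gr] at h1
    by_cases hex : ∃ u v : S, u ≠ v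
    · obtain ⟨u₀, v₀, huv₀⟩ := hex
      obtain ⟨u, v, huv, hR1, hR2⟩ : ∃ u v : S, u ≠ v ∧ R₁ (Sum.inl u) (Sum.inl v) ∧
          R₂ (Sum.inl u) (Sum.inl v) := by
        rcases hS u₀ v₀ huv₀ with h | h
        · exact ⟨u₀, v₀, huv₀, h⟩
        · exact ⟨v₀, u₀, huv₀.symm, h⟩
      have hall : ∀ w : S, w = u ∨ w = v := by
        intro w
        by_contra hw
        push Not at hw
        have h3 : ({u, v, w} : Finset S).card = 3 := by
          rw [Finset.card_insert_of_notMem, Finset.card_insert_of_notMem, Finset.card_singleton]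
          · simpa using hw.2.symm
          · simp only [Finset.mem_insert, Finset.mem_singleton, not_or]
            exact ⟨huv, hw.1.symm⟩
        have h4 := Finset.card_le_univ ({u, v, w} : Finset S)
        omega
      have hm : ∀ s, smarg ν₁ s = smarg ν₂ s := fun s =>
        (smarg_pair hν₁ hall hR1 s).trans (smarg_pair hν₂ hall hR2 s).symm
      refine ⟨glueLaw ν₁ ν₂, hν₁.glue hν₂ hm ?_⟩
      have hlt : lev (Sum.inl u) < lev (Sum.inl v) := hRl₁ _ _ hR1
      have hcorr : corr (lev ∘ Sum.inl) C (smarg ν₁) =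
          C.info (lev (Sum.inl u)) (lev (Sum.inl v)) := by
        have e1 := sum_smarg ν₁ fun s => Real.log (smarg ν₁ s) -
          ∑ a, Real.log (C.law ((lev ∘ Sum.inl) a) (s a))
        have e2 : ∀ s : S → U, Real.log (smarg ν₁ s) -
            ∑ a, Real.log (C.law ((lev ∘ Sum.inl) a) (s a)) =
            Real.log (C.pair (lev (Sum.inl u)) (lev (Sum.inl v)) (s u) (s v)) -
              Real.log (C.law (lev (Sum.inl u)) (s u)) -
                Real.log (C.law (lev (Sum.inl v)) (s v)) := by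
          intro s
          have h5 : (Finset.univ : Finset S) = {u, v} := by
            ext w; simpa using hall w
          rw [smarg_pair hν₁ hall hR1 s, h5, Finset.sum_pair huv]
          simp only [Function.comp, gl, Sum.map_inl, id]
          ring
        have e3 := hν₁.tied _ _ hR1 fun x y =>
          Real.log (C.pair (lev (Sum.inl u)) (lev (Sum.inl v)) x y) -
            Real.log (C.law (lev (Sum.inl u)) x) - Real.log (C.law (lev (Sum.inl v)) y)
        rw [corr, ← e1, Finset.sum_congr rfl fun z _ => by rw [e2 (z ∘ Sum.inl)]]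
        exact e3
      rw [hsum, hcorr]
      have h6 : ∑ e ∈ E₁.image (Prod.map gl gl) ∩ E₂.image (Prod.map gr gr),
          C.info (lev e.1) (lev e.2) ≤ ∑ e ∈ {((Sum.inl u : S ⊕ (L ⊕ R)), Sum.inl v)},
            C.info (lev e.1) (lev e.2) := by
        refine Finset.sum_le_sum_of_subset_of_nonneg ?_ ?_
        · intro e he
          obtain ⟨a, b, rfl, hab⟩ := hinter e he
          rcases hall a with rfl | rfl <;> rcases hall b with rfl | rfl
          · exact absurd hab (lt_irrefl _)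
          · exact Finset.mem_singleton_self _
          · exact absurd hab (not_lt_of_gt hlt)
          · exact absurd hab (lt_irrefl _)
        · intro e he _
          rw [Finset.mem_singleton] at he
          rw [he]
          exact C.info_nonneg hlt.le
      rw [Finset.sum_singleton] at h6
      linarith
    · push Not at hex
      have hm : ∀ s, smarg ν₁ s = smarg ν₂ s := by
        intro s
        rcases isEmpty_or_nonempty S with hS' | ⟨⟨u⟩⟩
        · rw [smarg_empty hν₁ hS', smarg_empty hν₂ hS']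
        · rw [smarg_single hν₁ (fun w => hex w u), smarg_single hν₂ (fun w => hex w u)]
          rfl
      refine ⟨glueLaw ν₁ ν₂, hν₁.glue hν₂ hm ?_⟩
      have h7 : E₁.image (Prod.map gl gl) ∩ E₂.image (Prod.map gr gr) = ∅ := by
        rw [Finset.eq_empty_iff_forall_notMem]
        intro e he
        obtain ⟨a, b, rfl, hab⟩ := hinter e he
        rw [hex a b] at hab
        exact lt_irrefl _ hab
      rw [hsum, h7, Finset.sum_empty]
      have h8 := corr_smarg_nonneg hν₁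
      have h9 : corr (lev ∘ Sum.inl) C (smarg ν₁) =
        corr (fun a => (lev ∘ gl) (Sum.inl a)) C (smarg ν₁) := rfl
      rw [h9]
      linarith

end glue

section union

variable {V : Type} [Fintype V] [DecidableEq V]

/-- Gluing rule for two parts `P`, `Q` of a vertex set with at most two common vertices. -/
theorem GoodOn.union {P Q : Finset V} {E1 E2 : Finset (V × V)} {R1 R2 : V → V → Prop}
    {lev : V → ℕ} (h1 : GoodOn P E1 R1 lev) (h2 : GoodOn Q E2 R2 lev)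
    (hE1 : ∀ e ∈ E1, e.1 ∈ P ∧ e.2 ∈ P) (hE2 : ∀ e ∈ E2, e.1 ∈ Q ∧ e.2 ∈ Q)
    (hS : ∀ u ∈ P ∩ Q, ∀ v ∈ P ∩ Q, u ≠ v → ((u, v) ∈ E2 ∧ R1 u v) ∨ ((v, u) ∈ E2 ∧ R1 v u))
    (hc : (P ∩ Q).card ≤ 2) :
    GoodOn (P ∪ Q) (E1 ∪ E2)
      (fun a b => (a ∈ P ∧ b ∈ P ∧ R1 a b) ∨ (a ∈ Q ∧ b ∈ Q ∧ R2 a b)) lev := by
  let S := {v // v ∈ P ∩ Q}
  let L := {v // v ∈ P \ Q}
  let T := {v // v ∈ Q \ P}
  let vv : S ⊕ (L ⊕ T) → V := Sum.elim Subtype.val (Sum.elim Subtype.val Subtype.val)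
  let vl : S ⊕ L → V := Sum.elim Subtype.val Subtype.val
  let vr : S ⊕ T → V := Sum.elim Subtype.val Subtype.val
  have hvl : ∀ a, vv (gl a) = vl a := by rintro (a | a) <;> rfl
  have hvr : ∀ a, vv (gr a) = vr a := by rintro (a | a) <;> rfl
  have hPl : ∀ a, vl a ∈ P := by
    rintro (a | a)
    · exact (Finset.mem_inter.1 a.2).1
    · exact (Finset.mem_sdiff.1 a.2).1
  have hQr : ∀ a, vr a ∈ Q := by
    rintro (a | a)
    · exact (Finset.mem_inter.1 a.2).2
    · exact (Finset.mem_sdiff.1 a.2).1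
  have hvlinj : Function.Injective vl := by
    rintro (a | a) (b | b) h
    · exact congrArg Sum.inl (Subtype.ext h)
    · exact absurd ((Finset.mem_inter.1 a.2).2) (by
        have : (a : V) = b := h
        rw [this]; exact (Finset.mem_sdiff.1 b.2).2)
    · exact absurd ((Finset.mem_inter.1 b.2).2) (by
        have : (a : V) = b := h
        rw [← this]; exact (Finset.mem_sdiff.1 a.2).2)
    · exact congrArg Sum.inr (Subtype.ext h)
  have hvrinj : Function.Injective vr := by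
    rintro (a | a) (b | b) h
    · exact congrArg Sum.inl (Subtype.ext h)
    · exact absurd ((Finset.mem_inter.1 a.2).1) (by
        have : (a : V) = b := h
        rw [this]; exact (Finset.mem_sdiff.1 b.2).2)
    · exact absurd ((Finset.mem_inter.1 b.2).1) (by
        have : (a : V) = b := h
        rw [← this]; exact (Finset.mem_sdiff.1 a.2).2)
    · exact congrArg Sum.inr (Subtype.ext h)
  have hmemP : ∀ a : S ⊕ (L ⊕ T), vv a ∈ P → ∃ b, a = gl b := by
    rintro (a | a | a) h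
    · exact ⟨Sum.inl a, rfl⟩
    · exact ⟨Sum.inr a, rfl⟩
    · exact absurd h (Finset.mem_sdiff.1 a.2).2
  have hmemQ : ∀ a : S ⊕ (L ⊕ T), vv a ∈ Q → ∃ b, a = gr b := by
    rintro (a | a | a) h
    · exact ⟨Sum.inl a, rfl⟩
    · exact absurd h (Finset.mem_sdiff.1 a.2).2
    · exact ⟨Sum.inr a, rfl⟩
  have hPsurj : ∀ v ∈ P, ∃ a, vl a = v := by
    intro v hv
    by_cases h : v ∈ Q
    · exact ⟨Sum.inl ⟨v, Finset.mem_inter.2 ⟨hv, h⟩⟩, rfl⟩
    · exact ⟨Sum.inr ⟨v, Finset.mem_sdiff.2 ⟨hv, h⟩⟩, rfl⟩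
  have hQsurj : ∀ v ∈ Q, ∃ a, vr a = v := by
    intro v hv
    by_cases h : v ∈ P
    · exact ⟨Sum.inl ⟨v, Finset.mem_inter.2 ⟨h, hv⟩⟩, rfl⟩
    · exact ⟨Sum.inr ⟨v, Finset.mem_sdiff.2 ⟨hv, h⟩⟩, rfl⟩
  -- the three equivalences
  let φ₁ : {v // v ∈ P} ≃ S ⊕ L := (Equiv.ofBijective (fun a => (⟨vl a, hPl a⟩ : {v // v ∈ P}))
    ⟨fun a b h => hvlinj (congrArg Subtype.val h), fun v => by
      obtain ⟨a, ha⟩ := hPsurj v v.2
      exact ⟨a, Subtype.ext ha⟩⟩).symm
  let φ₂ : {v // v ∈ Q} ≃ S ⊕ T := (Equiv.ofBijective (fun a => (⟨vr a, hQr a⟩ : {v // v ∈ Q}))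
    ⟨fun a b h => hvrinj (congrArg Subtype.val h), fun v => by
      obtain ⟨a, ha⟩ := hQsurj v v.2
      exact ⟨a, Subtype.ext ha⟩⟩).symm
  have hφ₁ : ∀ v, vl (φ₁ v) = v := fun v => congrArg Subtype.val (φ₁.symm_apply_apply v)
  have hφ₂ : ∀ v, vr (φ₂ v) = v := fun v => congrArg Subtype.val (φ₂.symm_apply_apply v)
  have hvvmem : ∀ a, vv a ∈ P ∪ Q := by
    rintro (a | a | a)
    · exact Finset.mem_union_left _ (Finset.mem_inter.1 a.2).1
    · exact Finset.mem_union_left _ (Finset.mem_sdiff.1 a.2).1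
    · exact Finset.mem_union_right _ (Finset.mem_sdiff.1 a.2).1
  have hvvinj : Function.Injective vv := by
    intro a b h
    by_cases haP : vv a ∈ P
    · obtain ⟨a', rfl⟩ := hmemP a haP
      obtain ⟨b', rfl⟩ := hmemP b (h ▸ haP)
      rw [hvl, hvl] at h
      rw [hvlinj h]
    · have haQ : vv a ∈ Q := by
        rcases Finset.mem_union.1 (hvvmem a) with h' | h'
        · exact absurd h' haP
        · exact h'
      obtain ⟨a', rfl⟩ := hmemQ a haQ
      obtain ⟨b', rfl⟩ := hmemQ b (h ▸ haQ)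
      rw [hvr, hvr] at h
      rw [hvrinj h]
  let φ : S ⊕ (L ⊕ T) ≃ {v // v ∈ P ∪ Q} := Equiv.ofBijective (fun a => ⟨vv a, hvvmem a⟩)
    ⟨fun a b h => hvvinj (congrArg Subtype.val h), fun v => by
      rcases Finset.mem_union.1 v.2 with h | h
      · obtain ⟨a, ha⟩ := hPsurj v h
        exact ⟨gl a, Subtype.ext ((hvl a).trans ha)⟩
      · obtain ⟨a, ha⟩ := hQsurj v h
        exact ⟨gr a, Subtype.ext ((hvr a).trans ha)⟩⟩
  have hφ : ∀ a, ((φ a : {v // v ∈ P ∪ Q}) : V) = vv a := fun a => rfl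
  -- the two parts
  have g1 : Good (univ.filter fun e : (S ⊕ L) × (S ⊕ L) => (vl e.1, vl e.2) ∈ E1)
      (fun a b => R1 (vl a) (vl b)) ((lev ∘ vv) ∘ gl) := by
    refine Good.transport φ₁ h1 ?_ ?_ ?_ ?_
    · intro a b
      simp only [resE, Finset.mem_filter, Finset.mem_univ, true_and, hφ₁]
    · intro a b h
      rwa [hφ₁, hφ₁] at h
    · intro e he
      simp only [Finset.mem_filter, Finset.mem_univ, true_and] at he
      exact h1.1 (⟨vl e.1, hPl _⟩, ⟨vl e.2, hPl _⟩) (by simpa [resE] using he)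
    · intro a
      simp only [Function.comp, hvl, hφ₁]
  have g2 : Good (univ.filter fun e : (S ⊕ T) × (S ⊕ T) => (vr e.1, vr e.2) ∈ E2)
      (fun a b => R2 (vr a) (vr b)) ((lev ∘ vv) ∘ gr) := by
    refine Good.transport φ₂ h2 ?_ ?_ ?_ ?_
    · intro a b
      simp only [resE, Finset.mem_filter, Finset.mem_univ, true_and, hφ₂]
    · intro a b h
      rwa [hφ₂, hφ₂] at h
    · intro e he
      simp only [Finset.mem_filter, Finset.mem_univ, true_and] at he
      exact h2.1 (⟨vr e.1, hQr _⟩, ⟨vr e.2, hQr _⟩) (by simpa [resE] using he)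
    · intro a
      simp only [Function.comp, hvr, hφ₂]
  have hR2 : ∀ u v, (u, v) ∈ E2 → R2 u v := by
    intro u v h
    have := hE2 _ h
    exact h2.1 (⟨u, this.1⟩, ⟨v, this.2⟩) (by simpa [resE] using h)
  have hR1 : ∀ u v, (u, v) ∈ E1 → R1 u v := by
    intro u v h
    have := hE1 _ h
    exact h1.1 (⟨u, this.1⟩, ⟨v, this.2⟩) (by simpa [resE] using h)
  have g := Good.glue g1 g2 (by
      rw [Fintype.card_coe]; exact hc) (by
      intro u v huv
      have hne : (u : V) ≠ v := fun h => huv (Subtype.ext h)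
      rcases hS u u.2 v v.2 hne with h | h
      · exact Or.inl ⟨h.2, hR2 _ _ h.1⟩
      · exact Or.inr ⟨h.2, hR2 _ _ h.1⟩)
  refine Good.transport φ g ?_ ?_ ?_ ?_
  · intro a b
    simp only [resE, glueEdges, Finset.mem_filter, Finset.mem_univ, true_and, Finset.mem_union,
      Finset.mem_image, Prod.exists, Prod.map, Prod.mk.injEq, hφ]
    constructor
    · rintro (h | h)
      · obtain ⟨hp, hq⟩ := hE1 _ h
        obtain ⟨a', rfl⟩ := hmemP a hp
        obtain ⟨b', rfl⟩ := hmemP b hq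
        exact Or.inl ⟨a', b', by rwa [hvl, hvl] at h, rfl, rfl⟩
      · obtain ⟨hp, hq⟩ := hE2 _ h
        obtain ⟨a', rfl⟩ := hmemQ a hp
        obtain ⟨b', rfl⟩ := hmemQ b hq
        exact Or.inr ⟨a', b', by rwa [hvr, hvr] at h, rfl, rfl⟩
    · rintro (⟨a', b', h, rfl, rfl⟩ | ⟨a', b', h, rfl, rfl⟩)
      · left; rwa [hvl, hvl]
      · right; rwa [hvr, hvr]
  · intro a b h
    rw [hφ, hφ] at h
    rcases h with ⟨hp, hq, h⟩ | ⟨hp, hq, h⟩
    · obtain ⟨a', rfl⟩ := hmemP a hp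
      obtain ⟨b', rfl⟩ := hmemP b hq
      rw [hvl, hvl] at h
      exact Or.inl ⟨a', b', rfl, rfl, h⟩
    · obtain ⟨a', rfl⟩ := hmemQ a hp
      obtain ⟨b', rfl⟩ := hmemQ b hq
      rw [hvr, hvr] at h
      exact Or.inr ⟨a', b', rfl, rfl, h⟩
  · intro e he
    simp only [resE, Finset.mem_filter, Finset.mem_univ, true_and, Finset.mem_union] at he
    rcases he with h | h
    · obtain ⟨hp, hq⟩ := hE1 _ h
      exact Or.inl ⟨hp, hq, hR1 _ _ h⟩
    · obtain ⟨hp, hq⟩ := hE2 _ h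
      exact Or.inr ⟨hp, hq, hR2 _ _ h⟩
  · intro a
    rfl

end union

end Vale.Agent.P050.Lev
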