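import Vale.Agent.P050.Lev.Defs

/-!
The two-sided Sidorenko inequality for finite weighted kernels.
-/

namespace Vale.Agent.P050.Lev

open Finset

/-- Two-sided Sidorenko inequality for the bipartite graph with vertex set `V`, edges `E` (each
directed from the side `false` to the side `true`): for all probability weights `m false` and
`m true` on a finite set and each nonnegative kernel `W`, the weighted homomorphism density is at
least the `|E|`-th power of the density of `W`. -/
def KSid {V : Type} [Fintype V] [DecidableEq V] (E : Finset (V × V)) (side : V → Bool) : Prop :=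
  (∀ e ∈ E, side e.1 = false ∧ side e.2 = true) ∧
    ∀ (U : Type) [Fintype U] (m : Bool → U → ℝ) (W : U → U → ℝ), (∀ b x, 0 ≤ m b x) →
      (∀ b, ∑ x, m b x = 1) → (∀ x y, 0 ≤ W x y) →
        (∑ x, ∑ y, m false x * m true y * W x y) ^ E.card ≤
          ∑ z : V → U, (∏ v, m (side v) (z v)) * ∏ e ∈ E, W (z e.1) (z e.2)

open Classical in
/-- the edges of a graph, directed from the side `false` to the side `true` -/
noncomputable def sideEdges {V : Type} [Fintype V] (F : SimpleGraph V) (side : V → Bool) :
    Finset (V × V) :=
  univ.filter fun e => F.Adj e.1 e.2 ∧ side e.1 = false ∧ side e.2 = true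

open Classical in
/-- the edges of a levelled graph, directed upwards -/
noncomputable def upEdges {V : Type} [Fintype V] (F : SimpleGraph V) (lev : V → ℕ) :
    Finset (V × V) :=
  univ.filter fun e => F.Adj e.1 e.2 ∧ lev e.2 = lev e.1 + 1

/-- The graph `F` with the 2-colouring `side` satisfies the two-sided Sidorenko inequality. -/
def GSid {V : Type} [Fintype V] [DecidableEq V] (F : SimpleGraph V) (side : V → Bool) : Prop :=
  (∀ u v, F.Adj u v → side u ≠ side v) ∧ KSid (sideEdges F side) side

end Vale.Agent.P050.Lev
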