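import Vale.Agent.P050.Lev.KSid

/-!
Transport of `Good` along an equivalence of vertex sets.
-/

namespace Vale.Agent.P050.Lev

open Finset

theorem Good.transport {V V' : Type} [Fintype V] [DecidableEq V] [Fintype V'] [DecidableEq V']
    (φ : V ≃ V') {E : Finset (V × V)} {R : V → V → Prop} {lev : V → ℕ} (hg : Good E R lev)
    {E' : Finset (V' × V')} {R' : V' → V' → Prop} {lev' : V' → ℕ}
    (hE : ∀ a b, (φ a, φ b) ∈ E' ↔ (a, b) ∈ E) (hR : ∀ a b, R' (φ a) (φ b) → R a b)
    (hER : ∀ e ∈ E', R' e.1 e.2) (hl : ∀ a, lev' (φ a) = lev a) : Good E' R' lev' := by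
  obtain ⟨_, h2, h3⟩ := hg
  refine ⟨hER, ?_, ?_⟩
  · intro u v huv
    obtain ⟨a, rfl⟩ := φ.surjective u
    obtain ⟨b, rfl⟩ := φ.surjective v
    rw [hl, hl]; exact h2 _ _ (hR _ _ huv)
  · intro U _ C
    obtain ⟨ν, hν⟩ := h3 U C
    let ψ : (V → U) ≃ (V' → U) := φ.arrowCongr (Equiv.refl U)
    have hψ : ∀ (z : V → U) (a : V), ψ z (φ a) = z a := by
      intro z a; simp [ψ, Equiv.arrowCongr]
    have hψ' : ∀ z : V → U, ψ z ∘ φ = z := fun z => funext fun a => hψ z a
    have hsum : ∀ F : (V' → U) → ℝ, ∑ z, F z = ∑ z, F (ψ z) := fun F =>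
      (Equiv.sum_comp ψ F).symm
    refine ⟨fun z => ν (z ∘ φ), ?_, ?_, ?_, ?_, ?_⟩
    · intro z; exact hν.nonneg _
    · rw [hsum]; simp only [hψ']; exact hν.total
    · intro v f
      obtain ⟨a, rfl⟩ := φ.surjective v
      rw [hsum]; simp only [hψ', hψ, hl]; exact hν.vertex a f
    · intro u v huv f
      obtain ⟨a, rfl⟩ := φ.surjective u
      obtain ⟨b, rfl⟩ := φ.surjective v
      rw [hsum]; simp only [hψ', hψ, hl]; exact hν.tied a b (hR _ _ huv) f
    · have h := hν.bound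
      have e1 : corr lev' C (fun z => ν (z ∘ φ)) = corr lev C ν := by
        unfold corr
        rw [hsum]
        refine Finset.sum_congr rfl fun z _ => ?_
        simp only [hψ']
        rw [← Equiv.sum_comp φ fun v => Real.log (C.law (lev' v) (ψ z v))]
        simp only [hψ, hl]
      have e2 : ∑ e ∈ E', C.info (lev' e.1) (lev' e.2) = ∑ e ∈ E, C.info (lev e.1) (lev e.2) := by
        symm
        refine Finset.sum_bij (fun e _ => (φ e.1, φ e.2)) ?_ ?_ ?_ ?_
        · rintro ⟨a, b⟩ h; exact (hE a b).2 h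
        · rintro ⟨a, b⟩ _ ⟨c, d⟩ _ h
          simp only [Prod.mk.injEq, EmbeddingLike.apply_eq_iff_eq] at h
          exact Prod.ext h.1 h.2
        · rintro ⟨u, v⟩ h
          obtain ⟨a, rfl⟩ := φ.surjective u
          obtain ⟨b, rfl⟩ := φ.surjective v
          exact ⟨(a, b), (hE a b).1 h, rfl⟩
        · rintro ⟨a, b⟩ _; simp only [hl]
      rw [e1, e2]; exact h

/-- fewer tied pairs -/
theorem Good.mono {V : Type} [Fintype V] [DecidableEq V] {E : Finset (V × V)}
    {R R' : V → V → Prop} {lev : V → ℕ} (hg : Good E R lev) (hR : ∀ a b, R' a b → R a b)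
    (hER : ∀ e ∈ E, R' e.1 e.2) : Good E R' lev :=
  hg.transport (Equiv.refl V) (fun _ _ => Iff.rfl) hR hER fun _ => rfl

end Vale.Agent.P050.Lev
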