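import Vale.Agent.P050.Lev.Cone
import Vale.Agent.P050.Lev.Transport

/-!
Change of the levels: monotone relabelling, and reversal.
-/

namespace Vale.Agent.P050.Lev

open Finset

namespace Chain

variable {U : Type} [Fintype U] (C : Chain U)

/-- Chapman–Kolmogorov -/
theorem ker_add (i a b : ℕ) (x z : U) :
    C.ker i (a + b) x z = ∑ y, C.ker i a x y * C.ker (i + a) b y z := by
  classical
  induction b generalizing z with
  | zero =>
    simp only [ker, mul_ite, mul_one, mul_zero, Finset.sum_ite_eq', Finset.mem_univ, if_true]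
    rfl
  | succ b ih =>
    have h1 : C.ker i (a + (b + 1)) x z = ∑ w, C.ker i (a + b) x w * C.step (i + (a + b)) w z := rfl
    rw [h1]
    simp_rw [ih, Finset.sum_mul]
    rw [Finset.sum_comm]
    refine Finset.sum_congr rfl fun y _ => ?_
    have h2 : C.ker (i + a) (b + 1) y z = ∑ w, C.ker (i + a) b y w * C.step (i + a + b) w z := rfl
    rw [h2, Finset.mul_sum, ← add_assoc i a b]
    exact Finset.sum_congr rfl fun w _ => by ring

/-- the chain watched at the times `τ 0, τ 1, …` -/
noncomputable def watch (τ : ℕ → ℕ) : Chain U where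
  init := C.law (τ 0)
  step i := C.ker (τ i) (τ (i + 1) - τ i)
  init_nonneg := C.fo_law_nonneg _
  init_sum := C.fo_law_sum _
  step_nonneg _ := C.fo_ker_nonneg _ _
  step_sum _ := C.fo_ker_sum _ _

variable {τ : ℕ → ℕ}

theorem watch_law (hτ : Monotone τ) (n : ℕ) : (C.watch τ).law n = C.law (τ n) := by
  induction n with
  | zero => rfl
  | succ n ih =>
    funext y
    have h1 : (C.watch τ).law (n + 1) y =
      ∑ x, (C.watch τ).law n x * C.ker (τ n) (τ (n + 1) - τ n) x y := rfl
    rw [h1, ih, C.fo_law_ker, Nat.add_sub_cancel' (hτ (Nat.le_succ n))]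

theorem watch_ker (hτ : Monotone τ) (i n : ℕ) :
    (C.watch τ).ker i n = C.ker (τ i) (τ (i + n) - τ i) := by
  induction n with
  | zero =>
    rw [add_zero, Nat.sub_self]
    rfl
  | succ n ih =>
    funext x z
    have h1 : (C.watch τ).ker i (n + 1) x z =
      ∑ y, (C.watch τ).ker i n x y * C.ker (τ (i + n)) (τ (i + n + 1) - τ (i + n)) y z := rfl
    have h2 : τ (i + (n + 1)) - τ i = (τ (i + n) - τ i) + (τ (i + n + 1) - τ (i + n)) := by
      have a1 := hτ (Nat.le_add_right i n)
      have a2 := hτ (Nat.le_succ (i + n))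
      rw [Nat.succ_eq_add_one] at a2
      rw [show i + (n + 1) = i + n + 1 from rfl]
      omega
    have h3 : τ i + (τ (i + n) - τ i) = τ (i + n) :=
      Nat.add_sub_cancel' (hτ (Nat.le_add_right i n))
    rw [h1, ih, h2, C.ker_add, h3]

theorem watch_pair (hτ : Monotone τ) {i j : ℕ} (h : i ≤ j) :
    (C.watch τ).pair i j = C.pair (τ i) (τ j) := by
  funext x y
  unfold pair
  rw [watch_law C hτ, watch_ker C hτ, Nat.add_sub_cancel' h]

theorem watch_info (hτ : Monotone τ) {i j : ℕ} (h : i ≤ j) :
    (C.watch τ).info i j = C.info (τ i) (τ j) := by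
  unfold info
  rw [watch_pair C hτ h, watch_law C hτ, watch_law C hτ]

/-- the chain read backwards from the time `N` -/
noncomputable def rev (N : ℕ) : Chain U where
  init := C.law N
  step i := condKer (C.law (N - i)) C.init (fun y x => C.pair (N - i - 1) (N - i) x y)
  init_nonneg := C.fo_law_nonneg _
  init_sum := C.fo_law_sum _
  step_nonneg _ := condKer_nonneg (fun _ _ => C.fo_pair_nonneg _ _ _ _) (C.fo_law_nonneg _)
    C.init_nonneg
  step_sum _ := condKer_sum (fun y => C.fo_pair_snd (Nat.sub_le _ _) y) C.init_sum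

theorem law_mul_rev_step (N i : ℕ) (y x : U) :
    C.law (N - i) y * (C.rev N).step i y x = C.pair (N - i - 1) (N - i) x y :=
  mul_condKer (fun _ _ => C.fo_pair_nonneg _ _ _ _) (fun y => C.fo_pair_snd (Nat.sub_le _ _) y) y x

theorem rev_law (N n : ℕ) : (C.rev N).law n = C.law (N - n) := by
  induction n with
  | zero => rfl
  | succ n ih =>
    funext x
    have h1 : (C.rev N).law (n + 1) x = ∑ y, (C.rev N).law n y * (C.rev N).step n y x := rfl
    rw [h1, ih]
    simp_rw [law_mul_rev_step]
    rw [C.fo_pair_fst]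
    rfl

theorem rev_law_mul_ker (N i n : ℕ) (h : i + n ≤ N) (y x : U) :
    (C.rev N).law i y * (C.rev N).ker i n y x = C.law (N - (i + n)) x *
      C.ker (N - (i + n)) n x y := by
  induction n generalizing x with
  | zero =>
    rw [rev_law]
    simp only [ker, add_zero]
    by_cases hxy : y = x
    · subst hxy; rfl
    · rw [if_neg hxy, if_neg (fun h => hxy h.symm), mul_zero, mul_zero]
  | succ n ih =>
    have h1 : (C.rev N).ker i (n + 1) y x =
      ∑ w, (C.rev N).ker i n y w * (C.rev N).step (i + n) w x := rfl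
    rw [h1, Finset.mul_sum]
    simp_rw [← mul_assoc, ih (by omega)]
    have h2 : ∀ w, C.law (N - (i + n)) w * C.ker (N - (i + n)) n w y * (C.rev N).step (i + n) w x =
        C.law (N - (i + (n + 1))) x * (C.step (N - (i + (n + 1))) x w *
          C.ker (N - (i + (n + 1)) + 1) n w y) := by
      intro w
      rw [mul_right_comm, law_mul_rev_step]
      have h3 : N - (i + n) = N - (i + (n + 1)) + 1 := by omega
      have h4 : N - (i + n) - 1 = N - (i + (n + 1)) := by omega
      rw [h4, h3]
      unfold pair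
      rw [Nat.add_sub_cancel_left, C.fo_ker_one, mul_assoc]
    simp_rw [h2]
    rw [← Finset.mul_sum, ← C.fo_ker_succ']

theorem rev_pair (N : ℕ) {i j : ℕ} (h : i ≤ j) (hj : j ≤ N) (y x : U) :
    (C.rev N).pair i j y x = C.pair (N - j) (N - i) x y := by
  unfold pair
  rw [rev_law_mul_ker C N i (j - i) (by omega), show i + (j - i) = j by omega,
    show N - i - (N - j) = j - i by omega]

theorem rev_info (N : ℕ) {i j : ℕ} (h : i ≤ j) (hj : j ≤ N) :
    (C.rev N).info i j = C.info (N - j) (N - i) := by
  unfold info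
  rw [Finset.sum_comm]
  refine Finset.sum_congr rfl fun x _ => Finset.sum_congr rfl fun y _ => ?_
  rw [rev_pair C N h hj, rev_law, rev_law]
  ring

end Chain

variable {V : Type} [Fintype V] [DecidableEq V]

/-- **Time change.** The levels may be changed by a monotone map which separates the levels of
tied pairs. -/
theorem Good.timeChange {E : Finset (V × V)} {R : V → V → Prop} {lev : V → ℕ}
    (hg : Good E R lev) {τ : ℕ → ℕ} (hτ : Monotone τ)
    (hR : ∀ u v, R u v → τ (lev u) < τ (lev v)) : Good E R (fun v => τ (lev v)) := by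
  obtain ⟨hER, hlev, hC⟩ := hg
  refine ⟨hER, hR, fun U _ C => ?_⟩
  obtain ⟨ν, hν⟩ := hC U (C.watch τ)
  refine ⟨ν, hν.nonneg, hν.total, ?_, ?_, ?_⟩
  · intro v f
    rw [hν.vertex v f, C.watch_law hτ]
  · intro u v huv f
    rw [hν.tied u v huv f, C.watch_pair hτ (hlev u v huv).le]
  · have h := hν.bound
    have h1 : corr (fun v => τ (lev v)) C ν = corr lev (C.watch τ) ν := by
      unfold corr
      simp_rw [C.watch_law hτ]
    have h2 : ∑ e ∈ E, C.info (τ (lev e.1)) (τ (lev e.2)) =
        ∑ e ∈ E, (C.watch τ).info (lev e.1) (lev e.2) :=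
      Finset.sum_congr rfl fun e he => (C.watch_info hτ (hlev _ _ (hER e he)).le).symm
    rw [h1, h2]
    exact h

/-- **Reversal.** The levels may be reversed. -/
theorem Good.reverse {E : Finset (V × V)} {R : V → V → Prop} {lev : V → ℕ}
    (hg : Good E R lev) {N : ℕ} (hN : ∀ v, lev v ≤ N) :
    Good (E.image Prod.swap) (fun a b => R b a) (fun v => N - lev v) := by
  obtain ⟨hER, hlev, hC⟩ := hg
  refine ⟨?_, fun u v huv => ?_, fun U _ C => ?_⟩
  · intro e he
    obtain ⟨e', he', rfl⟩ := Finset.mem_image.1 he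
    exact hER e' he'
  · have := hlev v u huv
    have := hN u
    have := hN v
    show N - lev u < N - lev v
    omega
  obtain ⟨ν, hν⟩ := hC U (C.rev N)
  have hsub : ∀ v, N - (N - lev v) = lev v := fun v => Nat.sub_sub_self (hN v)
  refine ⟨ν, hν.nonneg, hν.total, ?_, ?_, ?_⟩
  · intro v f
    rw [hν.vertex v f, C.rev_law]
  · intro u v huv f
    have h := hν.tied v u huv fun x y => f y x
    refine h.trans ?_
    rw [Finset.sum_comm]
    refine Finset.sum_congr rfl fun x _ => Finset.sum_congr rfl fun y _ => ?_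
    rw [C.rev_pair N (hlev v u huv).le (hN u)]
  · have h := hν.bound
    have h1 : corr (fun v => N - lev v) C ν = corr lev (C.rev N) ν := by
      unfold corr
      simp_rw [C.rev_law]
    have h2 : ∑ e ∈ E.image Prod.swap, C.info (N - lev e.1) (N - lev e.2) =
        ∑ e ∈ E, (C.rev N).info (lev e.1) (lev e.2) := by
      rw [Finset.sum_image fun a _ b _ hab => Prod.swap_injective hab]
      refine Finset.sum_congr rfl fun e he => ?_
      rw [C.rev_info N (hlev _ _ (hER e he)).le (hN _)]
      rfl
    rw [h1, h2]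
    exact h

end Vale.Agent.P050.Lev
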