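import Vale.Agent.P050.Lev.SGoodCore
import Vale.Agent.P050.Lev.KSid

/-!
A graph with the two-sided Sidorenko inequality, placed on two consecutive levels, is good.
-/

namespace Vale.Agent.P050.Lev

open Finset

/-- A vertex outside all edges is independent of the rest. -/
theorem isolated_indep {V X : Type} [Fintype V] [DecidableEq V] [Fintype X] (v : V)
    {E : Finset (V × V)} (hv : ∀ e ∈ E, e.1 ≠ v ∧ e.2 ≠ v) (q : V → X → ℝ)
    (hq : ∑ x, q v x = 1) (W : X → X → ℝ) (φ : X → ℝ) :
    ∑ Z : V → X, ((∏ w, q w (Z w)) * ∏ e ∈ E, W (Z e.1) (Z e.2)) * φ (Z v)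
      = (∑ y, q v y * φ y) * ∑ Z : V → X, (∏ w, q w (Z w)) * ∏ e ∈ E, W (Z e.1) (Z e.2) := by
  classical
  set Pr : (V → X) → ℝ := fun Z => (∏ w, q w (Z w)) * ∏ e ∈ E, W (Z e.1) (Z e.2) with hPr
  have hL : ∑ Z : V → X, Pr Z * φ (Z v)
      = ∑ p : X × (V → X), q v p.1 * (Pr p.2 * φ (p.2 v)) := by
    rw [Fintype.sum_prod_type]
    simp_rw [← Finset.mul_sum, ← Finset.sum_mul]
    rw [hq, one_mul]
  have hR : (∑ y, q v y * φ y) * ∑ Z : V → X, Pr Z
      = ∑ p : X × (V → X), (q v p.1 * φ p.1) * Pr p.2 := by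
    rw [Fintype.sum_prod_type]
    simp_rw [← Finset.mul_sum, ← Finset.sum_mul]
  show ∑ Z : V → X, Pr Z * φ (Z v) = (∑ y, q v y * φ y) * ∑ Z : V → X, Pr Z
  rw [hL, hR]
  set σ : X × (V → X) → X × (V → X) := fun p => (p.2 v, Function.update p.2 v p.1) with hσ
  have hinv : Function.Involutive σ := by
    rintro ⟨y, Z⟩
    simp [hσ]
  rw [← Equiv.sum_comp hinv.toPerm]
  refine Finset.sum_congr rfl fun p _ => ?_
  obtain ⟨y, Z⟩ := p
  have h1 : q v (Z v) * ∏ w, q w (Function.update Z v y w) = q v y * ∏ w, q w (Z w) := by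
    rw [← Finset.mul_prod_erase univ (fun w => q w (Function.update Z v y w)) (mem_univ v),
      ← Finset.mul_prod_erase univ (fun w => q w (Z w)) (mem_univ v), Function.update_self]
    have : ∏ w ∈ univ.erase v, q w (Function.update Z v y w) = ∏ w ∈ univ.erase v, q w (Z w) := by
      refine Finset.prod_congr rfl fun w hw => ?_
      rw [Function.update_of_ne (Finset.ne_of_mem_erase hw)]
    rw [this]
    ring
  have h2 : ∏ e ∈ E, W (Function.update Z v y e.1) (Function.update Z v y e.2)
      = ∏ e ∈ E, W (Z e.1) (Z e.2) := by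
    refine Finset.prod_congr rfl fun e he => ?_
    rw [Function.update_of_ne (hv e he).1, Function.update_of_ne (hv e he).2]
  show q v (Z v) * (Pr (Function.update Z v y) * φ (Function.update Z v y v))
    = (q v y * φ y) * Pr Z
  simp only [hPr]
  rw [h2, Function.update_self]
  calc _ = (q v (Z v) * ∏ w, q w (Function.update Z v y w)) * (∏ e ∈ E, W (Z e.1) (Z e.2)) * φ y := by
        ring
    _ = _ := by rw [h1]; ring

theorem sum_prod_coord {N : ℕ} {U : Type} [Fintype U] {π : U → ℝ} (hπ : ∑ z, π z = 1)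
    (g : U → ℝ) (j : Fin N) :
    ∑ z : Fin N → U, (∏ i, π (z i)) * g (z j) = ∑ x, π x * g x := by
  classical
  have h : ∀ z : Fin N → U, (∏ i, π (z i)) * g (z j)
      = ∏ i, (if i = j then π (z i) * g (z i) else π (z i)) := by
    intro z
    rw [← Finset.mul_prod_erase univ (fun i => π (z i)) (mem_univ j),
      ← Finset.mul_prod_erase univ (fun i => if i = j then π (z i) * g (z i) else π (z i))
        (mem_univ j), if_pos rfl]
    have : ∏ i ∈ univ.erase j, (if i = j then π (z i) * g (z i) else π (z i))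
        = ∏ i ∈ univ.erase j, π (z i) := by
      refine Finset.prod_congr rfl fun i hi => ?_
      rw [if_neg (Finset.ne_of_mem_erase hi)]
    rw [this]
    ring
  simp_rw [h]
  rw [sum_prod_fun N (fun i x => if i = j then π x * g x else π x),
    ← Finset.mul_prod_erase univ _ (mem_univ j)]
  have : ∏ i ∈ univ.erase j, ∑ x, (if i = j then π x * g x else π x) = 1 := by
    refine Finset.prod_eq_one fun i hi => ?_
    simp_rw [if_neg (Finset.ne_of_mem_erase hi)]
    exact hπ
  rw [this, mul_one]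
  simp

section approx

variable {V U : Type} [Fintype V] [DecidableEq V] [Fintype U]

/-- Approximate couplings from the two-sided Sidorenko inequality. -/
theorem approx_coupling {E : Finset (V × V)} {side : V → Bool} (hK : KSid E side)
    {m : Bool → U → ℝ} (hm : ∀ b x, 0 ≤ m b x) (hm1 : ∀ b, ∑ x, m b x = 1)
    {π : U → U → ℝ} (hπ : ∀ x y, 0 ≤ π x y) (h1 : ∀ x, ∑ y, π x y = m false x)
    (h2 : ∀ y, ∑ x, π x y = m true y) {ε : ℝ} (hε : 0 < ε) :
    ∃ ν : (V → U) → ℝ, (∀ z, 0 ≤ ν z) ∧ ∑ z, ν z = 1 ∧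
      (∀ z, ∏ v, m (side v) (z v) = 0 → ν z = 0) ∧
      (∀ e ∈ E, ∀ (a b : U), |∑ z, ν z * (open Classical in if z e.1 = a ∧ z e.2 = b then 1 else 0)
        - π a b| ≤ ε) ∧
      (∀ v, (∀ e ∈ E, e.1 ≠ v ∧ e.2 ≠ v) → ∀ f : U → ℝ,
        ∑ z, ν z * f (z v) = ∑ x, m (side v) x * f x) ∧
      ∑ z, ν z * (Real.log (ν z) - ∑ v, Real.log (m (side v) (z v)))
        ≤ E.card * (∑ x, ∑ y, π x y *
          (Real.log (π x y) - Real.log (m false x) - Real.log (m true y))) + ε := by
  classical
  set I : ℝ := ∑ x, ∑ y, π x y *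
    (Real.log (π x y) - Real.log (m false x) - Real.log (m true y)) with hI
  -- the joint law on `U × U`
  set P : U × U → ℝ := fun p => π p.1 p.2 with hP
  have hP0 : ∀ p, 0 ≤ P p := fun p => hπ _ _
  have hP1 : ∑ p, P p = 1 := by
    rw [hP, Fintype.sum_prod_type]
    simp_rw [h1, hm1]
  -- the test functions
  set f : Option (U × U) → U × U → ℝ := fun k p => match k with
    | none => Real.log (π p.1 p.2) - Real.log (m false p.1) - Real.log (m true p.2)
    | some q => if p = q then 1 else 0 with hf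
  set M : ℝ := (E.card : ℝ) with hM
  have hM0 : 0 ≤ M := Nat.cast_nonneg _
  set δ : ℝ := ε / (2 * (M + 1)) with hδ
  have hδ0 : 0 < δ := by positivity
  have hMδ : M * δ ≤ ε / 2 := by
    rw [hδ, mul_div_assoc', div_le_div_iff₀ (by positivity) (by norm_num)]
    nlinarith
  have hδε : δ ≤ ε := by
    rw [hδ, div_le_iff₀ (by positivity)]
    nlinarith
  obtain ⟨N₀, hN₀⟩ := typical hP0 hP1 f hδ0
  obtain ⟨N₁, hN₁⟩ := exists_nat_gt (2 * (M * Real.log 2) / ε)
  set N : ℕ := max N₀ (N₁ + 1) with hN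
  have hNpos' : 0 < N := by omega
  have hNpos : (0 : ℝ) < N := by exact_mod_cast hNpos'
  have hN2 : M * Real.log 2 ≤ N * (ε / 2) := by
    have : (N₁ : ℝ) ≤ N := by exact_mod_cast (by omega : N₁ ≤ N)
    have h3 := hN₁.le.trans this
    rw [div_le_iff₀ hε] at h3
    linarith
  -- typical pairs of sequences
  set T : Set (Fin N → U × U) := {p | ∀ k, |∑ j, f k (p j) - N * ∑ x, P x * f k x| ≤ N * δ}
    with hT
  have hS := hN₀ N (le_max_left _ _) T (fun z hz => hz)
  have hInone : ∑ x, P x * f none x = I := by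
    rw [Fintype.sum_prod_type]
  have hTc : ∀ p ∈ T, ∑ j, (Real.log (π (p j).1 (p j).2) - Real.log (m false (p j).1)
      - Real.log (m true (p j).2)) ≤ N * (I + δ) := by
    intro p hp
    have := (abs_le.1 (hp none)).2
    rw [hInone] at this
    have e : ∑ j, f none (p j) = ∑ j, (Real.log (π (p j).1 (p j).2) - Real.log (m false (p j).1)
      - Real.log (m true (p j).2)) := rfl
    rw [e] at this
    linarith
  have hlow := typical_lower (hm false) (hm true) hπ h1 h2 T hTc hS
  -- the two-sided Sidorenko inequality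
  set W : (Fin N → U) → (Fin N → U) → ℝ := fun x y => T.indicator (fun _ => 1)
    (fun j => (x j, y j)) with hW
  have hW0 : ∀ x y, 0 ≤ W x y := fun x y => Set.indicator_nonneg (fun _ _ => zero_le_one) _
  set mN : Bool → (Fin N → U) → ℝ := fun b x => ∏ j, m b (x j) with hmN
  have hsid := hK.2 (Fin N → U) mN W (fun b x => Finset.prod_nonneg fun j _ => hm b _)
    (fun b => sum_prod_one (hm1 b)) hW0
  set Pr : (V → Fin N → U) → ℝ := fun Z => (∏ v, mN (side v) (Z v)) * ∏ e ∈ E, W (Z e.1) (Z e.2)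
    with hPr
  have hPr0 : ∀ Z, 0 ≤ Pr Z := fun Z => mul_nonneg
    (Finset.prod_nonneg fun v _ => Finset.prod_nonneg fun j _ => hm _ _)
    (Finset.prod_nonneg fun e _ => hW0 _ _)
  set ZN : ℝ := ∑ Z, Pr Z with hZN
  have hZlow : (1 / 2 * Real.exp (-(N * (I + δ)))) ^ E.card ≤ ZN := by
    refine le_trans (pow_le_pow_left₀ (by positivity) hlow _) hsid
  have hZpos : 0 < ZN := lt_of_lt_of_le (by positivity) hZlow
  have hlogZ : -(M * (N * (I + δ) + Real.log 2)) ≤ Real.log ZN := by
    have h3 := Real.log_le_log (by positivity) hZlow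
    rw [Real.log_pow, Real.log_mul (by norm_num) (Real.exp_pos _).ne', Real.log_exp, one_div,
      Real.log_inv] at h3
    rw [hM]
    linarith
  -- the law on sequences
  set R : (V → Fin N → U) → ℝ := fun Z => Pr Z / ZN with hR
  have hR0 : ∀ Z, 0 ≤ R Z := fun Z => div_nonneg (hPr0 Z) hZpos.le
  have hR1 : ∑ Z, R Z = 1 := by
    rw [hR, ← Finset.sum_div, ← hZN, div_self hZpos.ne']
  have hsup : ∀ Z, R Z ≠ 0 → ∀ e ∈ E, (fun j => (Z e.1 j, Z e.2 j)) ∈ T := by
    intro Z hZ e he
    by_contra hcon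
    apply hZ
    have : W (Z e.1) (Z e.2) = 0 := Set.indicator_of_notMem hcon _
    simp only [hR, hPr]
    rw [Finset.prod_eq_zero he this, mul_zero, zero_div]
  have hent := avgLaw_entropy hNpos' hR0 hR1
  refine ⟨avgLaw R, ?_, ?_, ?_, ?_, ?_, ?_⟩
  · intro z
    unfold avgLaw
    refine div_nonneg (Finset.sum_nonneg fun j _ => Finset.sum_nonneg fun Z _ =>
      mul_nonneg (hR0 Z) ?_) hNpos.le
    split_ifs <;> norm_num
  · have := sum_avgLaw R (fun _ => 1)
    simp only [mul_one] at this
    rw [this, hR1]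
    simp [hNpos.ne']
  · intro z hz
    unfold avgLaw
    rw [Finset.sum_eq_zero, zero_div]
    intro j _
    refine Finset.sum_eq_zero fun Z _ => ?_
    split_ifs with h
    · rw [mul_one]
      obtain ⟨v, -, hv⟩ := Finset.prod_eq_zero_iff.1 hz
      simp only [hR, hPr]
      rw [Finset.prod_eq_zero (Finset.mem_univ v), zero_mul, zero_div]
      refine Finset.prod_eq_zero (Finset.mem_univ j) ?_
      rw [← h] at hv
      exact hv
    · rw [mul_zero]
  · intro e he a b
    rw [sum_avgLaw R (fun z => if z e.1 = a ∧ z e.2 = b then 1 else 0), Finset.sum_comm]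
    have hπab : ∑ x, P x * f (some (a, b)) x = π a b := by
      simp [hf, hP]
    have : π a b = (∑ Z, R Z * (N * π a b)) / N := by
      rw [← Finset.sum_mul, hR1]
      field_simp
    rw [this, ← sub_div, ← Finset.sum_sub_distrib, abs_div, abs_of_pos hNpos,
      div_le_iff₀ hNpos]
    calc _ ≤ ∑ Z, |∑ j, R Z * (if Z e.1 j = a ∧ Z e.2 j = b then (1 : ℝ) else 0)
          - R Z * (N * π a b)| := Finset.abs_sum_le_sum_abs _ _
      _ ≤ ∑ Z, R Z * (ε * N) := by
        refine Finset.sum_le_sum fun Z _ => ?_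
        rw [← Finset.mul_sum, ← mul_sub, abs_mul, abs_of_nonneg (hR0 Z)]
        by_cases hZ : R Z = 0
        · rw [hZ, zero_mul, zero_mul]
        refine mul_le_mul_of_nonneg_left ?_ (hR0 Z)
        have h4 := hsup Z hZ e he (some (a, b))
        rw [hπab] at h4
        have h5 : ∑ j, f (some (a, b)) (Z e.1 j, Z e.2 j)
            = ∑ j, (if Z e.1 j = a ∧ Z e.2 j = b then (1 : ℝ) else 0) := by
          refine Finset.sum_congr rfl fun j _ => ?_
          simp [hf, Prod.ext_iff]
        rw [h5] at h4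
        refine h4.trans ?_
        rw [mul_comm ε]
        exact mul_le_mul_of_nonneg_left hδε hNpos.le
      _ = ε * N := by rw [← Finset.sum_mul, hR1, one_mul]
  · intro v hv g
    rw [sum_avgLaw R (fun z => g (z v))]
    have key : ∀ j, ∑ Z, R Z * g (Z v j) = ∑ x, m (side v) x * g x := by
      intro j
      have hind := isolated_indep v hv (fun w => mN (side w)) (sum_prod_one (hm1 (side v))) W
        (fun y => g (y j))
      have hco : ∑ y : Fin N → U, mN (side v) y * g (y j) = ∑ x, m (side v) x * g x :=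
        sum_prod_coord (hm1 (side v)) g j
      simp only [hR, div_mul_eq_mul_div]
      rw [← Finset.sum_div, div_eq_iff hZpos.ne']
      simp only [hPr, hZN]
      rw [hind, hco]
    simp_rw [key]
    simp only [Finset.sum_const, Finset.card_univ, Fintype.card_fin, nsmul_eq_mul]
    field_simp
  · have hlogR : ∑ Z, R Z * Real.log (R Z)
        = ∑ Z, R Z * (∑ j, ∑ v, Real.log (m (side v) (Z v j))) - Real.log ZN := by
      have : Real.log ZN = ∑ Z, R Z * Real.log ZN := by rw [← Finset.sum_mul, hR1, one_mul]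
      rw [this, ← Finset.sum_sub_distrib]
      refine Finset.sum_congr rfl fun Z _ => ?_
      rw [← mul_sub]
      by_cases hZ : R Z = 0
      · rw [hZ, zero_mul, zero_mul]
      congr 1
      have hPZ : Pr Z ≠ 0 := fun h => hZ (by simp only [hR]; rw [h, zero_div])
      simp only [hR]
      rw [Real.log_div hPZ hZpos.ne']
      congr 1
      have hWone : ∏ e ∈ E, W (Z e.1) (Z e.2) = 1 := by
        refine Finset.prod_eq_one fun e he => ?_
        exact Set.indicator_of_mem (hsup Z hZ e he) _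
      simp only [hPr] at hPZ ⊢
      rw [hWone, mul_one] at hPZ ⊢
      have hne := Finset.prod_ne_zero_iff.1 hPZ
      rw [Real.log_prod (fun v hv => hne v hv), Finset.sum_comm]
      refine Finset.sum_congr rfl fun v _ => ?_
      simp only [hmN]
      rw [Real.log_prod]
      intro j _
      exact (Finset.prod_ne_zero_iff.1 (hne v (Finset.mem_univ v))) j (Finset.mem_univ j)
    have hlin : N * ∑ z, avgLaw R z * (∑ v, Real.log (m (side v) (z v)))
        = ∑ Z, R Z * (∑ j, ∑ v, Real.log (m (side v) (Z v j))) := by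
      rw [sum_avgLaw R (fun z => ∑ v, Real.log (m (side v) (z v))), mul_div_cancel₀ _ hNpos.ne',
        Finset.sum_comm]
      refine Finset.sum_congr rfl fun Z _ => ?_
      rw [Finset.mul_sum]
    have hfin : N * ∑ z, avgLaw R z * (Real.log (avgLaw R z)
        - ∑ v, Real.log (m (side v) (z v))) ≤ N * (M * I + ε) := by
      simp_rw [mul_sub, Finset.sum_sub_distrib]
      rw [mul_sub, hlin]
      nlinarith
    exact le_of_mul_le_mul_left hfin hNpos

theorem exact_coupling {E : Finset (V × V)} {side : V → Bool} (hK : KSid E side)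
    {m : Bool → U → ℝ} (hm : ∀ b x, 0 ≤ m b x) (hm1 : ∀ b, ∑ x, m b x = 1)
    {π : U → U → ℝ} (hπ : ∀ x y, 0 ≤ π x y) (h1 : ∀ x, ∑ y, π x y = m false x)
    (h2 : ∀ y, ∑ x, π x y = m true y) :
    ∃ ν : (V → U) → ℝ, (∀ z, 0 ≤ ν z) ∧ ∑ z, ν z = 1 ∧
      (∀ v, ∀ f : U → ℝ, ∑ z, ν z * f (z v) = ∑ x, m (side v) x * f x) ∧
      (∀ e ∈ E, ∀ f : U → U → ℝ, ∑ z, ν z * f (z e.1) (z e.2) = ∑ x, ∑ y, π x y * f x y) ∧
      ∑ z, ν z * (Real.log (ν z) - ∑ v, Real.log (m (side v) (z v)))
        ≤ E.card * (∑ x, ∑ y, π x y *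
          (Real.log (π x y) - Real.log (m false x) - Real.log (m true y))) := by
  classical
  set I : ℝ := ∑ x, ∑ y, π x y *
    (Real.log (π x y) - Real.log (m false x) - Real.log (m true y)) with hI
  have h := fun k : ℕ => approx_coupling hK hm hm1 hπ h1 h2 (ε := 1 / ((k : ℝ) + 1))
    (by positivity)
  choose νk h0 hs hz he hv hc using h
  have hmem : ∀ k, νk k ∈ stdSimplex ℝ (V → U) := fun k => ⟨h0 k, hs k⟩
  obtain ⟨ν, hν, φ, hφ, hlim⟩ := (isCompact_stdSimplex ℝ (V → U)).tendsto_subseq hmem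
  have hpt : ∀ z, Filter.Tendsto (fun k => νk (φ k) z) Filter.atTop (nhds (ν z)) := fun z =>
    (tendsto_pi_nhds.1 hlim) z
  have hlin : ∀ c : (V → U) → ℝ, Filter.Tendsto (fun k => ∑ z, νk (φ k) z * c z) Filter.atTop
      (nhds (∑ z, ν z * c z)) := fun c =>
    tendsto_finsetSum _ fun z _ => (hpt z).mul_const _
  have hε : Filter.Tendsto (fun k => 1 / ((φ k : ℝ) + 1)) Filter.atTop (nhds 0) :=
    (tendsto_one_div_add_atTop_nhds_zero_nat (𝕜 := ℝ)).comp hφ.tendsto_atTop
  have hedge1 : ∀ e ∈ E, ∀ a b : U,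
      ∑ z, ν z * (if z e.1 = a ∧ z e.2 = b then 1 else 0) = π a b := by
    intro e hee a b
    have h3 : |∑ z, ν z * (if z e.1 = a ∧ z e.2 = b then 1 else 0) - π a b| ≤ 0 := by
      refine le_of_tendsto_of_tendsto' ((hlin _).sub_const _).abs hε (fun k => ?_)
      exact he (φ k) e hee a b
    have h4 := abs_eq_zero.1 (le_antisymm h3 (abs_nonneg _))
    linarith
  have hedge : ∀ e ∈ E, ∀ f : U → U → ℝ,
      ∑ z, ν z * f (z e.1) (z e.2) = ∑ x, ∑ y, π x y * f x y := by
    intro e hee f
    simp_rw [← hedge1 e hee, Finset.sum_mul]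
    have : ∀ z : V → U, ν z * f (z e.1) (z e.2)
        = ∑ a, ∑ b, ν z * (if z e.1 = a ∧ z e.2 = b then 1 else 0) * f a b := by
      intro z
      rw [Finset.sum_eq_single (z e.1), Finset.sum_eq_single (z e.2)]
      · simp
      · intro b _ hb
        rw [if_neg (fun h => hb h.2.symm), mul_zero, zero_mul]
      · simp
      · intro a _ ha
        refine Finset.sum_eq_zero fun b _ => ?_
        rw [if_neg (fun h => ha h.1.symm), mul_zero, zero_mul]
      · simp
    simp_rw [this]
    rw [Finset.sum_comm]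
    refine Finset.sum_congr rfl fun a _ => ?_
    rw [Finset.sum_comm]
  refine ⟨ν, hν.1, hν.2, ?_, hedge, ?_⟩
  · intro v f
    by_cases hcov : ∃ e ∈ E, e.1 = v ∨ e.2 = v
    · obtain ⟨e, hee, hev⟩ := hcov
      obtain ⟨hs1, hs2⟩ := hK.1 e hee
      rcases hev with hev | hev
      · rw [← hev, hs1, hedge e hee (fun x _ => f x)]
        simp_rw [← Finset.sum_mul, h1]
      · rw [← hev, hs2, hedge e hee (fun _ y => f y), Finset.sum_comm]
        simp_rw [← Finset.sum_mul, h2]
    · push Not at hcov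
      refine tendsto_nhds_unique (hlin (fun z => f (z v))) ?_
      have : (fun k => ∑ z, νk (φ k) z * f (z v)) = fun _ => ∑ x, m (side v) x * f x := by
        funext k
        exact hv (φ k) v hcov f
      rw [this]
      exact tendsto_const_nhds
  · have hcont : Filter.Tendsto (fun k => ∑ z, νk (φ k) z * (Real.log (νk (φ k) z)
        - ∑ v, Real.log (m (side v) (z v)))) Filter.atTop
        (nhds (∑ z, ν z * (Real.log (ν z) - ∑ v, Real.log (m (side v) (z v))))) := by
      refine tendsto_finsetSum _ fun z _ => ?_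
      simp_rw [mul_sub]
      exact (((Real.continuous_mul_log.tendsto (ν z)).comp (hpt z))).sub
        ((hpt z).mul_const _)
    have hrhs : Filter.Tendsto (fun k => (E.card : ℝ) * I + 1 / ((φ k : ℝ) + 1)) Filter.atTop
        (nhds ((E.card : ℝ) * I + 0)) := tendsto_const_nhds.add hε
    rw [add_zero] at hrhs
    exact le_of_tendsto_of_tendsto' hcont hrhs (fun k => hc (φ k))

end approx

/-- A graph with the two-sided Sidorenko inequality, placed on the levels `i` and `i + 1`,
is good. -/
theorem good_of_KSid {V : Type} [Fintype V] [DecidableEq V] {E : Finset (V × V)}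
    {side : V → Bool} (h : KSid E side) (i : ℕ) (lev : V → ℕ)
    (hlev : ∀ v, lev v = if side v then i + 1 else i) :
    Good E (fun u v => (u, v) ∈ E) lev := by
  refine ⟨fun e he => he, fun u v huv => ?_, fun U _ C => ?_⟩
  · obtain ⟨h1, h2⟩ := h.1 _ huv
    simp only at h1 h2
    rw [hlev, hlev, h1, h2]
    simp
  · set m : Bool → U → ℝ := fun b => C.law (if b then i + 1 else i) with hm
    have hlaw : ∀ v, m (side v) = C.law (lev v) := by
      intro v
      rw [hm, hlev]
    obtain ⟨ν, h0, hs, hv, he, hc⟩ := exact_coupling h (m := m) (π := C.pair i (i + 1))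
      (fun b x => C.fo_law_nonneg _ _) (fun b => C.fo_law_sum _)
      (fun x y => C.fo_pair_nonneg _ _ _ _)
      (fun x => by rw [C.fo_pair_fst]; rfl)
      (fun y => by rw [C.fo_pair_snd (Nat.le_succ i)]; rfl)
    refine ⟨ν, h0, hs, ?_, ?_, ?_⟩
    · intro v f
      rw [hv v f, hlaw]
    · intro u v huv f
      obtain ⟨h1, h2⟩ := h.1 _ huv
      simp only at h1 h2
      have hu : lev u = i := by rw [hlev, h1]; simp
      have hv' : lev v = i + 1 := by rw [hlev, h2]; simp
      rw [hu, hv']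
      exact he _ huv f
    · have hsum : ∑ e ∈ E, C.info (lev e.1) (lev e.2) = E.card * C.info i (i + 1) := by
        rw [Finset.sum_congr rfl (g := fun _ => C.info i (i + 1)), Finset.sum_const,
          nsmul_eq_mul]
        intro e hee
        obtain ⟨h1, h2⟩ := h.1 _ hee
        have hu : lev e.1 = i := by rw [hlev, h1]; simp
        have hv' : lev e.2 = i + 1 := by rw [hlev, h2]; simp
        rw [hu, hv']
      rw [hsum]
      unfold corr
      simp_rw [← hlaw]
      exact hc

end Vale.Agent.P050.Lev
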