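import Vale.Agent.P050.Lev.Transport
import Vale.Agent.P050.Lev.Clone
import Vale.Agent.P050.Lev.SGood

/-!
Assembly: cones over graphs glued from Sidorenko graphs.
-/

namespace Vale.Agent.P050.Lev

open Finset

section dist

variable {V : Type} {H : SimpleGraph V}

theorem side_walk {side : V → Bool} (hside : ∀ u v, H.Adj u v → side u ≠ side v) {u v : V}
    (p : H.Walk u v) : side v = if Even p.length then side u else !side u := by
  induction p with
  | nil => simp
  | @cons u w v h p ih =>
    rw [SimpleGraph.Walk.length_cons, ih]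
    have h1 := hside _ _ h
    by_cases he : Even p.length
    · rw [if_pos he, if_neg (by rw [Nat.even_add_one]; simpa using he)]
      cases hu : side u <;> cases hw : side w <;> simp_all
    · rw [if_neg he, if_pos (by rw [Nat.even_add_one]; exact he)]
      cases hu : side u <;> cases hw : side w <;> simp_all

theorem side_dist (hH : H.Connected) {side : V → Bool} (hside : ∀ u v, H.Adj u v → side u ≠ side v)
    (r v : V) : side v = if Even (H.dist r v) then side r else !side r := by
  obtain ⟨p, hp⟩ := hH.exists_walk_length_eq_dist r v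
  rw [← hp]; exact side_walk hside p

theorem dist_adj (hH : H.Connected) {side : V → Bool} (hside : ∀ u v, H.Adj u v → side u ≠ side v)
    (r : V) {u v : V} (h : H.Adj u v) :
    H.dist r v = H.dist r u + 1 ∨ H.dist r u = H.dist r v + 1 := by
  have h1 := h.diff_dist_adj (u := r)
  have h2 : H.dist r v ≠ H.dist r u := by
    intro h3
    have h4 := side_dist hH hside r v
    rw [h3, ← side_dist hH hside r u] at h4
    exact hside _ _ h h4.symm
  omega

theorem exists_down (hH : H.Connected) (r : V) {v : V} (hv : v ≠ r) :
    ∃ u, H.Adj u v ∧ H.dist r v = H.dist r u + 1 := by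
  obtain ⟨p, hp⟩ := hH.exists_walk_length_eq_dist v r
  cases p with
  | nil => exact absurd rfl hv
  | @cons _ w _ h q =>
    refine ⟨w, h.symm, ?_⟩
    have h1 : H.dist w r ≤ q.length := SimpleGraph.dist_le q
    have h2 : H.dist v r ≤ H.dist w r + 1 := by
      obtain ⟨q', hq'⟩ := hH.exists_walk_length_eq_dist w r
      have := SimpleGraph.dist_le (SimpleGraph.Walk.cons h q')
      rw [SimpleGraph.Walk.length_cons, hq'] at this
      exact this
    rw [SimpleGraph.Walk.length_cons] at hp
    rw [SimpleGraph.dist_comm (u := r) (v := v), SimpleGraph.dist_comm (u := r) (v := w)]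
    omega

end dist

section pieces

variable {V : Type} [Fintype V] [DecidableEq V]

/-- the edges with both ends in `P` -/
def resE (P : Finset V) (E : Finset (V × V)) : Finset ({v // v ∈ P} × {v // v ∈ P}) :=
  univ.filter fun e => ((e.1 : V), (e.2 : V)) ∈ E

/-- goodness of the part of a levelled graph on the set `P` -/
def GoodOn (P : Finset V) (E : Finset (V × V)) (R : V → V → Prop) (lev : V → ℕ) : Prop :=
  Good (resE P E) (fun a b => R a b) (fun v => lev v)

open Classical in
/-- the edges of `H` inside `P`, directed upwards -/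
noncomputable def upSet (H : SimpleGraph V) (lev : V → ℕ) (P : Finset V) : Finset (V × V) :=
  univ.filter fun e => H.Adj e.1 e.2 ∧ lev e.2 = lev e.1 + 1 ∧ e.1 ∈ P ∧ e.2 ∈ P

theorem mem_upSet {H : SimpleGraph V} {lev : V → ℕ} {P : Finset V} {e : V × V} :
    e ∈ upSet H lev P ↔ H.Adj e.1 e.2 ∧ lev e.2 = lev e.1 + 1 ∧ e.1 ∈ P ∧ e.2 ∈ P := by
  simp [upSet]

theorem KSid.swap {E : Finset (V × V)} {side : V → Bool} (h : KSid E side) :
    KSid (E.image Prod.swap) (fun v => !side v) := by
  obtain ⟨h1, h2⟩ := h
  refine ⟨?_, ?_⟩
  · intro e he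
    obtain ⟨e', he', rfl⟩ := Finset.mem_image.1 he
    simp [h1 e' he']
  · intro U _ m W hm hm1 hW
    have h3 := h2 U (fun b => m (!b)) (fun x y => W y x) (fun b x => hm _ x) (fun b => hm1 _)
      (fun x y => hW y x)
    rw [Finset.card_image_of_injective _ Prod.swap_injective]
    have e1 : ∑ x, ∑ y, m false x * m true y * W x y =
        ∑ x, ∑ y, m (!false) x * m (!true) y * W y x := by
      rw [Finset.sum_comm]
      refine Finset.sum_congr rfl fun x _ => Finset.sum_congr rfl fun y _ => ?_
      simp only [Bool.not_false, Bool.not_true]; ring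
    rw [e1]
    refine h3.trans (le_of_eq ?_)
    refine Finset.sum_congr rfl fun z _ => ?_
    congr 1
    rw [Finset.prod_image fun a _ b _ hab => Prod.swap_injective hab]
    rfl

theorem sideEdges_not (F : SimpleGraph V) (side : V → Bool) :
    sideEdges F (fun v => !side v) = (sideEdges F side).image Prod.swap := by
  classical
  ext ⟨a, b⟩
  simp only [sideEdges, Finset.mem_filter, Finset.mem_univ, true_and, Finset.mem_image,
    Prod.exists, Prod.swap_prod_mk, Prod.mk.injEq, Bool.not_eq_false', Bool.not_eq_true']
  constructor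
  · rintro ⟨h1, h2, h3⟩
    exact ⟨b, a, ⟨h1.symm, h3, h2⟩, rfl, rfl⟩
  · rintro ⟨c, d, ⟨h1, h2, h3⟩, rfl, rfl⟩
    exact ⟨h1.symm, h3, h2⟩

theorem GSid.swap {F : SimpleGraph V} {side : V → Bool} (h : GSid F side) :
    GSid F (fun v => !side v) := by
  refine ⟨fun u v huv => ?_, ?_⟩
  · have := h.1 u v huv
    simpa using this
  · rw [sideEdges_not]; exact h.2.swap

/-- a two-level piece satisfying the two-sided Sidorenko inequality is good -/
theorem goodOn_piece (H : SimpleGraph V) (lev : V → ℕ) (side : V → Bool) (P : Finset V) (d : ℕ)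
    (s : Bool) (hs : ∀ v ∈ P, (lev v = d ∧ side v = s) ∨ (lev v = d + 1 ∧ side v = !s))
    (hP : GSid (H.induce (P : Set V)) fun v => side v) :
    GoodOn P (upSet H lev P) (fun a b => (a, b) ∈ upSet H lev P) lev := by
  have key : ∀ side' : {v // v ∈ P} → Bool, (∀ v, side' v = decide (lev v = d + 1)) →
      GSid (H.induce (P : Set V)) side' →
        GoodOn P (upSet H lev P) (fun a b => (a, b) ∈ upSet H lev P) lev := by
    intro side' h1 h2
    have hE : resE P (upSet H lev P) = sideEdges (H.induce (P : Set V)) side' := by
      ext ⟨a, b⟩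
      simp only [resE, sideEdges, Finset.mem_filter, Finset.mem_univ, true_and, mem_upSet,
        SimpleGraph.comap_adj, Function.Embedding.subtype_apply]
      rw [h1, h1]
      have ha := hs a a.2
      have hb := hs b b.2
      have ha' := a.2
      have hb' := b.2
      constructor
      · rintro ⟨g1, g2, -, -⟩
        refine ⟨g1, ?_, ?_⟩
        · simp only [decide_eq_false_iff_not]; omega
        · simp only [decide_eq_true_eq]; omega
      · rintro ⟨g1, g2, g3⟩
        simp only [decide_eq_false_iff_not] at g2
        simp only [decide_eq_true_eq] at g3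
        exact ⟨g1, by omega, ha', hb'⟩
    have hg := good_of_KSid h2.2 d (fun v : {v // v ∈ P} => lev v) (by
      intro v
      rw [h1]
      rcases hs v v.2 with h | h
      · rw [h.1]; simp
      · rw [h.1]; simp)
    rw [← hE] at hg
    unfold GoodOn
    refine hg.mono ?_ ?_
    · intro a b hab
      simp only [resE, Finset.mem_filter, Finset.mem_univ, true_and]; exact hab
    · intro e he
      simp only [resE, Finset.mem_filter, Finset.mem_univ, true_and] at he; exact he
  cases s with
  | false =>
    refine key (fun v => side v) ?_ hP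
    intro v
    rcases hs v v.2 with h | h
    · rw [h.1, h.2]; simp
    · rw [h.1, h.2]; simp
  | true =>
    refine key (fun v => !side v) ?_ hP.swap
    intro v
    rcases hs v v.2 with h | h
    · rw [h.1, h.2]; simp
    · rw [h.1, h.2]; simp

end pieces

end Vale.Agent.P050.Lev
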