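import Vale.Agent.P050.Lev.Glue
import Vale.Agent.P050.Lev.Levels

/-!
Three more rules: more edges, ties through a cut vertex, gluing along an edge which is dropped.
-/

set_option linter.unusedSectionVars false

namespace Vale.Agent.P050.Lev

open Finset

section rules

variable {V : Type} [Fintype V] [DecidableEq V]

/-- Tied pairs may be made edges. -/
theorem Good.more {E E' : Finset (V × V)} {R : V → V → Prop} {lev : V → ℕ} (hg : Good E R lev)
    (hE : E ⊆ E') (hR : ∀ e ∈ E', R e.1 e.2) : Good E' R lev := by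
  obtain ⟨-, hl, hC⟩ := hg
  refine ⟨hR, hl, fun U _ C => ?_⟩
  obtain ⟨ν, hν⟩ := hC U C
  refine ⟨ν, hν.nonneg, hν.total, hν.vertex, hν.tied, hν.bound.trans ?_⟩
  exact Finset.sum_le_sum_of_subset_of_nonneg hE fun e he _ => C.info_nonneg (hl _ _ (hR e he)).le

/-- the tied pairs after adding ties through the cut vertex `v` -/
def cutRel {ι : Type} (R : V → V → Prop) (v : V) (comp : V → ι) (a b : V) : Prop :=
  R a b ∨ (R a v ∧ R v b ∧ comp a ≠ comp b)

variable {ι : Type} [Fintype ι] [DecidableEq ι] {U : Type} [Fintype U]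

theorem reglue_cut {E : Finset (V × V)} {R : V → V → Prop} {lev : V → ℕ} {C : Chain U}
    {ν : (V → U) → ℝ} (hν : Coupling E R lev C ν) (hl : ∀ u v, R u v → lev u < lev v)
    (v : V) (comp : V → ι) {a b : V} (ha : R a v) (hb : R v b) (hab : comp a ≠ comp b)
    (p q : U) : ∑ z, reglue v comp ν z * (open Classical in if z a = p ∧ z b = q then 1 else 0) =
      C.pair (lev a) (lev b) p q := by
  classical
  have hav : a ≠ v := by
    rintro rfl
    exact lt_irrefl _ (hl _ _ ha)
  have hbv : b ≠ v := by
    rintro rfl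
    exact lt_irrefl _ (hl _ _ hb)
  have hne : a ≠ b := fun h => hab (by rw [h])
  set F : V → U → ℝ := fun w u => if w = a then (if u = p then 1 else 0) else
    (if u = q then 1 else 0) with hF
  have hprod : ∀ z : V → U, ∏ w ∈ ({a, b} : Finset V), F w (z w) =
      if z a = p ∧ z b = q then 1 else 0 := by
    intro z
    rw [Finset.prod_pair hne]
    simp only [hF, if_true, if_neg hne.symm]
    by_cases h1 : z a = p <;> by_cases h2 : z b = q <;> simp [h1, h2]
  have hN : ∀ w ∈ ({a, b} : Finset V), ∀ w' ∈ ({a, b} : Finset V), comp w = comp w' → w = w' := by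
    intro w hw w' hw' h
    simp only [Finset.mem_insert, Finset.mem_singleton] at hw hw'
    rcases hw with rfl | rfl <;> rcases hw' with rfl | rfl
    · rfl
    · exact absurd h hab
    · exact absurd h.symm hab
    · rfl
  have hvN : v ∉ ({a, b} : Finset V) := by
    simp only [Finset.mem_insert, Finset.mem_singleton, not_or]
    exact ⟨hav.symm, hbv.symm⟩
  rw [sum_split v comp]
  have h1 : ∀ x : U, ∑ t, reglue v comp ν (mkz v comp x t) *
      (if mkz v comp x t a = p ∧ mkz v comp x t b = q then 1 else 0) =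
      C.law (lev v) x * ((C.pair (lev a) (lev v) p x / C.law (lev v) x) *
        (C.pair (lev v) (lev b) x q / C.law (lev v) x)) := by
    intro x
    have h2 := reglue_star v comp (ν := ν) x {a, b} hvN hN F
    simp only [hprod] at h2
    rw [h2, rootLaw_eq hν, Finset.prod_pair hne]
    congr 3
    · have h3 := obsLaw_mkz v comp ν (fun z => z a) x p
      rw [obsLaw_down hν ha] at h3
      rw [h3]
      refine Finset.sum_congr rfl fun t _ => ?_
      simp only [hF, if_true, mul_ite, mul_one, mul_zero]
    · have h3 := obsLaw_mkz v comp ν (fun z => z b) x q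
      rw [obsLaw_up hν hb] at h3
      rw [h3]
      refine Finset.sum_congr rfl fun t _ => ?_
      simp only [hF, if_neg hne.symm, mul_ite, mul_one, mul_zero]
  rw [Finset.sum_congr rfl fun x _ => h1 x]
  have h4 : ∀ x, C.law (lev v) x * ((C.pair (lev a) (lev v) p x / C.law (lev v) x) *
        (C.pair (lev v) (lev b) x q / C.law (lev v) x)) =
      C.law (lev a) p * (C.ker (lev a) (lev v - lev a) p x *
        C.ker (lev v) (lev b - lev v) x q) := by
    intro x
    by_cases h0 : C.law (lev v) x = 0
    · rw [h0, zero_mul]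
      have h5 := C.fo_pair_snd (hl _ _ ha).le x
      rw [h0] at h5
      have h6 := (Finset.sum_eq_zero_iff_of_nonneg
        (fun y _ => C.fo_pair_nonneg _ _ y x)).1 h5 p (mem_univ p)
      unfold Chain.pair at h6
      rw [← mul_assoc, h6, zero_mul]
    · unfold Chain.pair
      field_simp
  rw [Finset.sum_congr rfl fun x _ => h4 x, ← Finset.mul_sum]
  have h5 := C.ker_add (lev a) (lev v - lev a) (lev b - lev v) p q
  have h6 := hl _ _ ha
  have h7 := hl _ _ hb
  rw [show lev v - lev a + (lev b - lev v) = lev b - lev a by omega,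
    show lev a + (lev v - lev a) = lev v by omega] at h5
  rw [← h5]
  rfl

/-- **Ties through a cut vertex.** If every tied pair lies in one of the pieces at the vertex `v`,
then a vertex tied to `v` from below and a vertex of another piece tied to `v` from above may be
tied. -/
theorem Good.cut {E : Finset (V × V)} {R : V → V → Prop} {lev : V → ℕ} (hg : Good E R lev)
    (v : V) (comp : V → ι) (hR : ∀ a b, R a b → a = v ∨ b = v ∨ comp a = comp b) :
    Good E (cutRel R v comp) lev := by
  classical
  obtain ⟨hER, hl, hC⟩ := hg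
  refine ⟨fun e he => Or.inl (hER e he), ?_, fun U _ C => ?_⟩
  · rintro a b (h | ⟨h1, h2, -⟩)
    · exact hl a b h
    · exact (hl _ _ h1).trans (hl _ _ h2)
  obtain ⟨ν, hν⟩ := hC U C
  have hν' := hν.reglue v comp hR
  refine ⟨reglue v comp ν, hν'.nonneg, hν'.total, hν'.vertex, ?_, hν'.bound⟩
  rintro a b (h | ⟨h1, h2, h3⟩) f
  · exact hν'.tied a b h f
  · have h4 := reglue_cut hν hl v comp h1 h2 h3
    simp_rw [← h4, Finset.sum_mul]
    have : ∀ z : V → U, reglue v comp ν z * f (z a) (z b) =
        ∑ p, ∑ q, reglue v comp ν z * (if z a = p ∧ z b = q then 1 else 0) * f p q := by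
      intro z
      rw [Finset.sum_eq_single (z a), Finset.sum_eq_single (z b)]
      · simp
      · intro q _ hq
        rw [if_neg (fun h => hq h.2.symm), mul_zero, zero_mul]
      · intro h; exact absurd (mem_univ _) h
      · intro p _ hp
        refine Finset.sum_eq_zero fun q _ => ?_
        rw [if_neg (fun h => hp h.1.symm), mul_zero, zero_mul]
      · intro h; exact absurd (mem_univ _) h
    simp_rw [this]
    rw [Finset.sum_comm]
    refine Finset.sum_congr rfl fun p _ => ?_
    rw [Finset.sum_comm]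

end rules

section drop

variable {S L R : Type} [Fintype S] [DecidableEq S] [Fintype L] [DecidableEq L] [Fintype R]
  [DecidableEq R]

/-- **Replacing an edge.** Two good levelled graphs are glued along a pair which is tied in the
first one and an edge of the second one; this edge of the second one is dropped. -/
theorem Good.glueDrop {E₁ : Finset ((S ⊕ L) × (S ⊕ L))} {E₂ : Finset ((S ⊕ R) × (S ⊕ R))}
    {R₁ : S ⊕ L → S ⊕ L → Prop} {R₂ : S ⊕ R → S ⊕ R → Prop} {lev : S ⊕ (L ⊕ R) → ℕ}
    (h₁ : Good E₁ R₁ (lev ∘ gl)) (h₂ : Good E₂ R₂ (lev ∘ gr)) {u v : S}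
    (hall : ∀ w : S, w = u ∨ w = v) (hR1 : R₁ (Sum.inl u) (Sum.inl v))
    (he : (Sum.inl u, Sum.inl v) ∈ E₂) :
    Good (glueEdges E₁ (E₂.erase (Sum.inl u, Sum.inl v))) (glueRel R₁ R₂) lev := by
  obtain ⟨hER₁, hRl₁, hC₁⟩ := h₁
  obtain ⟨hER₂, hRl₂, hC₂⟩ := h₂
  have hR2 := hER₂ _ he
  have hlt : lev (Sum.inl u) < lev (Sum.inl v) := hRl₁ _ _ hR1
  have huv : u ≠ v := by
    rintro rfl
    exact lt_irrefl _ hlt
  refine ⟨?_, ?_, ?_⟩
  · intro e he
    rcases Finset.mem_union.1 he with he | he
    · obtain ⟨e', he', rfl⟩ := Finset.mem_image.1 he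
      exact Or.inl ⟨e'.1, e'.2, rfl, rfl, hER₁ e' he'⟩
    · obtain ⟨e', he', rfl⟩ := Finset.mem_image.1 he
      exact Or.inr ⟨e'.1, e'.2, rfl, rfl, hER₂ e' (Finset.mem_of_mem_erase he')⟩
  · rintro u v (⟨a, b, rfl, rfl, h⟩ | ⟨a, b, rfl, rfl, h⟩)
    · exact hRl₁ a b h
    · exact hRl₂ a b h
  · intro U _ C
    obtain ⟨ν₁, hν₁⟩ := hC₁ U C
    obtain ⟨ν₂, hν₂⟩ := hC₂ U C
    have hm : ∀ s, smarg ν₁ s = smarg ν₂ s := fun s =>
      (smarg_pair hν₁ hall hR1 s).trans (smarg_pair hν₂ hall hR2 s).symm
    refine ⟨glueLaw ν₁ ν₂, hν₁.glue hν₂ hm ?_⟩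
    have hcorr : corr (lev ∘ Sum.inl) C (smarg ν₁) =
        C.info (lev (Sum.inl u)) (lev (Sum.inl v)) := by
      have e1 := sum_smarg ν₁ fun s => Real.log (smarg ν₁ s) -
        ∑ a, Real.log (C.law ((lev ∘ Sum.inl) a) (s a))
      have e2 : ∀ s : S → U, Real.log (smarg ν₁ s) -
          ∑ a, Real.log (C.law ((lev ∘ Sum.inl) a) (s a)) =
          Real.log (C.pair (lev (Sum.inl u)) (lev (Sum.inl v)) (s u) (s v)) -
            Real.log (C.law (lev (Sum.inl u)) (s u)) -
              Real.log (C.law (lev (Sum.inl v)) (s v)) := by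
        intro s
        have h5 : (Finset.univ : Finset S) = {u, v} := by
          ext w; simpa using hall w
        rw [smarg_pair hν₁ hall hR1 s, h5, Finset.sum_pair huv]
        simp only [Function.comp, gl, Sum.map_inl, id]
        ring
      have e3 := hν₁.tied _ _ hR1 fun x y =>
        Real.log (C.pair (lev (Sum.inl u)) (lev (Sum.inl v)) x y) -
          Real.log (C.law (lev (Sum.inl u)) x) - Real.log (C.law (lev (Sum.inl v)) y)
      rw [corr, ← e1, Finset.sum_congr rfl fun z _ => by rw [e2 (z ∘ Sum.inl)]]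
      exact e3
    have hdisj : Disjoint (E₁.image (Prod.map gl gl))
        ((E₂.erase (Sum.inl u, Sum.inl v)).image (Prod.map gr gr)) := by
      rw [Finset.disjoint_left]
      intro e he1 he2
      obtain ⟨⟨a, b⟩, hab, rfl⟩ := Finset.mem_image.1 he1
      obtain ⟨⟨c, d⟩, hcd', hcd⟩ := Finset.mem_image.1 he2
      simp only [Prod.map, Prod.mk.injEq] at hcd
      obtain ⟨h1, h2⟩ := hcd
      have hlt' := hRl₂ c d (hER₂ _ (Finset.mem_of_mem_erase hcd'))
      rcases a with a | a
      · rcases b with b | b
        · rcases c with c | c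
          · rcases d with d | d
            · rcases hall c with rfl | rfl <;> rcases hall d with rfl | rfl
              · exact absurd hlt' (lt_irrefl _)
              · exact (Finset.mem_erase.1 hcd').1 rfl
              · exact absurd hlt' (not_lt_of_gt hlt)
              · exact absurd hlt' (lt_irrefl _)
            · simp [gl, gr] at h2
          · simp [gl, gr] at h1
        · rcases d with d | d <;> simp [gl, gr] at h2
      · rcases c with c | c <;> simp [gl, gr] at h1
    rw [glueEdges, Finset.sum_union hdisj,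
      Finset.sum_image fun a _ b _ h => (gl_injective.prodMap gl_injective) h,
      Finset.sum_image fun a _ b _ h => (gr_injective.prodMap gr_injective) h, hcorr]
    rw [← Finset.add_sum_erase E₂ _ he]
    simp only [Prod.map_fst, Prod.map_snd, Function.comp]
    have h8 : C.info (lev (gr (Sum.inl u : S ⊕ R))) (lev (gr (Sum.inl v : S ⊕ R))) =
      C.info (lev (Sum.inl u)) (lev (Sum.inl v)) := rfl
    rw [h8]
    linarith

end drop

end Vale.Agent.P050.Lev
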