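import Vale.Agent.P050.Lev.SubstGood
import Vale.Agent.P050.Lev.Rules

/-!
Cones with several apices.
-/

set_option linter.unusedSectionVars false

namespace Vale.Agent.P050.Lev

open Finset

/-- transport of goodness backwards along an equivalence -/
theorem Good.pull {V V' : Type} [Fintype V] [DecidableEq V] [Fintype V'] [DecidableEq V']
    (φ : V' ≃ V) {E : Finset (V × V)} {R : V → V → Prop} {lev : V → ℕ} (hg : Good E R lev)
    {E' : Finset (V' × V')} {R' : V' → V' → Prop} {lev' : V' → ℕ}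
    (hE : ∀ a b, (a, b) ∈ E' ↔ (φ a, φ b) ∈ E) (hR : ∀ a b, R' a b → R (φ a) (φ b))
    (hER : ∀ e ∈ E', R' e.1 e.2) (hl : ∀ a, lev' a = lev (φ a)) : Good E' R' lev' := by
  refine hg.transport φ.symm ?_ ?_ hER ?_
  · intro a b
    rw [hE, Equiv.apply_symm_apply, Equiv.apply_symm_apply]
  · intro a b h
    have := hR _ _ h
    rwa [Equiv.apply_symm_apply, Equiv.apply_symm_apply] at this
  · intro a
    rw [hl, Equiv.apply_symm_apply]

section star

variable (K : Type) [Fintype K] [DecidableEq K]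

/-- the edges of the star with leaves `K` -/
def starE : Finset (((K ⊕ Unit) ⊕ Empty) × ((K ⊕ Unit) ⊕ Empty)) :=
  univ.image fun k : K => (Sum.inl (Sum.inl k), Sum.inl (Sum.inr ()))

/-- the sides of the star -/
def starSide : (K ⊕ Unit) ⊕ Empty → Bool
  | Sum.inl (Sum.inl _) => false
  | Sum.inl (Sum.inr _) => true
  | Sum.inr e => e.elim

theorem mem_starE {p q : (K ⊕ Unit) ⊕ Empty} : (p, q) ∈ starE K ↔
    ∃ k, p = Sum.inl (Sum.inl k) ∧ q = Sum.inl (Sum.inr ()) := by
  simp only [starE, Finset.mem_image, Finset.mem_univ, true_and, Prod.mk.injEq]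
  constructor
  · rintro ⟨k, h1, h2⟩; exact ⟨k, h1.symm, h2.symm⟩
  · rintro ⟨k, h1, h2⟩; exact ⟨k, h1.symm, h2.symm⟩

theorem ksid_star : KSid (starE K) (starSide K) := by
  classical
  refine ⟨?_, ?_⟩
  · rintro ⟨p, q⟩ h
    obtain ⟨k, rfl, rfl⟩ := (mem_starE K).1 h
    exact ⟨rfl, rfl⟩
  · intro U _ m W hm hm1 hW
    have hcard : (starE K).card = Fintype.card K := by
      rw [starE, Finset.card_image_of_injective, Finset.card_univ]
      intro a b h
      simpa using h
    rw [hcard]
    set g : U → ℝ := fun y => ∑ x, m false x * W x y with hg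
    have hL : ∑ x, ∑ y, m false x * m true y * W x y = ∑ y, m true y * g y := by
      rw [Finset.sum_comm]
      refine Finset.sum_congr rfl fun y _ => ?_
      rw [hg, Finset.mul_sum]
      exact Finset.sum_congr rfl fun x _ => by ring
    have hprod : ∀ z : (K ⊕ Unit) ⊕ Empty → U, (∏ v, m (starSide K v) (z v)) *
        ∏ e ∈ starE K, W (z e.1) (z e.2) =
        m true (z (Sum.inl (Sum.inr ()))) * ∏ k : K, (m false (z (Sum.inl (Sum.inl k))) *
          W (z (Sum.inl (Sum.inl k))) (z (Sum.inl (Sum.inr ())))) := by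
      intro z
      rw [starE, Finset.prod_image (fun a _ b _ h => by simpa using h), Finset.prod_mul_distrib,
        Fintype.prod_sum_type, Fintype.prod_sum_type]
      simp only [starSide, Finset.univ_unique, Finset.prod_singleton, Finset.univ_eq_empty,
        Finset.prod_empty, mul_one, PUnit.default_eq_unit]
      ring
    have hR : ∑ z : (K ⊕ Unit) ⊕ Empty → U, (∏ v, m (starSide K v) (z v)) *
        ∏ e ∈ starE K, W (z e.1) (z e.2) = ∑ y, m true y * g y ^ Fintype.card K := by
      simp_rw [hprod]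
      rw [sum_sumArrow]
      simp only [Sum.elim_inl, Finset.sum_const, Finset.card_univ, Fintype.card_fun,
        Fintype.card_eq_zero, pow_zero, one_smul]
      rw [sum_sumArrow]
      simp only [Sum.elim_inl, Sum.elim_inr]
      rw [Finset.sum_comm]
      have h1 : ∀ t : Unit → U, ∑ s : K → U, m true (t ()) * ∏ k, (m false (s k) *
          W (s k) (t ())) = m true (t ()) * g (t ()) ^ Fintype.card K := by
        intro t
        rw [← Finset.mul_sum]
        congr 1
        have h2 := Finset.prod_univ_sum (fun _ : K => (Finset.univ : Finset U))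
          (fun _ x => m false x * W x (t ()))
        rw [Fintype.piFinset_univ] at h2
        rw [← h2, Finset.prod_const, Finset.card_univ]
      rw [Finset.sum_congr rfl fun t _ => h1 t]
      exact Fintype.sum_equiv (Equiv.funUnique Unit U) _ _ fun t => rfl
    rw [hL, hR]
    exact Real.pow_arith_mean_le_arith_mean_pow univ (m true) g (fun y _ => hm true y) (hm1 true)
      (fun y _ => Finset.sum_nonneg fun x _ => mul_nonneg (hm false x) (hW x y)) _

end star

section multi

variable {V : Type} [Fintype V] [DecidableEq V]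

/-- the edges of the cone with apices `K` -/
def mconeEdges (E : Finset (V × V)) (D : Finset V) (K : Type) [Fintype K] [DecidableEq K] :
    Finset ((K ⊕ V) × (K ⊕ V)) :=
  E.image (fun e => (Sum.inr e.1, Sum.inr e.2)) ∪
    (univ ×ˢ D).image (fun p : K × V => (Sum.inl p.1, Sum.inr p.2))

/-- the tied pairs of the cone with apices `K` -/
def mconeRel (R : V → V → Prop) (K : Type) : K ⊕ V → K ⊕ V → Prop
  | Sum.inl _, Sum.inr _ => True
  | Sum.inr a, Sum.inr b => R a b
  | _, Sum.inl _ => False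

/-- the levels of the cone with apices `K` -/
def mconeLev (lev : V → ℕ) (K : Type) : K ⊕ V → ℕ
  | Sum.inl _ => 0
  | Sum.inr v => lev v + 1

theorem mem_mconeEdges {E : Finset (V × V)} {D : Finset V} {K : Type} [Fintype K]
    [DecidableEq K] {a b : K ⊕ V} : (a, b) ∈ mconeEdges E D K ↔
      (∃ v w, a = Sum.inr v ∧ b = Sum.inr w ∧ (v, w) ∈ E) ∨
        ∃ k v, a = Sum.inl k ∧ b = Sum.inr v ∧ v ∈ D := by
  simp only [mconeEdges, Finset.mem_union, Finset.mem_image, Finset.mem_product,
    Finset.mem_univ, true_and, Prod.mk.injEq, Prod.exists]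
  constructor
  · rintro (⟨v, w, h1, h2, h3⟩ | ⟨k, v, h1, h2, h3⟩)
    · exact Or.inl ⟨v, w, h2.symm, h3.symm, h1⟩
    · exact Or.inr ⟨k, v, h2.symm, h3.symm, h1⟩
  · rintro (⟨v, w, h1, h2, h3⟩ | ⟨k, v, h1, h2, h3⟩)
    · exact Or.inl ⟨v, w, h3, h1.symm, h2.symm⟩
    · exact Or.inr ⟨k, v, h3, h1.symm, h2.symm⟩

section aux

variable {E : Finset (V × V)} {D : Finset V} {lev : V → ℕ} {K : Type} [Fintype K] [DecidableEq K]

theorem coneLev_eq_zero {w : Option V} (h : coneLev lev w = 0) : w = none := by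
  rcases w with _ | v
  · rfl
  · exact absurd h (Nat.succ_ne_zero _)

theorem mem_cone_some {v w : V} : (some v, some w) ∈ coneEdges E D ↔ (v, w) ∈ E := by
  simp [coneEdges]

theorem mem_cone_none {w : V} : (none, some w) ∈ coneEdges E D ↔ w ∈ D := by
  simp [coneEdges]

theorem not_mem_cone {w : Option V} : (w, none) ∉ coneEdges E D := by
  simp [coneEdges]

/-- the vertices of the cone with apices `K` as vertices after substitution -/
def mcMap (E : Finset (V × V)) (D : Finset V) (lev : V → ℕ) (K : Type) :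
    K ⊕ V → SubV (coneEdges E D) (coneLev lev) K Unit Empty
  | Sum.inl k => Sum.inl (Sum.inl (⟨none, rfl⟩, k))
  | Sum.inr v => Sum.inl (Sum.inr (⟨some v, Nat.succ_ne_zero _⟩, ()))

theorem mcMap_injective : Function.Injective (mcMap E D lev K) := by
  rintro (a | a) (b | b) h
  · exact congrArg Sum.inl (congrArg Prod.snd (Sum.inl.inj (Sum.inl.inj h)))
  · exact absurd (Sum.inl.inj h) Sum.inl_ne_inr
  · exact absurd (Sum.inl.inj h) Sum.inr_ne_inl
  · have h1 := congrArg (fun x => (x.1.1 : Option V)) (Sum.inr.inj (Sum.inl.inj h))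
    exact congrArg Sum.inr (Option.some.inj h1)

theorem mcMap_surjective : Function.Surjective (mcMap E D lev K) := by
  rintro ((⟨⟨w, hw⟩, k⟩ | ⟨⟨w, hw⟩, u⟩) | ⟨e, m⟩)
  · refine ⟨Sum.inl k, ?_⟩
    have := coneLev_eq_zero hw
    subst this
    rfl
  · rcases w with _ | v
    · exact absurd rfl hw
    · exact ⟨Sum.inr v, rfl⟩
  · exact m.elim

theorem mcMap_low {e : LowE (coneEdges E D) (coneLev lev)} {p q : (K ⊕ Unit) ⊕ Empty}
    {a b : K ⊕ V} (h1 : mcMap E D lev K a = subInc e p) (h2 : mcMap E D lev K b = subInc e q)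
    (h3 : (p, q) ∈ starE K) : ∃ k v, a = Sum.inl k ∧ b = Sum.inr v ∧ v ∈ D := by
  obtain ⟨k, rfl, rfl⟩ := (mem_starE K).1 h3
  obtain ⟨⟨e1, e2⟩, he, hl1, hl2⟩ := e
  have hn := coneLev_eq_zero hl1
  simp only at hn
  subst hn
  rcases a with a | a
  · rcases b with b | b
    · exact absurd (Sum.inl.inj h2) Sum.inl_ne_inr
    · have h4 : some b = e2 :=
        congrArg (fun x => (x.1.1 : Option V)) (Sum.inr.inj (Sum.inl.inj h2))
      subst h4
      exact ⟨a, b, rfl, rfl, mem_cone_none.1 he⟩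
  · exact absurd (Sum.inl.inj h1) Sum.inr_ne_inl

theorem mcMap_high {w w' : {w : Option V // coneLev lev w ≠ 0}} {a b : K ⊕ V}
    (h1 : mcMap E D lev K a = Sum.inl (Sum.inr (w, ())))
    (h2 : mcMap E D lev K b = Sum.inl (Sum.inr (w', ()))) :
    ∃ v v', a = Sum.inr v ∧ b = Sum.inr v' ∧ w.1 = some v ∧ w'.1 = some v' := by
  rcases a with a | a
  · exact absurd (Sum.inl.inj h1) Sum.inl_ne_inr
  · rcases b with b | b
    · exact absurd (Sum.inl.inj h2) Sum.inl_ne_inr
    · have h4 : some a = w.1 :=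
        congrArg (fun x => (x.1.1 : Option V)) (Sum.inr.inj (Sum.inl.inj h1))
      have h5 : some b = w'.1 :=
        congrArg (fun x => (x.1.1 : Option V)) (Sum.inr.inj (Sum.inl.inj h2))
      exact ⟨a, b, rfl, rfl, h4.symm, h5.symm⟩

theorem mcMap_edge (a b : K ⊕ V) : (a, b) ∈ mconeEdges E D K ↔
    (mcMap E D lev K a, mcMap E D lev K b) ∈
      subEdges (coneEdges E D) (coneLev lev) (starE K) () := by
  rw [mem_mconeEdges, mem_subEdges]
  constructor
  · rintro (⟨v, w, rfl, rfl, h⟩ | ⟨k, v, rfl, rfl, h⟩)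
    · right
      exact ⟨⟨some v, Nat.succ_ne_zero _⟩, ⟨some w, Nat.succ_ne_zero _⟩, rfl, rfl,
        mem_cone_some.2 h⟩
    · left
      exact ⟨⟨(none, some v), mem_cone_none.2 h, rfl, Nat.succ_ne_zero _⟩,
        Sum.inl (Sum.inl k), Sum.inl (Sum.inr ()), rfl, rfl, (mem_starE K).2 ⟨k, rfl, rfl⟩⟩
  · rintro (⟨e, p, q, h1, h2, h3⟩ | ⟨w, w', h1, h2, h3⟩)
    · exact Or.inr (mcMap_low h1 h2 h3)
    · left
      obtain ⟨v, v', rfl, rfl, h4, h5⟩ := mcMap_high h1 h2
      rw [h4, h5] at h3
      exact ⟨v, v', rfl, rfl, mem_cone_some.1 h3⟩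

theorem mcMap_rel {R : V → V → Prop} (a b : K ⊕ V) (h : mconeRel R K a b) :
    subRel (coneEdges E D) (coneLev lev) (coneRel R) (fun u v => (u, v) ∈ starE K) ()
      (mcMap E D lev K a) (mcMap E D lev K b) := by
  rcases a with a | a <;> rcases b with b | b
  · exact h.elim
  · right; right
    exact ⟨⟨none, rfl⟩, a, ⟨some b, Nat.succ_ne_zero _⟩, (), rfl, rfl, trivial,
      (mem_starE K).2 ⟨a, rfl, rfl⟩⟩
  · exact h.elim
  · right; left
    exact ⟨⟨some a, Nat.succ_ne_zero _⟩, ⟨some b, Nat.succ_ne_zero _⟩, rfl, rfl, h⟩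

end aux

/-- **Cones with several apices.** -/
theorem Good.multiCone {E : Finset (V × V)} {R : V → V → Prop} {lev : V → ℕ}
    (hg : Good E R lev) (D : Finset V) (hD : ∀ v, v ∈ D ∨ ∃ u, (u, v) ∈ E)
    (hD0 : ∀ v ∈ D, lev v = 0) (hne : D.Nonempty) (K : Type) [Fintype K] [DecidableEq K] :
    Good (mconeEdges E D K) (mconeRel R K) (mconeLev lev K) := by
  have hF := hg.cone D hD
  have hstar : Good (starE K) (fun u v => (u, v) ∈ starE K)
      (fun v => if starSide K v then 1 else 0) :=
    good_of_KSid (ksid_star K) 0 _ fun v => by simp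
  have hS := hF.subst (A := K) (B := Unit) (M := Empty) hstar () ?_ ?_ (Or.inl fun _ => rfl) ?_ ?_
  · refine hS.pull (Equiv.ofBijective (mcMap E D lev K) ⟨mcMap_injective, mcMap_surjective⟩)
      mcMap_edge mcMap_rel ?_ ?_
    · rintro ⟨a, b⟩ h
      rcases mem_mconeEdges.1 h with ⟨v, w, rfl, rfl, h'⟩ | ⟨k, v, rfl, rfl, -⟩
      · exact hg.1 _ h'
      · trivial
    · intro a
      rcases a with a | a
      · rfl
      · show lev a + 1 = 1 + (lev a + 1 - 1)
        omega
  · rintro ⟨a, b⟩ he h0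
    have ha := coneLev_eq_zero h0
    simp only at ha
    subst ha
    rcases b with _ | b
    · exact absurd he not_mem_cone
    · show lev b + 1 = 1
      rw [hD0 b (mem_cone_none.1 he)]
  · intro w hw
    have := coneLev_eq_zero hw
    subst this
    obtain ⟨d, hd⟩ := hne
    exact ⟨(none, some d), mem_cone_none.2 hd, rfl⟩
  · intro a a' c h
    obtain ⟨k, -, h2⟩ := (mem_starE K).1 h
    exact absurd (Sum.inl.inj h2) Sum.inl_ne_inr
  · intro a a' c _ _
    rfl

end multi

end Vale.Agent.P050.Lev
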