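import Vale.Agent.P050.Lev.Forest

/-!
From the two-sided Sidorenko inequality to couplings: typical sequences.
-/

namespace Vale.Agent.P050.Lev

open Finset

section product

variable {Z : Type} [Fintype Z]

theorem sum_prod_fun (N : ℕ) (φ : Fin N → Z → ℝ) :
    ∑ z : Fin N → Z, ∏ j, φ j (z j) = ∏ j, ∑ x, φ j x := by
  classical
  rw [Finset.prod_univ_sum, Fintype.piFinset_univ]

theorem sum_prod_one {N : ℕ} {π : Z → ℝ} (hπ : ∑ z, π z = 1) :
    ∑ z : Fin N → Z, ∏ j, π (z j) = 1 := by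
  rw [sum_prod_fun N (fun _ => π)]
  simp [hπ]

theorem sum_prod_two {N : ℕ} {π : Z → ℝ} (hπ : ∑ z, π z = 1) (g : Z → ℝ)
    (hg : ∑ z, π z * g z = 0) (j k : Fin N) :
    ∑ z : Fin N → Z, (∏ i, π (z i)) * (g (z j) * g (z k))
      = if j = k then ∑ z, π z * g z ^ 2 else 0 := by
  classical
  have h : ∀ z : Fin N → Z, (∏ i, π (z i)) * (g (z j) * g (z k))
      = ∏ i, (π (z i) * ((if i = j then g (z i) else 1) * (if i = k then g (z i) else 1))) := by
    intro z
    rw [Finset.prod_mul_distrib, Finset.prod_mul_distrib]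
    simp
  simp_rw [h]
  rw [sum_prod_fun N (fun i x => π x * ((if i = j then g x else 1) * (if i = k then g x else 1)))]
  split_ifs with hjk
  · subst hjk
    rw [Finset.prod_eq_single j]
    · simp [pow_two]
    · intro i _ hi
      simp [hi, hπ]
    · simp
  · apply Finset.prod_eq_zero (Finset.mem_univ j)
    simpa [hjk] using hg

/-- the variance of a sum -/
theorem sum_prod_sq {N : ℕ} {π : Z → ℝ} (hπ : ∑ z, π z = 1) (g : Z → ℝ)
    (hg : ∑ z, π z * g z = 0) :
    ∑ z : Fin N → Z, (∏ i, π (z i)) * (∑ j, g (z j)) ^ 2 = N * ∑ z, π z * g z ^ 2 := by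
  have h : ∀ z : Fin N → Z, (∏ i, π (z i)) * (∑ j, g (z j)) ^ 2
      = ∑ j, ∑ k, (∏ i, π (z i)) * (g (z j) * g (z k)) := by
    intro z
    rw [pow_two, Finset.sum_mul_sum, Finset.mul_sum]
    simp_rw [Finset.mul_sum]
  simp_rw [h]
  rw [Finset.sum_comm]
  rw [Finset.sum_congr rfl fun j _ => Finset.sum_comm]
  simp_rw [sum_prod_two hπ g hg]
  simp

/-- weak law of large numbers, for a finite family of functions -/
theorem typical {K : Type} [Fintype K] {π : Z → ℝ} (hπ0 : ∀ z, 0 ≤ π z) (hπ : ∑ z, π z = 1)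
    (f : K → Z → ℝ) {ε : ℝ} (hε : 0 < ε) :
    ∃ N₀ : ℕ, ∀ N, N₀ ≤ N → ∀ T : Set (Fin N → Z), (∀ z, (∀ k,
      |∑ j, f k (z j) - N * ∑ x, π x * f k x| ≤ N * ε) → z ∈ T) →
      1 / 2 ≤ ∑ z : Fin N → Z, (∏ i, π (z i)) * T.indicator (fun _ => 1) z := by
  classical
  set m : K → ℝ := fun k => ∑ x, π x * f k x with hm
  set C : ℝ := ∑ k, ∑ z, π z * (f k z - m k) ^ 2 with hC
  have hC0 : 0 ≤ C := Finset.sum_nonneg fun k _ => Finset.sum_nonneg fun z _ =>
    mul_nonneg (hπ0 z) (sq_nonneg _)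
  obtain ⟨N₀, hN₀⟩ := exists_nat_gt (2 * C / ε ^ 2)
  refine ⟨N₀ + 1, fun N hN T hT => ?_⟩
  have hNpos : (0 : ℝ) < N := by
    have : 0 < N := by omega
    exact_mod_cast this
  have hNC : 2 * C / ε ^ 2 < N := lt_trans hN₀ (by exact_mod_cast (by omega : N₀ < N))
  have h1 : ∀ z : Fin N → Z, 1 - T.indicator (fun _ => (1 : ℝ)) z
      ≤ ∑ k, (∑ j, (f k (z j) - m k)) ^ 2 / (N * ε) ^ 2 := by
    intro z
    by_cases hz : z ∈ T
    · rw [Set.indicator_of_mem hz]
      simp only [sub_self]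
      exact Finset.sum_nonneg fun k _ => by positivity
    · rw [Set.indicator_of_notMem hz]
      have : ∃ k, ¬ (|∑ j, f k (z j) - N * ∑ x, π x * f k x| ≤ N * ε) := by
        by_contra hcon
        push Not at hcon
        exact hz (hT z hcon)
      obtain ⟨k, hk⟩ := this
      have hk' : ∑ j, (f k (z j) - m k) = ∑ j, f k (z j) - N * ∑ x, π x * f k x := by
        rw [Finset.sum_sub_distrib]
        simp [hm]
      have h2 : (1 : ℝ) ≤ (∑ j, (f k (z j) - m k)) ^ 2 / (N * ε) ^ 2 := by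
        rw [le_div_iff₀ (by positivity), one_mul, hk', ← sq_abs (∑ j, f k (z j) - _)]
        push Not at hk
        exact pow_le_pow_left₀ (by positivity) hk.le 2
      calc (1 : ℝ) - 0 ≤ (∑ j, (f k (z j) - m k)) ^ 2 / (N * ε) ^ 2 := by linarith
        _ ≤ _ := Finset.single_le_sum
          (f := fun k => (∑ j, (f k (z j) - m k)) ^ 2 / (N * ε) ^ 2)
          (fun k _ => by positivity) (Finset.mem_univ k)
  have h3 : ∑ z : Fin N → Z, (∏ i, π (z i)) * (1 - T.indicator (fun _ => (1 : ℝ)) z)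
      ≤ C / (N * ε ^ 2) := by
    calc _ ≤ ∑ z : Fin N → Z, (∏ i, π (z i)) *
          ∑ k, (∑ j, (f k (z j) - m k)) ^ 2 / (N * ε) ^ 2 :=
        Finset.sum_le_sum fun z _ => mul_le_mul_of_nonneg_left (h1 z)
          (Finset.prod_nonneg fun i _ => hπ0 _)
      _ = ∑ k, (∑ z : Fin N → Z, (∏ i, π (z i)) * (∑ j, (f k (z j) - m k)) ^ 2)
          / (N * ε) ^ 2 := by
        simp_rw [Finset.mul_sum, Finset.sum_div]
        rw [Finset.sum_comm]
        refine Finset.sum_congr rfl fun k _ => Finset.sum_congr rfl fun z _ => ?_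
        ring
      _ = ∑ k, (N * ∑ z, π z * (f k z - m k) ^ 2) / (N * ε) ^ 2 := by
        refine Finset.sum_congr rfl fun k _ => ?_
        rw [sum_prod_sq hπ (fun x => f k x - m k)]
        simp_rw [mul_sub, Finset.sum_sub_distrib, ← Finset.sum_mul, hπ, hm]
        ring
      _ = C / (N * ε ^ 2) := by
        rw [← Finset.sum_div, ← Finset.mul_sum, ← hC]
        field_simp
  have h4 : C / (N * ε ^ 2) ≤ 1 / 2 := by
    rw [div_le_div_iff₀ (by positivity) (by norm_num)]
    rw [div_lt_iff₀ (by positivity)] at hNC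
    nlinarith
  have h5 : ∑ z : Fin N → Z, (∏ i, π (z i)) * (1 - T.indicator (fun _ => (1 : ℝ)) z)
      = 1 - ∑ z : Fin N → Z, (∏ i, π (z i)) * T.indicator (fun _ => 1) z := by
    simp_rw [mul_sub, Finset.sum_sub_distrib, mul_one, sum_prod_one hπ]
  linarith

end product

/-- Gibbs' inequality -/
theorem gibbs' {Z : Type} [Fintype Z] {p q : Z → ℝ} (hp : ∀ z, 0 ≤ p z) (hq : ∀ z, 0 ≤ q z)
    (hpq : ∀ z, q z = 0 → p z = 0) (hps : ∑ z, p z = 1) (hqs : ∑ z, q z ≤ 1) :
    ∑ z, p z * Real.log (q z) ≤ ∑ z, p z * Real.log (p z) := by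
  have h : ∀ z, p z * Real.log (q z) - p z * Real.log (p z) ≤ q z - p z := by
    intro z
    rcases (hp z).eq_or_lt with h0 | h0
    · rw [← h0]; simpa using hq z
    · have hq0 : 0 < q z := lt_of_le_of_ne (hq z) fun h => h0.ne' (hpq z h.symm)
      have := Real.log_le_sub_one_of_pos (div_pos hq0 h0)
      rw [Real.log_div hq0.ne' h0.ne'] at this
      have h2 := mul_le_mul_of_nonneg_left this h0.le
      calc _ = p z * (Real.log (q z) - Real.log (p z)) := by ring
        _ ≤ p z * (q z / p z - 1) := h2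
        _ = q z - p z := by field_simp
  have := Finset.sum_le_sum fun z (_ : z ∈ (univ : Finset Z)) => h z
  rw [Finset.sum_sub_distrib, Finset.sum_sub_distrib] at this
  linarith

/-- the lower bound for the measure of the set of typical pairs -/
theorem typical_lower {U : Type} [Fintype U] {μ μ' : U → ℝ} {π : U → U → ℝ}
    (hμ : ∀ x, 0 ≤ μ x) (hμ' : ∀ x, 0 ≤ μ' x)
    (hπ : ∀ x y, 0 ≤ π x y) (h1 : ∀ x, ∑ y, π x y = μ x) (h2 : ∀ y, ∑ x, π x y = μ' y)
    {N : ℕ} {c : ℝ} (T : Set (Fin N → U × U))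
    (hT : ∀ p ∈ T, ∑ j, (Real.log (π (p j).1 (p j).2) - Real.log (μ (p j).1)
      - Real.log (μ' (p j).2)) ≤ c)
    (hS : 1 / 2 ≤ ∑ p : Fin N → U × U, (∏ j, π (p j).1 (p j).2) * T.indicator (fun _ => 1) p) :
    1 / 2 * Real.exp (-c) ≤ ∑ x : Fin N → U, ∑ y : Fin N → U,
      (∏ j, μ (x j)) * (∏ j, μ' (y j)) * T.indicator (fun _ => 1) (fun j => (x j, y j)) := by
  classical
  have e1 : ∑ x : Fin N → U, ∑ y : Fin N → U,
      (∏ j, μ (x j)) * (∏ j, μ' (y j)) * T.indicator (fun _ => (1 : ℝ)) (fun j => (x j, y j))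
      = ∑ p : Fin N → U × U, (∏ j, μ (p j).1) * (∏ j, μ' (p j).2)
        * T.indicator (fun _ => (1 : ℝ)) p := by
    rw [← Fintype.sum_prod_type']
    refine Fintype.sum_equiv (Equiv.arrowProdEquivProdArrow (Fin N) (fun _ => U)
      (fun _ => U)).symm _ _ fun x => ?_
    rfl
  rw [e1]
  have hle : ∀ x y, π x y ≤ μ x := fun x y => by
    rw [← h1 x]
    exact Finset.single_le_sum (f := fun y => π x y) (fun y _ => hπ x y) (Finset.mem_univ y)
  have hle' : ∀ x y, π x y ≤ μ' y := fun x y => by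
    rw [← h2 y]
    exact Finset.single_le_sum (f := fun x => π x y) (fun x _ => hπ x y) (Finset.mem_univ x)
  calc 1 / 2 * Real.exp (-c) ≤ (∑ p : Fin N → U × U, (∏ j, π (p j).1 (p j).2)
        * T.indicator (fun _ => 1) p) * Real.exp (-c) :=
      mul_le_mul_of_nonneg_right hS (Real.exp_nonneg _)
    _ = ∑ p : Fin N → U × U, (∏ j, π (p j).1 (p j).2) * T.indicator (fun _ => 1) p
        * Real.exp (-c) := Finset.sum_mul _ _ _
    _ ≤ _ := by
      refine Finset.sum_le_sum fun p _ => ?_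
      by_cases hp : p ∈ T
      · rw [Set.indicator_of_mem hp, mul_one, mul_one]
        by_cases h0 : ∏ j, π (p j).1 (p j).2 = 0
        · rw [h0, zero_mul]
          exact mul_nonneg (Finset.prod_nonneg fun j _ => hμ _)
            (Finset.prod_nonneg fun j _ => hμ' _)
        · replace h0 := Finset.prod_ne_zero_iff.1 h0
          have hpos : ∀ j, 0 < π (p j).1 (p j).2 := fun j =>
            lt_of_le_of_ne (hπ _ _) (Ne.symm (h0 j (Finset.mem_univ j)))
          have hpos1 : ∀ j, 0 < μ (p j).1 := fun j => lt_of_lt_of_le (hpos j) (hle _ _)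
          have hpos2 : ∀ j, 0 < μ' (p j).2 := fun j => lt_of_lt_of_le (hpos j) (hle' _ _)
          have hc := hT p hp
          have hP : 0 < ∏ j, π (p j).1 (p j).2 := Finset.prod_pos fun j _ => hpos j
          have hM : 0 < (∏ j, μ (p j).1) * ∏ j, μ' (p j).2 :=
            mul_pos (Finset.prod_pos fun j _ => hpos1 j) (Finset.prod_pos fun j _ => hpos2 j)
          rw [← Real.log_le_log_iff (mul_pos hP (Real.exp_pos _)) hM,
            Real.log_mul hP.ne' (Real.exp_pos _).ne', Real.log_exp,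
            Real.log_mul (Finset.prod_pos fun j _ => hpos1 j).ne'
              (Finset.prod_pos fun j _ => hpos2 j).ne',
            Real.log_prod (fun j _ => (hpos j).ne'), Real.log_prod (fun j _ => (hpos1 j).ne'),
            Real.log_prod (fun j _ => (hpos2 j).ne')]
          simp only [Finset.sum_sub_distrib] at hc
          linarith
      · rw [Set.indicator_of_notMem hp]
        simp

section approx

variable {V U : Type} [Fintype V] [DecidableEq V] [Fintype U]

/-- Average of the coordinate marginals of the law `R`. -/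
noncomputable def avgLaw {N : ℕ} (R : (V → Fin N → U) → ℝ) (z : V → U) : ℝ :=
  open Classical in
  (∑ j, ∑ Z : V → Fin N → U, R Z * if (fun v => Z v j) = z then 1 else 0) / N

theorem sum_avgLaw {N : ℕ} (R : (V → Fin N → U) → ℝ) (g : (V → U) → ℝ) :
    ∑ z, avgLaw R z * g z = (∑ j, ∑ Z, R Z * g (fun v => Z v j)) / N := by
  classical
  unfold avgLaw
  simp_rw [div_mul_eq_mul_div]
  rw [← Finset.sum_div]
  congr 1
  simp_rw [Finset.sum_mul]
  rw [Finset.sum_comm]
  refine Finset.sum_congr rfl fun j _ => ?_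
  rw [Finset.sum_comm]
  refine Finset.sum_congr rfl fun Z _ => ?_
  simp_rw [mul_assoc]
  rw [← Finset.mul_sum]
  congr 1
  simp

theorem avgLaw_entropy {N : ℕ} (hN : 0 < N) {R : (V → Fin N → U) → ℝ} (hR : ∀ Z, 0 ≤ R Z)
    (hR1 : ∑ Z, R Z = 1) :
    N * ∑ z, avgLaw R z * Real.log (avgLaw R z) ≤ ∑ Z, R Z * Real.log (R Z) := by
  classical
  have hNpos : (0 : ℝ) < N := by exact_mod_cast hN
  have h0 : ∀ z, 0 ≤ avgLaw R z := fun z => by
    unfold avgLaw
    refine div_nonneg (Finset.sum_nonneg fun j _ => Finset.sum_nonneg fun Z _ =>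
      mul_nonneg (hR Z) ?_) (Nat.cast_nonneg N)
    split_ifs <;> norm_num
  have hs : ∑ z, avgLaw R z = 1 := by
    have := sum_avgLaw R (fun _ => 1)
    simp only [mul_one] at this
    rw [this, hR1]
    simp [hNpos.ne']
  have hle : ∀ Z j, R Z / N ≤ avgLaw R (fun v => Z v j) := by
    intro Z j
    unfold avgLaw
    refine div_le_div_of_nonneg_right ?_ hNpos.le
    set z : V → U := fun v => Z v j with hz
    have h1 : R Z = R Z * (if (fun v => Z v j) = z then (1 : ℝ) else 0) := by simp [hz]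
    have h2 : R Z ≤ ∑ Z' : V → Fin N → U, R Z' *
        (if (fun v => Z' v j) = z then (1 : ℝ) else 0) := by
      conv_lhs => rw [h1]
      refine Finset.single_le_sum (f := fun Z' : V → Fin N → U => R Z' *
        (if (fun v => Z' v j) = z then (1 : ℝ) else 0)) (fun Z' _ => ?_)
        (Finset.mem_univ Z)
      refine mul_nonneg (hR _) ?_
      split_ifs <;> norm_num
    refine h2.trans (Finset.single_le_sum (f := fun j' => ∑ Z' : V → Fin N → U, R Z' *
        (if (fun v => Z' v j') = z then (1 : ℝ) else 0)) (fun j' _ => ?_)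
        (Finset.mem_univ j))
    refine Finset.sum_nonneg fun Z' _ => mul_nonneg (hR _) ?_
    split_ifs <;> norm_num
  have hq0 : ∀ Z, (∏ j, avgLaw R (fun v => Z v j)) = 0 → R Z = 0 := by
    intro Z hZ
    obtain ⟨j, -, hj⟩ := Finset.prod_eq_zero_iff.1 hZ
    have := hle Z j
    rw [hj] at this
    have h3 := div_nonneg (hR Z) hNpos.le
    have h4 : R Z / N = 0 := le_antisymm this h3
    rcases div_eq_zero_iff.1 h4 with h | h
    · exact h
    · exact absurd h hNpos.ne'
  have hqs : ∑ Z : V → Fin N → U, ∏ j, avgLaw R (fun v => Z v j) = 1 := by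
    rw [← sum_prod_one (N := N) hs]
    exact Fintype.sum_equiv (Equiv.piComm fun _ _ => U) _ _ fun Z => rfl
  have hg := gibbs' hR (fun Z => Finset.prod_nonneg fun j _ => h0 _) hq0 hR1 hqs.le
  refine le_trans (le_of_eq ?_) hg
  rw [sum_avgLaw R (fun z => Real.log (avgLaw R z)), mul_div_cancel₀ _ hNpos.ne',
    Finset.sum_comm]
  refine Finset.sum_congr rfl fun Z _ => ?_
  rw [← Finset.mul_sum]
  by_cases hZ : R Z = 0
  · rw [hZ, zero_mul, zero_mul]
  · congr 1
    rw [Real.log_prod]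
    intro j _ hj
    exact hZ (hq0 Z (Finset.prod_eq_zero (Finset.mem_univ j) hj))

end approx

end Vale.Agent.P050.Lev
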