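import Vale.Agent.P050.Lev.SubstLaw

/-!
Substitution of a gadget into a levelled graph.
-/

set_option linter.unusedSectionVars false

namespace Vale.Agent.P050.Lev

open Finset

section main

variable {W A B M U : Type} [Fintype W] [DecidableEq W] [Fintype A] [DecidableEq A] [Fintype B]
  [DecidableEq B] [Fintype M] [DecidableEq M] [Fintype U]
  {EF : Finset (W × W)} {RF : W → W → Prop} {levF : W → ℕ}
  {ED : Finset (((A ⊕ B) ⊕ M) × ((A ⊕ B) ⊕ M))} {RD : (A ⊕ B) ⊕ M → (A ⊕ B) ⊕ M → Prop}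
  {levD : (A ⊕ B) ⊕ M → ℕ}

/-- the joint law of the two blocks -/
noncomputable def gadJ (μ : ((A ⊕ B) ⊕ M → U) → ℝ) (a : A → U) (b : B → U) : ℝ :=
  smarg μ (Sum.elim a b)

theorem gadJ_nonneg {μ : ((A ⊕ B) ⊕ M → U) → ℝ} (hμ : ∀ z, 0 ≤ μ z) (a : A → U) (b : B → U) :
    0 ≤ gadJ μ a b := smarg_nonneg hμ _

theorem sum_gadJ (μ : ((A ⊕ B) ⊕ M → U) → ℝ) (G : (A ⊕ B → U) → ℝ) :
    ∑ a, ∑ b, gadJ μ a b * G (Sum.elim a b) = ∑ y, μ y * G (y ∘ Sum.inl) := by
  rw [sum_smarg, sum_sumArrow]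
  rfl

theorem gadJ_total {μ : ((A ⊕ B) ⊕ M → U) → ℝ} (hμ : ∑ z, μ z = 1) :
    ∑ a, ∑ b, gadJ μ a b = 1 := by
  have h := sum_gadJ μ fun _ => 1
  simpa [hμ] using h

variable {C : Chain U} {μ : ((A ⊕ B) ⊕ M → U) → ℝ} (hD : Coupling ED RD levD C μ) (t : B)

/-- the block chain of the gadget -/
noncomputable abbrev gadChain (hD : Coupling ED RD levD C μ) (t : B) :
    Chain ((A → U) ⊕ (B → U)) :=
  blockChain (gadJ μ) (gadJ_nonneg hD.nonneg) (gadJ_total hD.total) C t
    (levD (Sum.inl (Sum.inr t)))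

include hD in
theorem gad_t (f : U → ℝ) : ∑ a, ∑ b, gadJ μ a b * f (b t) =
    ∑ x, C.law (levD (Sum.inl (Sum.inr t))) x * f x := by
  have h := sum_gadJ μ fun s => f (s (Sum.inr t))
  exact h.trans (hD.vertex (Sum.inl (Sum.inr t)) f)

variable {hD t} {ν : (W → (A → U) ⊕ (B → U)) → ℝ}
  (hF : Coupling EF RF levF (gadChain hD t) ν)

include hF in
theorem sub_support {z : W → (A → U) ⊕ (B → U)} (hz : ν z ≠ 0) :
    ∃ s : BlkV levF A B → U, blk s = z := by
  refine exists_blk (fun w hw => ?_) (fun w hw => ?_)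
  · have h := hF.law_ne_zero hz w
    rw [hw] at h
    rcases h1 : z w with a | b
    · rfl
    · rw [h1] at h
      exact absurd (bc_law_zero_inr b) h
  · have h := hF.law_ne_zero hz w
    obtain ⟨n, hn⟩ := Nat.exists_eq_succ_of_ne_zero hw
    rw [hn] at h
    rcases h1 : z w with a | b
    · rw [h1] at h
      exact absurd (bc_law_succ_inl n a) h
    · rfl

include hF in
theorem sum_blk (H : (W → (A → U) ⊕ (B → U)) → ℝ) :
    ∑ s : BlkV levF A B → U, ν (blk s) * H (blk s) = ∑ z, ν z * H z := by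
  refine Finset.sum_of_injOn blk (blk_injective.injOn) (by simp) ?_ (fun _ _ => rfl)
  intro z _ hz
  by_contra h
  have h1 : ν z ≠ 0 := fun h0 => h (by rw [h0, zero_mul])
  obtain ⟨s, hs⟩ := sub_support hF h1
  exact hz ⟨s, by simp, hs⟩

variable (h01 : ∀ e ∈ EF, levF e.1 = 0 → levF e.2 = 1) (hRF : ∀ e ∈ EF, RF e.1 e.2)

include hF h01 hRF in
theorem smarg_ne_zero {s : BlkV levF A B → U} (hs : ν (blk s) ≠ 0) (e : LowE EF levF) :
    smarg μ (s ∘ blkInc e) ≠ 0 := by
  have h := hF.pair_ne_zero hs (hRF e.1 e.2.1)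
  have h1 := h01 e.1 e.2.1 e.2.2.1
  rw [e.2.2.1, h1, blk_zero s ⟨e.1.1, e.2.2.1⟩, blk_pos s ⟨e.1.2, e.2.2.2⟩,
    bc_pair_zero_one] at h
  have h2 : Sum.elim (fun a => s (Sum.inl (⟨e.1.1, e.2.2.1⟩, a)))
      (fun b => s (Sum.inr (⟨e.1.2, e.2.2.2⟩, b))) = s ∘ blkInc e := by
    funext x
    rcases x with x | x <;> rfl
  unfold gadJ at h
  rw [h2] at h
  exact h

include hF h01 hRF in
/-- functions of the blocks -/
theorem sum_subLaw_blk (G : (W → (A → U) ⊕ (B → U)) → ℝ) :
    ∑ z : SubV EF levF A B M → U, subLaw ν μ z * G (blk (z ∘ Sum.inl)) = ∑ z, ν z * G z := by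
  have h := sum_subLaw_aux (EF := EF) (levF := levF) ν μ G fun _ _ => 1
  simp only [Finset.prod_const_one, mul_one] at h
  rw [h, ← sum_blk hF G]
  refine Finset.sum_congr rfl fun s _ => ?_
  by_cases hs : ν (blk s) = 0
  · rw [hs, zero_mul, zero_mul]
  congr 1
  rw [Finset.prod_eq_one, mul_one]
  intro e _
  exact div_self (smarg_ne_zero hF h01 hRF hs e)

include hF h01 hRF in
/-- functions of a copy of the gadget -/
theorem sum_subLaw_gad (e : LowE EF levF) (g : ((A ⊕ B) ⊕ M → U) → ℝ) :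
    ∑ z : SubV EF levF A B M → U, subLaw ν μ z * g (z ∘ subInc e) = ∑ y, μ y * g y := by
  classical
  have h := sum_subLaw_aux (EF := EF) (levF := levF) ν μ (fun _ => 1)
    fun e' y => if e' = e then g y else 1
  have h1 : ∀ z : SubV EF levF A B M → U,
      ∏ e' : LowE EF levF, (if e' = e then g (z ∘ subInc e') else 1) = g (z ∘ subInc e) := by
    intro z
    rw [Finset.prod_ite_eq' Finset.univ e fun e' => g (z ∘ subInc e')]
    simp
  simp only [h1, one_mul] at h
  rw [h]
  -- the factor at `e`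
  set Φ : (A → U) ⊕ (B → U) → (A → U) ⊕ (B → U) → ℝ := fun x y =>
    match x, y with
    | Sum.inl a, Sum.inr b => (∑ m : M → U, μ (Sum.elim (Sum.elim a b) m) *
        g (Sum.elim (Sum.elim a b) m)) / gadJ μ a b
    | _, _ => 0 with hΦ
  have h2 : ∀ s : BlkV levF A B → U, ν (blk s) * ∏ e' : LowE EF levF,
      ((∑ m : M → U, μ (Sum.elim (s ∘ blkInc e') m) *
        (if e' = e then g (Sum.elim (s ∘ blkInc e') m) else 1)) /
        smarg μ (s ∘ blkInc e')) = ν (blk s) * Φ (blk s e.1.1) (blk s e.1.2) := by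
    intro s
    by_cases hs : ν (blk s) = 0
    · rw [hs, zero_mul, zero_mul]
    congr 1
    rw [Finset.prod_eq_single e]
    · rw [blk_zero s ⟨e.1.1, e.2.2.1⟩, blk_pos s ⟨e.1.2, e.2.2.2⟩]
      have h3 : Sum.elim (fun a => s (Sum.inl (⟨e.1.1, e.2.2.1⟩, a)))
          (fun b => s (Sum.inr (⟨e.1.2, e.2.2.2⟩, b))) = s ∘ blkInc e := by
        funext x
        rcases x with x | x <;> rfl
      simp only [hΦ, gadJ, h3, if_true]
    · intro e' _ he'
      simp only [if_neg he', mul_one]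
      exact div_self (smarg_ne_zero hF h01 hRF hs e')
    · intro h3
      exact absurd (mem_univ e) h3
  rw [Finset.sum_congr rfl fun s _ => h2 s, sum_blk hF fun z => Φ (z e.1.1) (z e.1.2)]
  have h3 := hF.tied _ _ (hRF e.1 e.2.1) Φ
  rw [h3, e.2.2.1, h01 e.1 e.2.1 e.2.2.1, Fintype.sum_sum_type]
  have h4 : ∀ b : B → U, ∑ y, (gadChain hD t).pair 0 1 (Sum.inr b) y * Φ (Sum.inr b) y = 0 := by
    intro b
    refine Finset.sum_eq_zero fun y _ => ?_
    simp [hΦ]
  rw [Finset.sum_congr rfl fun b _ => h4 b, Finset.sum_const_zero, add_zero]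
  have h5 : ∀ a : A → U, ∑ y, (gadChain hD t).pair 0 1 (Sum.inl a) y * Φ (Sum.inl a) y =
      ∑ b : B → U, ∑ m : M → U, μ (Sum.elim (Sum.elim a b) m) *
        g (Sum.elim (Sum.elim a b) m) := by
    intro a
    rw [Fintype.sum_sum_type]
    have h6 : ∀ a' : A → U, (gadChain hD t).pair 0 1 (Sum.inl a) (Sum.inl a') *
        Φ (Sum.inl a) (Sum.inl a') = 0 := fun a' => by simp [hΦ]
    rw [Finset.sum_congr rfl fun a' _ => h6 a', Finset.sum_const_zero, zero_add]
    refine Finset.sum_congr rfl fun b _ => ?_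
    rw [bc_pair_zero_one]
    simp only [hΦ]
    by_cases h7 : gadJ μ a b = 0
    · rw [h7, zero_mul]
      symm
      refine Finset.sum_eq_zero fun m _ => ?_
      rw [eq_zero_of_smarg hD.nonneg h7, zero_mul]
    · rw [mul_div_cancel₀ _ h7]
  rw [Finset.sum_congr rfl fun a _ => h5 a, sum_sumArrow, sum_sumArrow]

/-- the levels after substitution -/
def subLev (EF : Finset (W × W)) (levF : W → ℕ) (levD : (A ⊕ B) ⊕ M → ℕ) :
    SubV EF levF A B M → ℕ
  | Sum.inl (Sum.inl p) => levD (Sum.inl (Sum.inl p.2))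
  | Sum.inl (Sum.inr p) => levD (Sum.inl (Sum.inr p.2)) + (levF p.1 - 1)
  | Sum.inr p => levD (Sum.inr p.2)

/-- the tied pairs after substitution -/
def subRel (EF : Finset (W × W)) (levF : W → ℕ) (RF : W → W → Prop)
    (RD : (A ⊕ B) ⊕ M → (A ⊕ B) ⊕ M → Prop) (t : B) (x y : SubV EF levF A B M) : Prop :=
  (∃ (e : LowE EF levF) (p q : (A ⊕ B) ⊕ M), x = subInc e p ∧ y = subInc e q ∧ RD p q) ∨
  (∃ w w' : {w : W // levF w ≠ 0}, x = Sum.inl (Sum.inr (w, t)) ∧
    y = Sum.inl (Sum.inr (w', t)) ∧ RF w w') ∨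
  (∃ (w : {w : W // levF w = 0}) (a : A) (w' : {w : W // levF w ≠ 0}) (b : B),
    x = Sum.inl (Sum.inl (w, a)) ∧ y = Sum.inl (Sum.inr (w', b)) ∧ RF w w' ∧
      RD (Sum.inl (Sum.inl a)) (Sum.inl (Sum.inr b)))

include h01 in
theorem subLev_inc (e : LowE EF levF) (p : (A ⊕ B) ⊕ M) :
    subLev EF levF levD (subInc e p) = levD p := by
  rcases p with (a | b) | m
  · rfl
  · have h : subLev EF levF levD (subInc (M := M) e (Sum.inl (Sum.inr b))) =
      levD (Sum.inl (Sum.inr b)) + (levF e.1.2 - 1) := rfl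
    rw [h, h01 e.1 e.2.1 e.2.2.1]
    rfl
  · rfl

variable (hup : (∀ w, levF w ≤ 1) ∨ ∀ b : B, b = t)

include hF h01 hRF hup in
theorem sub_vertex (x : SubV EF levF A B M) (f : U → ℝ) :
    ∑ z, subLaw ν μ z * f (z x) = ∑ y, C.law (subLev EF levF levD x) y * f y := by
  rcases x with (⟨w, a⟩ | ⟨w, b⟩) | ⟨e, m⟩
  · -- a vertex of a low block
    set G : (W → (A → U) ⊕ (B → U)) → ℝ := fun z => Sum.elim (fun a' => f (a' a)) (fun _ => 0) (z w)
      with hG
    have h1 : ∀ z : SubV EF levF A B M → U, f (z (Sum.inl (Sum.inl (w, a)))) =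
        G (blk (z ∘ Sum.inl)) := by
      intro z
      rw [hG]
      simp only
      rw [blk_zero _ w]
      rfl
    simp_rw [h1]
    rw [sum_subLaw_blk hF h01 hRF G]
    rw [hF.vertex w (Sum.elim (fun a' => f (a' a)) fun _ => 0), w.2, Fintype.sum_sum_type]
    simp only [bc_law_zero_inl, bc_law_zero_inr, zero_mul, Finset.sum_const_zero, add_zero,
      Sum.elim_inl, Finset.sum_mul]
    have h2 := sum_gadJ μ fun s => f (s (Sum.inl a))
    exact h2.trans (hD.vertex (Sum.inl (Sum.inl a)) f)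
  · -- a vertex of a higher block
    set G : (W → (A → U) ⊕ (B → U)) → ℝ := fun z => Sum.elim (fun _ => 0) (fun b' => f (b' b)) (z w)
      with hG
    have h1 : ∀ z : SubV EF levF A B M → U, f (z (Sum.inl (Sum.inr (w, b)))) =
        G (blk (z ∘ Sum.inl)) := by
      intro z
      rw [hG]
      simp only
      rw [blk_pos _ w]
      rfl
    simp_rw [h1]
    obtain ⟨n, hn⟩ := Nat.exists_eq_succ_of_ne_zero w.2
    rw [sum_subLaw_blk hF h01 hRF G]
    rw [hF.vertex w (Sum.elim (fun _ => 0) fun b' => f (b' b)), hn, Fintype.sum_sum_type]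
    simp only [Nat.succ_eq_add_one, bc_law_succ_inl, zero_mul, Finset.sum_const_zero, zero_add,
      Sum.elim_inr]
    have hl : subLev EF levF levD (Sum.inl (Sum.inr (w, b)) : SubV EF levF A B M) =
        levD (Sum.inl (Sum.inr b)) + n := by
      have : subLev EF levF levD (Sum.inl (Sum.inr (w, b)) : SubV EF levF A B M) =
        levD (Sum.inl (Sum.inr b)) + (levF w - 1) := rfl
      rw [this, hn]
      rfl
    rw [hl]
    rcases n with _ | n
    · simp only [zero_add, bc_law_one, Finset.sum_mul, add_zero]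
      rw [Finset.sum_comm]
      have h2 := sum_gadJ μ fun s => f (s (Sum.inr b))
      exact h2.trans (hD.vertex (Sum.inl (Sum.inr b)) f)
    · have hb : b = t := by
        rcases hup with h | h
        · have := h w
          omega
        · exact h b
      subst hb
      exact bc_law (gad_t hD b) (n + 1) f
  · have h2 := sum_subLaw_gad hF h01 hRF e fun y => f (y (Sum.inr m))
    exact h2.trans (hD.vertex (Sum.inr m) f)

include hF h01 hRF hup in
theorem sub_tied (hRl : ∀ w w', RF w w' → levF w < levF w') (hDl : ∀ p q, RD p q → levD p < levD q)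
    (x y : SubV EF levF A B M) (hxy : subRel EF levF RF RD t x y)
    (f : U → U → ℝ) : ∑ z, subLaw ν μ z * f (z x) (z y) =
      ∑ u, ∑ v, C.pair (subLev EF levF levD x) (subLev EF levF levD y) u v * f u v := by
  rcases hxy with ⟨e, p, q, rfl, rfl, hpq⟩ | ⟨w, w', rfl, rfl, hww⟩ |
    ⟨w, a, w', b, rfl, rfl, hww, hab⟩
  · rw [subLev_inc h01, subLev_inc h01, ← hD.tied p q hpq f]
    exact sum_subLaw_gad hF h01 hRF e fun y => f (y p) (y q)
  · set g : (A → U) ⊕ (B → U) → (A → U) ⊕ (B → U) → ℝ := fun x y =>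
      Sum.elim (fun _ => 0) (fun b => Sum.elim (fun _ => 0) (fun b' => f (b t) (b' t)) y) x with hg
    have h1 : ∀ z : SubV EF levF A B M → U, f (z (Sum.inl (Sum.inr (w, t))))
        (z (Sum.inl (Sum.inr (w', t)))) = g (blk (z ∘ Sum.inl) w) (blk (z ∘ Sum.inl) w') := by
      intro z
      rw [blk_pos _ w, blk_pos _ w']
      rfl
    simp_rw [h1]
    rw [sum_subLaw_blk hF h01 hRF fun z => g (z w) (z w'), hF.tied _ _ hww g]
    obtain ⟨n, hn⟩ := Nat.exists_eq_succ_of_ne_zero w.2
    obtain ⟨n', hn'⟩ := Nat.exists_eq_succ_of_ne_zero w'.2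
    have hlt := hRl _ _ hww
    have hl : subLev EF levF levD (Sum.inl (Sum.inr (w, t)) : SubV EF levF A B M) =
        levD (Sum.inl (Sum.inr t)) + n := by
      have : subLev EF levF levD (Sum.inl (Sum.inr (w, t)) : SubV EF levF A B M) =
        levD (Sum.inl (Sum.inr t)) + (levF w - 1) := rfl
      rw [this, hn]
      rfl
    have hl' : subLev EF levF levD (Sum.inl (Sum.inr (w', t)) : SubV EF levF A B M) =
        levD (Sum.inl (Sum.inr t)) + n' := by
      have : subLev EF levF levD (Sum.inl (Sum.inr (w', t)) : SubV EF levF A B M) =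
        levD (Sum.inl (Sum.inr t)) + (levF w' - 1) := rfl
      rw [this, hn']
      rfl
    rw [hl, hl', hn, hn', Fintype.sum_sum_type]
    have h2 : ∀ a : A → U, ∑ y, (gadChain hD t).pair n.succ n'.succ (Sum.inl a) y *
        g (Sum.inl a) y = 0 := by
      intro a
      refine Finset.sum_eq_zero fun y _ => ?_
      simp [hg]
    rw [Finset.sum_congr rfl fun a _ => h2 a, Finset.sum_const_zero, zero_add]
    rw [← bc_pair (gad_t hD t) (by omega : n ≤ n') f]
    refine Finset.sum_congr rfl fun b _ => ?_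
    rw [Fintype.sum_sum_type]
    have h3 : ∀ a' : A → U, (gadChain hD t).pair n.succ n'.succ (Sum.inr b) (Sum.inl a') *
        g (Sum.inr b) (Sum.inl a') = 0 := fun a' => by simp [hg]
    rw [Finset.sum_congr rfl fun a _ => h3 a, Finset.sum_const_zero, zero_add]
    rfl
  · set g : (A → U) ⊕ (B → U) → (A → U) ⊕ (B → U) → ℝ := fun x y =>
      Sum.elim (fun a' => Sum.elim (fun _ => 0) (fun b' => f (a' a) (b' b)) y) (fun _ => 0) x
      with hg
    have h1 : ∀ z : SubV EF levF A B M → U, f (z (Sum.inl (Sum.inl (w, a))))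
        (z (Sum.inl (Sum.inr (w', b)))) = g (blk (z ∘ Sum.inl) w) (blk (z ∘ Sum.inl) w') := by
      intro z
      rw [blk_zero _ w, blk_pos _ w']
      rfl
    simp_rw [h1]
    rw [sum_subLaw_blk hF h01 hRF fun z => g (z w) (z w'), hF.tied _ _ hww g]
    obtain ⟨n, hn⟩ := Nat.exists_eq_succ_of_ne_zero w'.2
    have hl : subLev EF levF levD (Sum.inl (Sum.inl (w, a)) : SubV EF levF A B M) =
        levD (Sum.inl (Sum.inl a)) := rfl
    have hl' : subLev EF levF levD (Sum.inl (Sum.inr (w', b)) : SubV EF levF A B M) =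
        levD (Sum.inl (Sum.inr b)) + n := by
      have : subLev EF levF levD (Sum.inl (Sum.inr (w', b)) : SubV EF levF A B M) =
        levD (Sum.inl (Sum.inr b)) + (levF w' - 1) := rfl
      rw [this, hn]
      rfl
    rw [hl, hl', w.2, hn, Fintype.sum_sum_type]
    have h2 : ∀ b' : B → U, ∑ y, (gadChain hD t).pair 0 n.succ (Sum.inr b') y *
        g (Sum.inr b') y = 0 := by
      intro a
      refine Finset.sum_eq_zero fun y _ => ?_
      simp [hg]
    rw [Finset.sum_congr rfl fun b' _ => h2 b', Finset.sum_const_zero, add_zero]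
    have h4 : ∑ a', ∑ y, (gadChain hD t).pair 0 n.succ (Sum.inl a') y * g (Sum.inl a') y =
        ∑ a', ∑ b', (gadChain hD t).pair 0 (n + 1) (Sum.inl a') (Sum.inr b') *
          f (a' a) (b' b) := by
      refine Finset.sum_congr rfl fun a' _ => ?_
      rw [Fintype.sum_sum_type]
      have h3 : ∀ a'' : A → U, (gadChain hD t).pair 0 n.succ (Sum.inl a') (Sum.inl a'') *
          g (Sum.inl a') (Sum.inl a'') = 0 := fun a' => by simp [hg]
      rw [Finset.sum_congr rfl fun a _ => h3 a, Finset.sum_const_zero, zero_add]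
      rfl
    rw [h4]
    rcases n with _ | n
    · simp only [zero_add, bc_pair_zero_one, add_zero]
      have h2 := sum_gadJ μ fun s => f (s (Sum.inl a)) (s (Sum.inr b))
      exact h2.trans (hD.tied _ _ hab f)
    · have hb : b = t := by
        rcases hup with h | h
        · have := h w'
          omega
        · exact h b
      subst hb
      rw [bc_pair_zero (n + 1) fun a' y => f (a' a) y]
      have h5 := sum_gadJ μ fun s => ∑ y, C.ker (levD (Sum.inl (Sum.inr b))) (n + 1)
        (s (Sum.inr b)) y * f (s (Sum.inl a)) y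
      refine h5.trans ?_
      have h6 := hD.tied _ _ hab fun u v => ∑ y, C.ker (levD (Sum.inl (Sum.inr b))) (n + 1) v y *
        f u y
      refine h6.trans ?_
      refine Finset.sum_congr rfl fun u _ => ?_
      have hlt := hDl _ _ hab
      have h7 : ∀ y, C.pair (levD (Sum.inl (Sum.inl a))) (levD (Sum.inl (Sum.inr b)) + (n + 1)) u y
          = ∑ v, C.pair (levD (Sum.inl (Sum.inl a))) (levD (Sum.inl (Sum.inr b))) u v *
            C.ker (levD (Sum.inl (Sum.inr b))) (n + 1) v y := by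
        intro y
        unfold Chain.pair
        rw [show levD (Sum.inl (Sum.inr b)) + (n + 1) - levD (Sum.inl (Sum.inl a)) =
          (levD (Sum.inl (Sum.inr b)) - levD (Sum.inl (Sum.inl a))) + (n + 1) by omega,
          C.ker_add, Finset.mul_sum]
        refine Finset.sum_congr rfl fun v _ => ?_
        rw [Nat.add_sub_cancel' hlt.le]
        ring
      simp_rw [h7, Finset.sum_mul, Finset.mul_sum]
      rw [Finset.sum_comm]
      exact Finset.sum_congr rfl fun y _ => Finset.sum_congr rfl fun v _ => by ring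

end main

end Vale.Agent.P050.Lev
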