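import Vale.Agent.P050.Lev.Subst

/-!
Substitution of a gadget into a levelled graph: the total correlation.
-/

set_option linter.unusedSectionVars false

namespace Vale.Agent.P050.Lev

open Finset

section main

variable {W A B M U : Type} [Fintype W] [DecidableEq W] [Fintype A] [DecidableEq A] [Fintype B]
  [DecidableEq B] [Fintype M] [DecidableEq M] [Fintype U]
  {EF : Finset (W × W)} {RF : W → W → Prop} {levF : W → ℕ}
  {ED : Finset (((A ⊕ B) ⊕ M) × ((A ⊕ B) ⊕ M))} {RD : (A ⊕ B) ⊕ M → (A ⊕ B) ⊕ M → Prop}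
  {levD : (A ⊕ B) ⊕ M → ℕ}
  {C : Chain U} {μ : ((A ⊕ B) ⊕ M → U) → ℝ} (hD : Coupling ED RD levD C μ) (t : B)

/-- the total correlation of the block `A` -/
noncomputable def totA (levD : (A ⊕ B) ⊕ M → ℕ) (C : Chain U) (μ : ((A ⊕ B) ⊕ M → U) → ℝ) : ℝ :=
  corr (fun a => levD (Sum.inl (Sum.inl a))) C (fun a => ∑ b, gadJ μ a b)

/-- the total correlation of the block `B` -/
noncomputable def totB (levD : (A ⊕ B) ⊕ M → ℕ) (C : Chain U) (μ : ((A ⊕ B) ⊕ M → U) → ℝ) : ℝ :=
  corr (fun b => levD (Sum.inl (Sum.inr b))) C (fun b => ∑ a, gadJ μ a b)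

/-- the total correlation of both blocks -/
noncomputable def totAB (levD : (A ⊕ B) ⊕ M → ℕ) (C : Chain U) (μ : ((A ⊕ B) ⊕ M → U) → ℝ) : ℝ :=
  corr (fun p => levD (Sum.inl p)) C (smarg μ)

theorem totAB_eq : totAB levD C μ = ∑ a, ∑ b, gadJ μ a b * (Real.log (gadJ μ a b) -
    ∑ a', Real.log (C.law (levD (Sum.inl (Sum.inl a'))) (a a')) -
    ∑ b', Real.log (C.law (levD (Sum.inl (Sum.inr b'))) (b b'))) := by
  unfold totAB corr
  rw [sum_sumArrow]
  refine Finset.sum_congr rfl fun a _ => Finset.sum_congr rfl fun b _ => ?_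
  rw [Fintype.sum_sum_type]
  simp only [Sum.elim_inl, Sum.elim_inr, gadJ]
  ring

theorem info_gadChain : (gadChain hD t).info 0 1 =
    totAB levD C μ - totA levD C μ - totB levD C μ := by
  rw [bc_info_zero_one, totAB_eq]
  unfold totA totB corr
  have h1 : ∀ b : B → U, (∑ a, gadJ μ a b) * (Real.log (∑ a, gadJ μ a b) -
      ∑ b', Real.log (C.law (levD (Sum.inl (Sum.inr b'))) (b b'))) =
      ∑ a, gadJ μ a b * (Real.log (∑ a, gadJ μ a b) -
      ∑ b', Real.log (C.law (levD (Sum.inl (Sum.inr b'))) (b b'))) := fun b => by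
    rw [Finset.sum_mul]
  have h2 : ∀ a : A → U, (∑ b, gadJ μ a b) * (Real.log (∑ b, gadJ μ a b) -
      ∑ a', Real.log (C.law (levD (Sum.inl (Sum.inl a'))) (a a'))) =
      ∑ b, gadJ μ a b * (Real.log (∑ b, gadJ μ a b) -
      ∑ a', Real.log (C.law (levD (Sum.inl (Sum.inl a'))) (a a'))) := fun a => by
    rw [Finset.sum_mul]
  simp_rw [h1, h2]
  rw [Finset.sum_comm (f := fun (b : B → U) (a : A → U) => gadJ μ a b *
    (Real.log (∑ a, gadJ μ a b) - ∑ b', Real.log (C.law (levD (Sum.inl (Sum.inr b'))) (b b')))),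
    ← Finset.sum_sub_distrib, ← Finset.sum_sub_distrib]
  refine Finset.sum_congr rfl fun a _ => ?_
  rw [← Finset.sum_sub_distrib, ← Finset.sum_sub_distrib]
  refine Finset.sum_congr rfl fun b _ => ?_
  ring

/-- the total correlation of a copy of the gadget given its blocks -/
theorem sum_gad_rest : ∑ y, μ y * (Real.log (μ y) - Real.log (smarg μ (y ∘ Sum.inl)) -
    ∑ m, Real.log (C.law (levD (Sum.inr m)) (y (Sum.inr m)))) =
      corr levD C μ - totAB levD C μ := by
  have h1 : totAB levD C μ = ∑ y, μ y * (Real.log (smarg μ (y ∘ Sum.inl)) -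
      ∑ p, Real.log (C.law (levD (Sum.inl p)) (y (Sum.inl p)))) := by
    unfold totAB corr
    exact (sum_smarg μ fun s => Real.log (smarg μ s) -
      ∑ p, Real.log (C.law (levD (Sum.inl p)) (s p))).symm
  rw [h1]
  unfold corr
  rw [← Finset.sum_sub_distrib]
  refine Finset.sum_congr rfl fun y _ => ?_
  rw [Fintype.sum_sum_type (fun x => Real.log (C.law (levD x) (y x)))]
  ring

/-- the logarithm of the product of the vertex laws in a block -/
noncomputable def blkLog (levF : W → ℕ) (levD : (A ⊕ B) ⊕ M → ℕ) (C : Chain U) (w : W) :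
    (A → U) ⊕ (B → U) → ℝ :=
  Sum.elim (fun a => ∑ a', Real.log (C.law (levD (Sum.inl (Sum.inl a'))) (a a')))
    (fun b => ∑ b', Real.log (C.law (levD (Sum.inl (Sum.inr b')) + (levF w - 1)) (b b')))

/-- the cost of a block -/
noncomputable def blkCost (levF : W → ℕ) (levD : (A ⊕ B) ⊕ M → ℕ) (C : Chain U)
    (μ : ((A ⊕ B) ⊕ M → U) → ℝ) (w : W) : ℝ :=
  if levF w = 0 then totA levD C μ else if levF w = 1 then totB levD C μ else 0

variable {hD t} (hup : (∀ w, levF w ≤ 1) ∨ ∀ b : B, b = t)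

include hup in
theorem sum_blkCost (w : W) : ∑ x, (gadChain hD t).law (levF w) x *
    (Real.log ((gadChain hD t).law (levF w) x) - blkLog levF levD C w x) =
      blkCost levF levD C μ w := by
  unfold blkCost
  rw [Fintype.sum_sum_type]
  rcases h : levF w with _ | n
  · simp only [bc_law_zero_inl, bc_law_zero_inr, zero_mul, Finset.sum_const_zero, add_zero,
      if_true]
    rfl
  · simp only [bc_law_succ_inl, zero_mul, Finset.sum_const_zero, zero_add, blkLog, Sum.elim_inr]
    rw [if_neg (by omega), h]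
    rcases n with _ | n
    · simp only [zero_add, bc_law_one, if_true, Nat.sub_self, add_zero]
      rfl
    · rw [if_neg (by omega)]
      have hb : ∀ b : B, b = t := by
        rcases hup with h1 | h1
        · have := h1 w
          omega
        · exact h1
      refine Finset.sum_eq_zero fun b _ => ?_
      rw [bc_law_single hb (gad_t hD t)]
      have h3 : ∑ b', Real.log (C.law (levD (Sum.inl (Sum.inr b')) + (n + 1 + 1 - 1)) (b b')) =
          Real.log (C.law (levD (Sum.inl (Sum.inr t)) + (n + 1)) (b t)) := by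
        rw [Finset.sum_eq_single t]
        · rfl
        · intro b' _ hb'
          exact absurd (hb b') hb'
        · intro h4
          exact absurd (mem_univ _) h4
      rw [h3, sub_self, mul_zero]

variable {ν : (W → (A → U) ⊕ (B → U)) → ℝ}
  (hF : Coupling EF RF levF (gadChain hD t) ν)
  (h01 : ∀ e ∈ EF, levF e.1 = 0 → levF e.2 = 1) (hRF : ∀ e ∈ EF, RF e.1 e.2)

include hF h01 hRF hup in
theorem corr_subLaw : corr (subLev EF levF levD) C (subLaw (EF := EF) (levF := levF) ν μ) =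
    corr levF (gadChain hD t) ν + ∑ w, blkCost levF levD C μ w +
      (Fintype.card (LowE EF levF) : ℝ) * (corr levD C μ - totAB levD C μ) := by
  -- pointwise
  have hpt : ∀ z : SubV EF levF A B M → U, subLaw ν μ z * (Real.log (subLaw ν μ z) -
      ∑ x, Real.log (C.law (subLev EF levF levD x) (z x))) =
      subLaw ν μ z * (Real.log (ν (blk (z ∘ Sum.inl))) -
        ∑ w, blkLog levF levD C w (blk (z ∘ Sum.inl) w)) +
      ∑ e : LowE EF levF, subLaw ν μ z * (Real.log (μ (z ∘ subInc e)) -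
        Real.log (smarg μ ((z ∘ subInc e) ∘ Sum.inl)) -
        ∑ m, Real.log (C.law (levD (Sum.inr m)) ((z ∘ subInc e) (Sum.inr m)))) := by
    intro z
    have h1 : ∑ x, Real.log (C.law (subLev EF levF levD x) (z x)) =
        ∑ w, blkLog levF levD C w (blk (z ∘ Sum.inl) w) +
        ∑ e : LowE EF levF, ∑ m, Real.log (C.law (levD (Sum.inr m))
          ((z ∘ subInc (A := A) (B := B) e) (Sum.inr m))) := by
      rw [Fintype.sum_sum_type, Fintype.sum_sum_type]
      congr 1
      · rw [← Fintype.sum_subtype_add_sum_subtype (fun w => levF w = 0)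
          (fun w => blkLog levF levD C w (blk (z ∘ Sum.inl) w))]
        congr 1
        · rw [Fintype.sum_prod_type]
          refine Finset.sum_congr rfl fun w _ => ?_
          rw [blk_zero _ w]
          rfl
        · rw [Fintype.sum_prod_type]
          refine Finset.sum_congr rfl fun w _ => ?_
          rw [blk_pos _ w]
          rfl
      · rw [Fintype.sum_prod_type]
        rfl
    rw [mul_sub, mul_log_subLaw, h1, ← Finset.mul_sum]
    simp only [Finset.sum_sub_distrib]
    ring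
  unfold corr
  rw [Finset.sum_congr rfl fun z _ => hpt z, Finset.sum_add_distrib]
  congr 1
  · rw [sum_subLaw_blk hF h01 hRF fun z => Real.log (ν z) - ∑ w, blkLog levF levD C w (z w)]
    have h1 : ∑ z, ν z * (Real.log (ν z) - ∑ w, blkLog levF levD C w (z w)) =
        ∑ z, ν z * (Real.log (ν z) - ∑ w, Real.log ((gadChain hD t).law (levF w) (z w))) +
        ∑ w, ∑ z, ν z * (Real.log ((gadChain hD t).law (levF w) (z w)) -
          blkLog levF levD C w (z w)) := by
      rw [Finset.sum_comm, ← Finset.sum_add_distrib]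
      refine Finset.sum_congr rfl fun z _ => ?_
      rw [← Finset.mul_sum, Finset.sum_sub_distrib]
      ring
    rw [h1]
    congr 1
    refine Finset.sum_congr rfl fun w _ => ?_
    rw [hF.vertex w fun x => Real.log ((gadChain hD t).law (levF w) x) -
      blkLog levF levD C w x]
    exact sum_blkCost hup w
  · rw [Finset.sum_comm]
    have h1 : ∀ e : LowE EF levF, ∑ z : SubV EF levF A B M → U, subLaw ν μ z *
        (Real.log (μ (z ∘ subInc e)) - Real.log (smarg μ ((z ∘ subInc e) ∘ Sum.inl)) -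
        ∑ m, Real.log (C.law (levD (Sum.inr m)) ((z ∘ subInc e) (Sum.inr m)))) =
        corr levD C μ - totAB levD C μ := by
      intro e
      rw [← sum_gad_rest]
      exact sum_subLaw_gad hF h01 hRF e fun y => Real.log (μ y) -
        Real.log (smarg μ (y ∘ Sum.inl)) - ∑ m, Real.log (C.law (levD (Sum.inr m)) (y (Sum.inr m)))
    rw [Finset.sum_congr rfl fun e _ => h1 e, Finset.sum_const, Finset.card_univ, nsmul_eq_mul]
    rfl

end main

section forest

variable {A B M U : Type} [Fintype A] [DecidableEq A] [Fintype B]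
  [DecidableEq B] [Fintype M] [DecidableEq M] [Fintype U]
  {ED : Finset (((A ⊕ B) ⊕ M) × ((A ⊕ B) ⊕ M))} {RD : (A ⊕ B) ⊕ M → (A ⊕ B) ⊕ M → Prop}
  {levD : (A ⊕ B) ⊕ M → ℕ}
  {C : Chain U} {μ : ((A ⊕ B) ⊕ M → U) → ℝ} (hD : Coupling ED RD levD C μ)

/-- the edges inside the block `A` -/
def inA (ED : Finset (((A ⊕ B) ⊕ M) × ((A ⊕ B) ⊕ M))) : Finset (A × A) :=
  univ.filter fun e => (Sum.inl (Sum.inl e.1), Sum.inl (Sum.inl e.2)) ∈ ED

/-- the edges inside the block `B` -/
def inB (ED : Finset (((A ⊕ B) ⊕ M) × ((A ⊕ B) ⊕ M))) : Finset (B × B) :=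
  univ.filter fun e => (Sum.inl (Sum.inr e.1), Sum.inl (Sum.inr e.2)) ∈ ED

/-- both ends in `A` -/
def bothA (e : ((A ⊕ B) ⊕ M) × ((A ⊕ B) ⊕ M)) : Prop :=
  ∃ a a', e = (Sum.inl (Sum.inl a), Sum.inl (Sum.inl a'))

/-- both ends in `B` -/
def bothB (e : ((A ⊕ B) ⊕ M) × ((A ⊕ B) ⊕ M)) : Prop :=
  ∃ b b', e = (Sum.inl (Sum.inr b), Sum.inl (Sum.inr b'))

open Classical in
/-- the other edges -/
noncomputable def restE (ED : Finset (((A ⊕ B) ⊕ M) × ((A ⊕ B) ⊕ M))) :
    Finset (((A ⊕ B) ⊕ M) × ((A ⊕ B) ⊕ M)) :=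
  ED.filter fun e => ¬ bothA e ∧ ¬ bothB e

theorem sum_ED (f : ((A ⊕ B) ⊕ M) × ((A ⊕ B) ⊕ M) → ℝ) : ∑ e ∈ ED, f e =
    ∑ e ∈ inA ED, f (Sum.inl (Sum.inl e.1), Sum.inl (Sum.inl e.2)) +
    ∑ e ∈ inB ED, f (Sum.inl (Sum.inr e.1), Sum.inl (Sum.inr e.2)) +
    ∑ e ∈ restE ED, f e := by
  classical
  have hA : ∑ e ∈ inA ED, f (Sum.inl (Sum.inl e.1), Sum.inl (Sum.inl e.2)) =
      ∑ e ∈ ED.filter (fun e => bothA e), f e := by
    refine Finset.sum_bij (fun e _ => (Sum.inl (Sum.inl e.1), Sum.inl (Sum.inl e.2)))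
      ?_ ?_ ?_ ?_
    · intro e he
      rw [inA, Finset.mem_filter] at he
      exact Finset.mem_filter.2 ⟨he.2, e.1, e.2, rfl⟩
    · rintro ⟨a, b⟩ _ ⟨c, d⟩ _ h
      simp only [Prod.mk.injEq, Sum.inl.injEq] at h
      exact Prod.ext h.1 h.2
    · intro e he
      obtain ⟨h1, a, a', rfl⟩ := Finset.mem_filter.1 he
      exact ⟨(a, a'), Finset.mem_filter.2 ⟨mem_univ _, h1⟩, rfl⟩
    · intro e _; rfl
  have hB : ∑ e ∈ inB ED, f (Sum.inl (Sum.inr e.1), Sum.inl (Sum.inr e.2)) =
      ∑ e ∈ (ED.filter (fun e => ¬ bothA e)).filter (fun e => bothB e), f e := by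
    refine Finset.sum_bij (fun e _ => (Sum.inl (Sum.inr e.1), Sum.inl (Sum.inr e.2)))
      ?_ ?_ ?_ ?_
    · intro e he
      rw [inB, Finset.mem_filter] at he
      refine Finset.mem_filter.2 ⟨Finset.mem_filter.2 ⟨he.2, ?_⟩, e.1, e.2, rfl⟩
      rintro ⟨a, a', h⟩
      simp at h
    · rintro ⟨a, b⟩ _ ⟨c, d⟩ _ h
      simp only [Prod.mk.injEq, Sum.inl.injEq, Sum.inr.injEq] at h
      exact Prod.ext h.1 h.2
    · intro e he
      obtain ⟨h1, a, a', rfl⟩ := Finset.mem_filter.1 he
      exact ⟨(a, a'), Finset.mem_filter.2 ⟨mem_univ _, (Finset.mem_filter.1 h1).1⟩, rfl⟩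
    · intro e _; rfl
  have hR : restE ED = (ED.filter (fun e => ¬ bothA e)).filter (fun e => ¬ bothB e) := by
    rw [restE, Finset.filter_filter]
  rw [hA, hB, hR, add_assoc, Finset.sum_filter_add_sum_filter_not,
    Finset.sum_filter_add_sum_filter_not]

include hD in
theorem totA_ge (hER : ∀ e ∈ ED, RD e.1 e.2) (hDl : ∀ p q, RD p q → levD p < levD q)
    (hin : ∀ a a' c : A, (Sum.inl (Sum.inl a), Sum.inl (Sum.inl c)) ∈ ED →
      (Sum.inl (Sum.inl a'), Sum.inl (Sum.inl c)) ∈ ED → a = a') :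
    ∑ e ∈ inA ED, C.info (levD (Sum.inl (Sum.inl e.1))) (levD (Sum.inl (Sum.inl e.2))) ≤
      totA levD C μ := by
  refine info_forest_le (lev := fun a => levD (Sum.inl (Sum.inl a))) ?_ ?_ ?_ ?_ ?_ ?_
  · exact fun a => Finset.sum_nonneg fun b _ => gadJ_nonneg hD.nonneg a b
  · exact gadJ_total hD.total
  · intro v f
    simp only [Finset.sum_mul]
    have h := sum_gadJ μ fun s => f (s (Sum.inl v))
    exact h.trans (hD.vertex _ f)
  · intro e he f
    simp only [Finset.sum_mul]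
    rw [inA, Finset.mem_filter] at he
    have h := sum_gadJ μ fun s => f (s (Sum.inl e.1)) (s (Sum.inl e.2))
    exact h.trans (hD.tied _ _ (hER _ he.2) f)
  · intro e he
    rw [inA, Finset.mem_filter] at he
    exact hDl _ _ (hER _ he.2)
  · rintro ⟨a, c⟩ he ⟨a', c'⟩ he' h
    simp only at h
    subst h
    rw [inA, Finset.mem_filter] at he he'
    rw [hin a a' c he.2 he'.2]

include hD in
theorem totB_ge (hER : ∀ e ∈ ED, RD e.1 e.2) (hDl : ∀ p q, RD p q → levD p < levD q)
    (hin : ∀ b b' c : B, (Sum.inl (Sum.inr b), Sum.inl (Sum.inr c)) ∈ ED →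
      (Sum.inl (Sum.inr b'), Sum.inl (Sum.inr c)) ∈ ED → b = b') :
    ∑ e ∈ inB ED, C.info (levD (Sum.inl (Sum.inr e.1))) (levD (Sum.inl (Sum.inr e.2))) ≤
      totB levD C μ := by
  refine info_forest_le (lev := fun b => levD (Sum.inl (Sum.inr b))) ?_ ?_ ?_ ?_ ?_ ?_
  · exact fun b => Finset.sum_nonneg fun a _ => gadJ_nonneg hD.nonneg a b
  · rw [Finset.sum_comm]
    exact gadJ_total hD.total
  · intro v f
    simp only [Finset.sum_mul]
    rw [Finset.sum_comm]
    have h := sum_gadJ μ fun s => f (s (Sum.inr v))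
    exact h.trans (hD.vertex _ f)
  · intro e he f
    simp only [Finset.sum_mul]
    rw [Finset.sum_comm]
    rw [inB, Finset.mem_filter] at he
    have h := sum_gadJ μ fun s => f (s (Sum.inr e.1)) (s (Sum.inr e.2))
    exact h.trans (hD.tied _ _ (hER _ he.2) f)
  · intro e he
    rw [inB, Finset.mem_filter] at he
    exact hDl _ _ (hER _ he.2)
  · rintro ⟨a, c⟩ he ⟨a', c'⟩ he' h
    simp only at h
    subst h
    rw [inB, Finset.mem_filter] at he he'
    rw [hin a a' c he.2 he'.2]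

end forest

end Vale.Agent.P050.Lev
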