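import Vale.Agent.P050.Lev.SubstCorr

/-!
**Substitution rule.** In a good levelled graph the vertices of level `0` are replaced by copies
of a block `A`, the vertices of level `1` by copies of a block `B`, and the edges between them by
copies of a good levelled graph on `A ⊔ B ⊔ M`.
-/

set_option linter.unusedSectionVars false

namespace Vale.Agent.P050.Lev

open Finset

section main

variable {W A B M U : Type} [Fintype W] [DecidableEq W] [Fintype A] [DecidableEq A] [Fintype B]
  [DecidableEq B] [Fintype M] [DecidableEq M] [Fintype U]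
  {EF : Finset (W × W)} {RF : W → W → Prop} {levF : W → ℕ}
  {ED : Finset (((A ⊕ B) ⊕ M) × ((A ⊕ B) ⊕ M))} {RD : (A ⊕ B) ⊕ M → (A ⊕ B) ⊕ M → Prop}
  {levD : (A ⊕ B) ⊕ M → ℕ}

open Classical in
/-- the edges after substitution -/
noncomputable def subEdges (EF : Finset (W × W)) (levF : W → ℕ)
    (ED : Finset (((A ⊕ B) ⊕ M) × ((A ⊕ B) ⊕ M))) (t : B) :
    Finset (SubV EF levF A B M × SubV EF levF A B M) :=
  univ.filter fun x => (∃ (e : LowE EF levF) (p q : (A ⊕ B) ⊕ M),
    x.1 = subInc e p ∧ x.2 = subInc e q ∧ (p, q) ∈ ED) ∨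
    ∃ w w' : {w : W // levF w ≠ 0}, x.1 = Sum.inl (Sum.inr (w, t)) ∧
      x.2 = Sum.inl (Sum.inr (w', t)) ∧ (w.1, w'.1) ∈ EF

theorem mem_subEdges {t : B} {x y : SubV EF levF A B M} : (x, y) ∈ subEdges EF levF ED t ↔
    (∃ (e : LowE EF levF) (p q : (A ⊕ B) ⊕ M),
      x = subInc e p ∧ y = subInc e q ∧ (p, q) ∈ ED) ∨
    ∃ w w' : {w : W // levF w ≠ 0}, x = Sum.inl (Sum.inr (w, t)) ∧
      y = Sum.inl (Sum.inr (w', t)) ∧ (w.1, w'.1) ∈ EF := by
  classical
  rw [subEdges, Finset.mem_filter]
  exact and_iff_right (mem_univ _)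

/-- the edges above level `0` -/
abbrev HighE (EF : Finset (W × W)) (levF : W → ℕ) : Type :=
  {e : W × W // e ∈ EF ∧ levF e.1 ≠ 0 ∧ levF e.2 ≠ 0}

/-- an index set for the edges after substitution -/
abbrev EdgeI (EF : Finset (W × W)) (levF : W → ℕ)
    (ED : Finset (((A ⊕ B) ⊕ M) × ((A ⊕ B) ⊕ M))) : Type :=
  (({w : W // levF w = 0} × {e : A × A // e ∈ inA ED}) ⊕
    ({w : W // levF w = 1} × {e : B × B // e ∈ inB ED})) ⊕
  ((LowE EF levF × {e : ((A ⊕ B) ⊕ M) × ((A ⊕ B) ⊕ M) // e ∈ restE ED}) ⊕ HighE EF levF)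

/-- the edge with a given index -/
def edgeOf (EF : Finset (W × W)) (levF : W → ℕ)
    (ED : Finset (((A ⊕ B) ⊕ M) × ((A ⊕ B) ⊕ M))) (t : B) :
    EdgeI EF levF ED → SubV EF levF A B M × SubV EF levF A B M
  | Sum.inl (Sum.inl (w, e)) => (Sum.inl (Sum.inl (w, e.1.1)), Sum.inl (Sum.inl (w, e.1.2)))
  | Sum.inl (Sum.inr (w, e)) => (Sum.inl (Sum.inr (⟨w.1, by rw [w.2]; norm_num⟩, e.1.1)),
      Sum.inl (Sum.inr (⟨w.1, by rw [w.2]; norm_num⟩, e.1.2)))
  | Sum.inr (Sum.inl (e, p)) => (subInc e p.1.1, subInc e p.1.2)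
  | Sum.inr (Sum.inr e) => (Sum.inl (Sum.inr (⟨e.1.1, e.2.2.1⟩, t)),
      Sum.inl (Sum.inr (⟨e.1.2, e.2.2.2⟩, t)))

theorem mem_restE {e : ((A ⊕ B) ⊕ M) × ((A ⊕ B) ⊕ M)} :
    e ∈ restE ED ↔ e ∈ ED ∧ ¬ bothA e ∧ ¬ bothB e := by
  classical
  rw [restE, Finset.mem_filter]

theorem subInc_injective (e : LowE EF levF) :
    Function.Injective (subInc (A := A) (B := B) (M := M) e) := by
  intro p q h
  rcases p with (p | p) | p <;> rcases q with (q | q) | q <;>
    simp_all [subInc, blkInc]

theorem restE_edge_eq {e e' : LowE EF levF} {p q p' q' : (A ⊕ B) ⊕ M}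
    (hr : (p, q) ∈ restE ED) (h1 : subInc e p = subInc e' p') (h2 : subInc e q = subInc e' q') :
    e = e' := by
  obtain ⟨-, hA, hB⟩ := mem_restE.1 hr
  rcases p with (p | p) | p
  · rcases p' with (p' | p') | p'
    · rcases q with (q | q) | q
      · exact absurd ⟨p, q, rfl⟩ hA
      · rcases q' with (q' | q') | q'
        · simp [subInc, blkInc] at h2
        · have e1 : e.1.1 = e'.1.1 := by
            have := Sum.inl.inj (Sum.inl.inj h1)
            exact congrArg (fun x => (x.1 : W)) this
          have e2 : e.1.2 = e'.1.2 := by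
            have := Sum.inr.inj (Sum.inl.inj h2)
            exact congrArg (fun x => (x.1 : W)) this
          exact Subtype.ext (Prod.ext e1 e2)
        · simp [subInc, blkInc] at h2
      · rcases q' with (q' | q') | q'
        · simp [subInc, blkInc] at h2
        · simp [subInc, blkInc] at h2
        · exact congrArg Prod.fst (Sum.inr.inj h2)
    · simp [subInc, blkInc] at h1
    · simp [subInc, blkInc] at h1
  · rcases p' with (p' | p') | p'
    · simp [subInc, blkInc] at h1
    · rcases q with (q | q) | q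
      · rcases q' with (q' | q') | q'
        · have e1 : e.1.1 = e'.1.1 := by
            have := Sum.inl.inj (Sum.inl.inj h2)
            exact congrArg (fun x => (x.1 : W)) this
          have e2 : e.1.2 = e'.1.2 := by
            have := Sum.inr.inj (Sum.inl.inj h1)
            exact congrArg (fun x => (x.1 : W)) this
          exact Subtype.ext (Prod.ext e1 e2)
        · simp [subInc, blkInc] at h2
        · simp [subInc, blkInc] at h2
      · exact absurd ⟨p, q, rfl⟩ hB
      · rcases q' with (q' | q') | q'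
        · simp [subInc, blkInc] at h2
        · simp [subInc, blkInc] at h2
        · exact congrArg Prod.fst (Sum.inr.inj h2)
    · simp [subInc, blkInc] at h1
  · rcases p' with (p' | p') | p'
    · simp [subInc, blkInc] at h1
    · simp [subInc, blkInc] at h1
    · exact congrArg Prod.fst (Sum.inr.inj h1)

theorem edgeOf_injective (t : B) (hlt : ∀ e ∈ EF, levF e.1 ≠ levF e.2) :
    Function.Injective (edgeOf EF levF ED t) := by
  intro i j h
  rcases i with (⟨w, e⟩ | ⟨w, e⟩) | (⟨e, ⟨⟨p, q⟩, hpq⟩⟩ | e)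
  · rcases j with (⟨w', e'⟩ | ⟨w', e'⟩) | (⟨e', ⟨⟨p', q'⟩, hpq'⟩⟩ | e')
    · simp only [edgeOf, Prod.mk.injEq, Sum.inl.injEq] at h
      obtain ⟨⟨h1, h2⟩, -, h3⟩ := h
      rw [h1, Subtype.ext (Prod.ext h2 h3)]
    · simp [edgeOf] at h
    · obtain ⟨-, hA, -⟩ := mem_restE.1 hpq'
      simp only [edgeOf, Prod.mk.injEq] at h
      rcases p' with (p' | p') | p' <;> rcases q' with (q' | q') | q'
      · exact absurd ⟨p', q', rfl⟩ hA
      all_goals simp [subInc, blkInc] at h
    · simp [edgeOf] at h
  · rcases j with (⟨w', e'⟩ | ⟨w', e'⟩) | (⟨e', ⟨⟨p', q'⟩, hpq'⟩⟩ | e')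
    · simp [edgeOf] at h
    · simp only [edgeOf, Prod.mk.injEq, Sum.inl.injEq, Sum.inr.injEq] at h
      obtain ⟨⟨h1, h2⟩, -, h3⟩ := h
      have h4 : w = w' := Subtype.ext (congrArg (fun x => (x.1 : W)) h1)
      rw [h4, Subtype.ext (Prod.ext h2 h3)]
    · obtain ⟨-, -, hB⟩ := mem_restE.1 hpq'
      simp only [edgeOf, Prod.mk.injEq] at h
      rcases p' with (p' | p') | p' <;> rcases q' with (q' | q') | q'
      · simp [subInc, blkInc] at h
      · simp [subInc, blkInc] at h
      · simp [subInc, blkInc] at h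
      · simp [subInc, blkInc] at h
      · exact absurd ⟨p', q', rfl⟩ hB
      all_goals simp [subInc, blkInc] at h
    · simp only [edgeOf, Prod.mk.injEq, Sum.inl.injEq, Sum.inr.injEq] at h
      obtain ⟨⟨h1, -⟩, h2, -⟩ := h
      have e1 : w.1 = e'.1.1 := congrArg (fun x => (x.1 : W)) h1
      have e2 : w.1 = e'.1.2 := congrArg (fun x => (x.1 : W)) h2
      exact absurd (by rw [← e1, ← e2]) (hlt e'.1 e'.2.1)
  · rcases j with (⟨w', e'⟩ | ⟨w', e'⟩) | (⟨e', ⟨⟨p', q'⟩, hpq'⟩⟩ | e')
    · obtain ⟨-, hA, -⟩ := mem_restE.1 hpq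
      simp only [edgeOf, Prod.mk.injEq] at h
      rcases p with (p | p) | p <;> rcases q with (q | q) | q
      · exact absurd ⟨p, q, rfl⟩ hA
      all_goals simp [subInc, blkInc] at h
    · obtain ⟨-, -, hB⟩ := mem_restE.1 hpq
      simp only [edgeOf, Prod.mk.injEq] at h
      rcases p with (p | p) | p <;> rcases q with (q | q) | q
      · simp [subInc, blkInc] at h
      · simp [subInc, blkInc] at h
      · simp [subInc, blkInc] at h
      · simp [subInc, blkInc] at h
      · exact absurd ⟨p, q, rfl⟩ hB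
      all_goals simp [subInc, blkInc] at h
    · simp only [edgeOf, Prod.mk.injEq] at h
      have h1 := restE_edge_eq hpq h.1 h.2
      subst h1
      have h2 := subInc_injective e h.1
      have h3 := subInc_injective e h.2
      subst h2
      subst h3
      rfl
    · obtain ⟨-, -, hB⟩ := mem_restE.1 hpq
      simp only [edgeOf, Prod.mk.injEq] at h
      rcases p with (p | p) | p <;> rcases q with (q | q) | q
      · simp [subInc, blkInc] at h
      · simp [subInc, blkInc] at h
      · simp [subInc, blkInc] at h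
      · simp [subInc, blkInc] at h
      · exact absurd ⟨p, q, rfl⟩ hB
      all_goals simp [subInc, blkInc] at h
  · rcases j with (⟨w', e'⟩ | ⟨w', e'⟩) | (⟨e', ⟨⟨p', q'⟩, hpq'⟩⟩ | e')
    · simp [edgeOf] at h
    · simp only [edgeOf, Prod.mk.injEq, Sum.inl.injEq, Sum.inr.injEq] at h
      obtain ⟨⟨h1, -⟩, h2, -⟩ := h
      have e1 : e.1.1 = w'.1 := congrArg (fun x => (x.1 : W)) h1
      have e2 : e.1.2 = w'.1 := congrArg (fun x => (x.1 : W)) h2
      exact absurd (by rw [e1, e2]) (hlt e.1 e.2.1)
    · obtain ⟨-, -, hB⟩ := mem_restE.1 hpq'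
      simp only [edgeOf, Prod.mk.injEq] at h
      rcases p' with (p' | p') | p' <;> rcases q' with (q' | q') | q'
      · simp [subInc, blkInc] at h
      · simp [subInc, blkInc] at h
      · simp [subInc, blkInc] at h
      · simp [subInc, blkInc] at h
      · exact absurd ⟨p', q', rfl⟩ hB
      all_goals simp [subInc, blkInc] at h
    · simp only [edgeOf, Prod.mk.injEq, Sum.inl.injEq, Sum.inr.injEq] at h
      obtain ⟨⟨h1, -⟩, h2, -⟩ := h
      have e1 : e.1.1 = e'.1.1 := congrArg (fun x => (x.1 : W)) h1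
      have e2 : e.1.2 = e'.1.2 := congrArg (fun x => (x.1 : W)) h2
      rw [Subtype.ext (Prod.ext e1 e2)]

/-- the number of edges after substitution, with nonnegative weights -/
theorem sum_subEdges_ge (t : B) (hlt : ∀ e ∈ EF, levF e.1 < levF e.2)
    (hA : ∀ w, levF w = 0 → ∃ e ∈ EF, e.1 = w) (h01 : ∀ e ∈ EF, levF e.1 = 0 → levF e.2 = 1)
    (hB : (inB ED).Nonempty → ∀ w, levF w = 1 → ∃ e ∈ EF, e.2 = w)
    (f : SubV EF levF A B M × SubV EF levF A B M → ℝ)
    (hf : ∀ x ∈ subEdges EF levF ED t, 0 ≤ f x) :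
    ∑ i : EdgeI EF levF ED, f (edgeOf EF levF ED t i) ≤ ∑ x ∈ subEdges EF levF ED t, f x := by
  classical
  rw [← Finset.sum_image (s := univ) (f := f) (g := edgeOf EF levF ED t)
    (fun a _ b _ h => edgeOf_injective t (fun e he => (hlt e he).ne) h)]
  refine Finset.sum_le_sum_of_subset_of_nonneg ?_ fun x hx _ => hf x hx
  intro x hx
  obtain ⟨i, -, rfl⟩ := Finset.mem_image.1 hx
  rw [subEdges, Finset.mem_filter]
  refine ⟨mem_univ _, ?_⟩
  rcases i with (⟨w, e⟩ | ⟨w, e⟩) | (⟨e, p⟩ | e)
  · left
    obtain ⟨e', he', h1⟩ := hA w w.2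
    have h2 : levF e'.1 = 0 := by rw [h1]; exact w.2
    have h3 := h01 e' he' h2
    refine ⟨⟨e', he', h2, by rw [h3]; norm_num⟩, Sum.inl (Sum.inl e.1.1), Sum.inl (Sum.inl e.1.2),
      ?_, ?_, (Finset.mem_filter.1 e.2).2⟩
    · simp only [edgeOf, subInc, Sum.map_inl, blkInc]
      congr 3
      exact Subtype.ext h1.symm
    · simp only [edgeOf, subInc, Sum.map_inl, blkInc]
      congr 3
      exact Subtype.ext h1.symm
  · left
    obtain ⟨e', he', h1⟩ := hB ⟨e.1, e.2⟩ w w.2
    have h2 : levF e'.1 = 0 := by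
      have := hlt e' he'
      rw [h1, w.2] at this
      omega
    have h3 := h01 e' he' h2
    refine ⟨⟨e', he', h2, by rw [h3]; norm_num⟩, Sum.inl (Sum.inr e.1.1), Sum.inl (Sum.inr e.1.2),
      ?_, ?_, (Finset.mem_filter.1 e.2).2⟩
    · simp only [edgeOf, subInc, Sum.map_inl, blkInc]
      congr 3
      exact Subtype.ext h1.symm
    · simp only [edgeOf, subInc, Sum.map_inl, blkInc]
      congr 3
      exact Subtype.ext h1.symm
  · left
    exact ⟨e, p.1.1, p.1.2, rfl, rfl, (mem_restE.1 p.2).1⟩
  · right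
    exact ⟨⟨e.1.1, e.2.2.1⟩, ⟨e.1.2, e.2.2.2⟩, rfl, rfl, e.2.1⟩

/-- **Substitution rule.** -/
theorem Good.subst (hgF : Good EF RF levF) (hgD : Good ED RD levD) (t : B)
    (h01 : ∀ e ∈ EF, levF e.1 = 0 → levF e.2 = 1)
    (hA : ∀ w, levF w = 0 → ∃ e ∈ EF, e.1 = w)
    (hB : (∀ b : B, b = t) ∨ ((∀ w, levF w ≤ 1) ∧ ∀ w, levF w = 1 → ∃ e ∈ EF, e.2 = w))
    (hinA : ∀ a a' c : A, (Sum.inl (Sum.inl a), Sum.inl (Sum.inl c)) ∈ ED →
      (Sum.inl (Sum.inl a'), Sum.inl (Sum.inl c)) ∈ ED → a = a')
    (hinB : ∀ b b' c : B, (Sum.inl (Sum.inr b), Sum.inl (Sum.inr c)) ∈ ED →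
      (Sum.inl (Sum.inr b'), Sum.inl (Sum.inr c)) ∈ ED → b = b') :
    Good (subEdges EF levF ED t) (subRel EF levF RF RD t) (subLev EF levF levD) := by
  classical
  obtain ⟨hERF, hlF, hCF⟩ := hgF
  obtain ⟨hERD, hlD, hCD⟩ := hgD
  have hltF : ∀ e ∈ EF, levF e.1 < levF e.2 := fun e he => hlF _ _ (hERF e he)
  have hup : (∀ w, levF w ≤ 1) ∨ ∀ b : B, b = t := by
    rcases hB with h | h
    · exact Or.inr h
    · exact Or.inl h.1
  have hEsub : ∀ x ∈ subEdges EF levF ED t, subRel EF levF RF RD t x.1 x.2 := by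
    intro x hx
    rw [subEdges, Finset.mem_filter] at hx
    rcases hx.2 with ⟨e, p, q, h1, h2, h3⟩ | ⟨w, w', h1, h2, h3⟩
    · exact Or.inl ⟨e, p, q, h1, h2, hERD _ h3⟩
    · exact Or.inr (Or.inl ⟨w, w', h1, h2, hERF _ h3⟩)
  have hlX : ∀ x y, subRel EF levF RF RD t x y →
      subLev EF levF levD x < subLev EF levF levD y := by
    rintro x y (⟨e, p, q, rfl, rfl, h⟩ | ⟨w, w', rfl, rfl, h⟩ | ⟨w, a, w', b, rfl, rfl, h, h'⟩)
    · rw [subLev_inc h01, subLev_inc h01]
      exact hlD _ _ h
    · have h1 := hlF _ _ h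
      have h2 := w.2
      show levD (Sum.inl (Sum.inr t)) + (levF w - 1) < levD (Sum.inl (Sum.inr t)) + (levF w' - 1)
      omega
    · have h1 := hlD _ _ h'
      show levD (Sum.inl (Sum.inl a)) < levD (Sum.inl (Sum.inr b)) + (levF w' - 1)
      omega
  refine ⟨hEsub, hlX, ?_⟩
  intro U _ C
  obtain ⟨μ, hD⟩ := hCD U C
  obtain ⟨ν, hF⟩ := hCF _ (gadChain hD t)
  refine ⟨subLaw ν μ, subLaw_nonneg hF.nonneg hD.nonneg, ?_, ?_, ?_, ?_⟩
  · have h := sum_subLaw_blk hF h01 hERF fun _ => 1
    simp only [mul_one] at h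
    exact h.trans hF.total
  · exact fun x f => sub_vertex hF h01 hERF hup x f
  · exact fun x y hxy f => sub_tied hF h01 hERF hup hlF hlD x y hxy f
  · -- the entropy bound
    have hinfo : ∀ i j, i ≤ j → 0 ≤ C.info i j := fun i j h => C.info_nonneg h
    set l := levD (Sum.inl (Sum.inr t)) with hl
    -- the costs
    set TA := totA levD C μ with hTA
    set TB := totB levD C μ with hTB
    set iA := ∑ e ∈ inA ED, C.info (levD (Sum.inl (Sum.inl e.1))) (levD (Sum.inl (Sum.inl e.2)))
      with hiA
    set iB := ∑ e ∈ inB ED, C.info (levD (Sum.inl (Sum.inr e.1))) (levD (Sum.inl (Sum.inr e.2)))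
      with hiB
    set iR := ∑ e ∈ restE ED, C.info (levD e.1) (levD e.2) with hiR
    set iH := ∑ e : HighE EF levF, C.info (l + (levF e.1.1 - 1)) (l + (levF e.1.2 - 1)) with hiH
    set nE := Fintype.card (LowE EF levF) with hnE
    set n0 := Fintype.card {w : W // levF w = 0} with hn0
    set n1 := Fintype.card {w : W // levF w = 1} with hn1
    have hAge : iA ≤ TA := totA_ge hD hERD hlD hinA
    have hBge : iB ≤ TB := totB_ge hD hERD hlD hinB
    have hBzero : (∀ b : B, b = t) → TB = 0 ∧ iB = 0 := by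
      intro hb
      constructor
      · rw [hTB]
        unfold totB corr
        refine Finset.sum_eq_zero fun b _ => ?_
        have h1 := bc_law_single (hJ := gadJ_nonneg hD.nonneg) (hJ1 := gadJ_total hD.total) hb
          (gad_t hD t) 0 b
        rw [zero_add, bc_law_one, add_zero] at h1
        beta_reduce
        rw [h1, Finset.sum_eq_single t]
        · rw [sub_self, mul_zero]
        · intro b' _ hb'
          exact absurd (hb b') hb'
        · intro h4
          exact absurd (mem_univ _) h4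
      · rw [hiB]
        refine Finset.sum_eq_zero fun e he => ?_
        rw [inB, Finset.mem_filter] at he
        have h1 := hlD _ _ (hERD _ he.2)
        rw [hb e.1, hb e.2] at h1
        exact absurd h1 (lt_irrefl _)
    have hn0E : (n0 : ℝ) ≤ nE := by
      have : ∀ w : {w : W // levF w = 0}, ∃ e : LowE EF levF, e.1.1 = w := by
        intro w
        obtain ⟨e, he, h1⟩ := hA w w.2
        have h2 : levF e.1 = 0 := by rw [h1]; exact w.2
        exact ⟨⟨e, he, h2, by rw [h01 e he h2]; norm_num⟩, h1⟩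
      choose φ hφ using this
      have h1 : Function.Injective φ := fun w w' h => Subtype.ext (by rw [← hφ w, ← hφ w', h])
      exact_mod_cast Fintype.card_le_of_injective φ h1
    have hn1E : ((n1 : ℝ) - nE) * (TB - iB) ≤ 0 := by
      rcases hB with h | ⟨-, h⟩
      · rw [(hBzero h).1, (hBzero h).2]
        simp
      · have : ∀ w : {w : W // levF w = 1}, ∃ e : LowE EF levF, e.1.2 = w := by
          intro w
          obtain ⟨e, he, h1⟩ := h w w.2
          have h2 : levF e.2 = 1 := by rw [h1]; exact w.2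
          have h3 := hltF e he
          have h4 : levF e.1 = 0 := by omega
          exact ⟨⟨e, he, h4, by rw [h2]; norm_num⟩, h1⟩
        choose φ hφ using this
        have h1 : Function.Injective φ := fun w w' h => Subtype.ext (by rw [← hφ w, ← hφ w', h])
        have h2 : (n1 : ℝ) ≤ nE := by exact_mod_cast Fintype.card_le_of_injective φ h1
        exact mul_nonpos_of_nonpos_of_nonneg (by linarith) (by linarith)
    -- the total cost of the blocks
    have hcost : ∑ w, blkCost levF levD C μ w = n0 * TA + n1 * TB := by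
      have h1 : ∀ w, blkCost levF levD C μ w =
          (if levF w = 0 then TA else 0) + (if levF w = 1 then TB else 0) := by
        intro w
        unfold blkCost
        rw [← hTA, ← hTB]
        by_cases h : levF w = 0
        · simp [h]
        · simp [h]
      rw [Finset.sum_congr rfl fun w _ => h1 w, Finset.sum_add_distrib, ← Finset.sum_filter,
        ← Finset.sum_filter, Finset.sum_const, Finset.sum_const, nsmul_eq_mul, nsmul_eq_mul,
        hn0, hn1, Fintype.card_subtype, Fintype.card_subtype]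
    -- the bound for the block chain
    have hbF : corr levF (gadChain hD t) ν ≤ nE * (gadChain hD t).info 0 1 + iH := by
      refine hF.bound.trans (le_of_eq ?_)
      rw [← Finset.sum_filter_add_sum_filter_not EF (fun e => levF e.1 = 0)]
      congr 1
      · have h1 : ∀ e ∈ EF.filter (fun e => levF e.1 = 0),
            (gadChain hD t).info (levF e.1) (levF e.2) = (gadChain hD t).info 0 1 := by
          intro e he
          obtain ⟨h2, h3⟩ := Finset.mem_filter.1 he
          rw [h3, h01 e h2 h3]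
        rw [Finset.sum_congr rfl h1, Finset.sum_const, nsmul_eq_mul, hnE]
        congr 2
        rw [Fintype.card_subtype]
        congr 1
        ext e
        simp only [Finset.mem_filter, Finset.mem_univ, true_and]
        constructor
        · rintro ⟨h2, h3⟩
          exact ⟨h2, h3, by rw [h01 e h2 h3]; norm_num⟩
        · rintro ⟨h2, h3, -⟩
          exact ⟨h2, h3⟩
      · have h1 : ∀ e ∈ EF.filter (fun e => ¬ levF e.1 = 0),
            (gadChain hD t).info (levF e.1) (levF e.2) =
              C.info (l + (levF e.1 - 1)) (l + (levF e.2 - 1)) := by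
          intro e he
          obtain ⟨h2, h3⟩ := Finset.mem_filter.1 he
          have h4 := hltF e h2
          rcases hup with h5 | h5
          · have := h5 e.2
            omega
          · obtain ⟨n, hn⟩ := Nat.exists_eq_succ_of_ne_zero h3
            obtain ⟨m, hm⟩ := Nat.exists_eq_succ_of_ne_zero (show levF e.2 ≠ 0 by omega)
            rw [hn, hm] at h4 ⊢
            exact bc_info_single h5 (gad_t hD t) (by omega)
        rw [Finset.sum_congr rfl h1, hiH]
        refine Finset.sum_subtype _ (fun e => ?_) (fun e : W × W =>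
          C.info (l + (levF e.1 - 1)) (l + (levF e.2 - 1)))
        simp only [Finset.mem_filter]
        constructor
        · rintro ⟨h2, h3⟩
          have := hltF e h2
          exact ⟨h2, h3, by omega⟩
        · rintro ⟨h2, h3, -⟩
          exact ⟨h2, h3⟩
    -- the edges
    have hge := sum_subEdges_ge (M := M) t hltF hA h01 (ED := ED) (fun hne w hw => by
        rcases hB with h | h
        · obtain ⟨e, he⟩ := hne
          rw [inB, Finset.mem_filter] at he
          have h1 := hlD _ _ (hERD _ he.2)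
          rw [h e.1, h e.2] at h1
          exact absurd h1 (lt_irrefl _)
        · exact h.2 w hw)
      (fun x => C.info (subLev EF levF levD x.1) (subLev EF levF levD x.2))
      (fun x hx => hinfo _ _ (hlX _ _ (hEsub x hx)).le)
    have hsum : ∑ i : EdgeI EF levF ED, C.info (subLev EF levF levD (edgeOf EF levF ED t i).1)
        (subLev EF levF levD (edgeOf EF levF ED t i).2) =
        n0 * iA + n1 * iB + (nE * iR + iH) := by
      rw [Fintype.sum_sum_type, Fintype.sum_sum_type, Fintype.sum_sum_type,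
        Fintype.sum_prod_type, Fintype.sum_prod_type, Fintype.sum_prod_type]
      congr 1
      · congr 1
        · have h1 : ∀ w : {w : W // levF w = 0}, ∑ e : {e : A × A // e ∈ inA ED},
              C.info (subLev EF levF levD (edgeOf EF levF ED t (Sum.inl (Sum.inl (w, e)))).1)
                (subLev EF levF levD (edgeOf EF levF ED t (Sum.inl (Sum.inl (w, e)))).2) = iA := by
            intro w
            rw [hiA]
            exact (Finset.sum_subtype (inA ED) (fun e => Iff.rfl) (fun e : A × A =>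
              C.info (levD (Sum.inl (Sum.inl e.1))) (levD (Sum.inl (Sum.inl e.2))))).symm
          rw [Finset.sum_congr rfl fun w _ => h1 w, Finset.sum_const, Finset.card_univ,
            nsmul_eq_mul]
        · have h1 : ∀ w : {w : W // levF w = 1}, ∑ e : {e : B × B // e ∈ inB ED},
              C.info (subLev EF levF levD (edgeOf EF levF ED t (Sum.inl (Sum.inr (w, e)))).1)
                (subLev EF levF levD (edgeOf EF levF ED t (Sum.inl (Sum.inr (w, e)))).2) = iB := by
            intro w
            rw [hiB]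
            rw [Finset.sum_subtype (inB ED) (fun e => Iff.rfl) (fun e : B × B =>
              C.info (levD (Sum.inl (Sum.inr e.1))) (levD (Sum.inl (Sum.inr e.2))))]
            refine Finset.sum_congr rfl fun e _ => ?_
            have h2 : ∀ b : B, levD (Sum.inl (Sum.inr b)) + (levF w.1 - 1) =
                levD (Sum.inl (Sum.inr b)) := by
              intro b
              rw [w.2]
              rfl
            show C.info (levD (Sum.inl (Sum.inr e.1.1)) + (levF w.1 - 1))
              (levD (Sum.inl (Sum.inr e.1.2)) + (levF w.1 - 1)) = _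
            rw [h2, h2]
          rw [Finset.sum_congr rfl fun w _ => h1 w, Finset.sum_const, Finset.card_univ,
            nsmul_eq_mul]
      · congr 1
        have h1 : ∀ e : LowE EF levF,
            ∑ p : {p : ((A ⊕ B) ⊕ M) × ((A ⊕ B) ⊕ M) // p ∈ restE ED},
            C.info (subLev EF levF levD (edgeOf EF levF ED t (Sum.inr (Sum.inl (e, p)))).1)
              (subLev EF levF levD (edgeOf EF levF ED t (Sum.inr (Sum.inl (e, p)))).2) = iR := by
          intro e
          rw [hiR, Finset.sum_subtype (restE ED) (fun e => Iff.rfl)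
            (fun e : ((A ⊕ B) ⊕ M) × ((A ⊕ B) ⊕ M) => C.info (levD e.1) (levD e.2))]
          refine Finset.sum_congr rfl fun p _ => ?_
          show C.info (subLev EF levF levD (subInc e p.1.1))
            (subLev EF levF levD (subInc e p.1.2)) = _
          rw [subLev_inc h01, subLev_inc h01]
        rw [Finset.sum_congr rfl fun w _ => h1 w, Finset.sum_const, Finset.card_univ,
          nsmul_eq_mul]
    rw [hsum] at hge
    have hbD := hD.bound
    rw [sum_ED fun e => C.info (levD e.1) (levD e.2)] at hbD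
    rw [corr_subLaw hup hF h01 hERF, hcost]
    rw [info_gadChain] at hbF
    refine le_trans ?_ hge
    have h1 : (nE : ℝ) * corr levD C μ ≤ nE * (iA + iB + iR) :=
      mul_le_mul_of_nonneg_left hbD (Nat.cast_nonneg _)
    have h2 : ((n0 : ℝ) - nE) * (TA - iA) ≤ 0 :=
      mul_nonpos_of_nonpos_of_nonneg (by linarith) (by linarith)
    nlinarith [h1, h2, hn1E, hbF]

end main

end Vale.Agent.P050.Lev
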