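import Vale.Agent.P050.Lev.Cone
import Vale.Agent.P050.Lev.Transport

/-!
The total correlation of a random map is at least the sum of the mutual informations over any
forest of tied pairs in which every vertex has at most one incoming edge.
-/

namespace Vale.Agent.P050.Lev

open Finset

section indep

variable {S U : Type} [Fintype S] [DecidableEq S] [Fintype U]

omit [Fintype S] [Fintype U] in
theorem update_put (v : S) (y y' : U) (z : {w : S // w ≠ v} → U) :
    Function.update (put v y z) v y' = put v y' z := by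
  funext w
  by_cases h : w = v
  · subst h; simp [put]
  · simp [put, h]

/-- exchanging a factor with another factor of the same conditional sums -/
theorem sum_exchange (v : S) {g c c' : (S → U) → ℝ} (hg : ∀ s y, g (Function.update s v y) = g s)
    (hc : ∀ s, ∑ y, c (Function.update s v y) = 1)
    (hc' : ∀ s, ∑ y, c' (Function.update s v y) = 1) :
    ∑ s, g s * c s = ∑ s, g s * c' s := by
  have key : ∀ d : (S → U) → ℝ, (∀ s, ∑ y, d (Function.update s v y) = 1) →
      ∀ z : {w : S // w ≠ v} → U, ∀ y0 : U, ∑ y, g (put v y z) * d (put v y z) =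
        g (put v y0 z) := by
    intro d hd z y0
    have h1 : ∀ y, g (put v y z) = g (put v y0 z) := fun y => by
      rw [← update_put v y0 y z, hg]
    simp_rw [h1]
    rw [← Finset.mul_sum]
    have h2 := hd (put v y0 z)
    simp_rw [update_put] at h2
    rw [h2, mul_one]
  rw [sum_put v, sum_put v]
  refine Finset.sum_congr rfl fun z _ => ?_
  rcases isEmpty_or_nonempty U with hU | ⟨⟨y0⟩⟩
  · simp
  · rw [key c hc z y0, key c' hc' z y0]

end indep

section forest

variable {S U : Type} [Fintype S] [DecidableEq S] [Fintype U]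

/-- the law of the Markov forest -/
noncomputable def forestLaw (E : Finset (S × S)) (lev : S → ℕ) (C : Chain U) (s : S → U) : ℝ :=
  (∏ v ∈ univ.filter (fun v => v ∉ E.image Prod.snd), C.law (lev v) (s v)) *
    ∏ e ∈ E, C.ker (lev e.1) (lev e.2 - lev e.1) (s e.1) (s e.2)

theorem forestLaw_nonneg (E : Finset (S × S)) (lev : S → ℕ) (C : Chain U) (s : S → U) :
    0 ≤ forestLaw E lev C s :=
  mul_nonneg (Finset.prod_nonneg fun _ _ => C.fo_law_nonneg _ _)
    (Finset.prod_nonneg fun _ _ => C.fo_ker_nonneg _ _ _ _)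

theorem forestLaw_sum (lev : S → ℕ) (C : Chain U) : ∀ (n : ℕ) (E : Finset (S × S)), E.card = n →
    (∀ e ∈ E, lev e.1 < lev e.2) → (∀ e ∈ E, ∀ e' ∈ E, e.2 = e'.2 → e = e') →
    ∑ s, forestLaw E lev C s = 1 := by
  intro n
  induction n with
  | zero =>
    intro E hn _ _
    rw [Finset.card_eq_zero] at hn
    subst hn
    simp only [forestLaw, Finset.image_empty, Finset.notMem_empty, not_false_eq_true,
      Finset.filter_true, Finset.prod_empty, mul_one]
    have h2 := Finset.prod_univ_sum (fun _ : S => (Finset.univ : Finset U))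
      (fun a x => C.law (lev a) x)
    rw [Fintype.piFinset_univ] at h2
    rw [← h2]
    simp [C.fo_law_sum]
  | succ n ih =>
    intro E hn hlt hin
    have hne : E.Nonempty := by
      rw [← Finset.card_pos, hn]; omega
    obtain ⟨e0, he0, hmax⟩ := Finset.exists_max_image E (fun e => lev e.2) hne
    set v := e0.2 with hv
    set E' := E.erase e0 with hE'
    have hcard : E'.card = n := by rw [hE', Finset.card_erase_of_mem he0, hn]; rfl
    have hsub : ∀ e ∈ E', e ∈ E := fun e he => Finset.mem_of_mem_erase he
    have hih := ih E' hcard (fun e he => hlt e (hsub e he))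
      (fun e he e' he' => hin e (hsub e he) e' (hsub e' he'))
    rw [← hih]
    have hvE' : v ∉ E'.image Prod.snd := by
      intro h
      obtain ⟨e, he, h1⟩ := Finset.mem_image.1 h
      exact (Finset.mem_erase.1 he).1 (hin e (hsub e he) e0 he0 h1)
    have hne1 : ∀ e ∈ E', e.1 ≠ v ∧ e.2 ≠ v := by
      intro e he
      constructor
      · intro h
        have h1 := hlt e (hsub e he)
        have h2 := hmax e (hsub e he)
        rw [h] at h1
        omega
      · intro h
        exact hvE' (Finset.mem_image.2 ⟨e, he, h⟩)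
    have hset : univ.filter (fun w => w ∉ E'.image Prod.snd) =
        insert v (univ.filter (fun w => w ∉ E.image Prod.snd)) := by
      ext w
      simp only [Finset.mem_filter, Finset.mem_univ, true_and, Finset.mem_insert]
      constructor
      · intro h
        by_cases hw : w = v
        · exact Or.inl hw
        · right
          intro h1
          obtain ⟨e, he, h2⟩ := Finset.mem_image.1 h1
          refine h (Finset.mem_image.2 ⟨e, Finset.mem_erase.2 ⟨?_, he⟩, h2⟩)
          rintro rfl
          exact hw h2.symm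
      · rintro (rfl | h)
        · exact hvE'
        · intro h1
          obtain ⟨e, he, h2⟩ := Finset.mem_image.1 h1
          exact h (Finset.mem_image.2 ⟨e, hsub e he, h2⟩)
    have hvE : v ∉ univ.filter (fun w => w ∉ E.image Prod.snd) := by
      simp only [Finset.mem_filter, Finset.mem_univ, true_and, not_not]
      exact Finset.mem_image.2 ⟨e0, he0, rfl⟩
    set g : (S → U) → ℝ := fun s =>
      (∏ w ∈ univ.filter (fun w => w ∉ E.image Prod.snd), C.law (lev w) (s w)) *
        ∏ e ∈ E', C.ker (lev e.1) (lev e.2 - lev e.1) (s e.1) (s e.2) with hg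
    have e1 : ∀ s, forestLaw E lev C s =
        g s * C.ker (lev e0.1) (lev e0.2 - lev e0.1) (s e0.1) (s e0.2) := by
      intro s
      rw [forestLaw, ← Finset.mul_prod_erase E _ he0, hg]
      ring
    have e2 : ∀ s, forestLaw E' lev C s = g s * C.law (lev v) (s v) := by
      intro s
      rw [forestLaw, hset, Finset.prod_insert hvE, hg]
      ring
    simp_rw [e1, e2]
    refine sum_exchange v ?_ ?_ ?_
    · intro s y
      rw [hg]
      simp only
      congr 1
      · refine Finset.prod_congr rfl fun w hw => ?_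
        have hwv : w ≠ v := by
          rintro rfl
          exact hvE hw
        rw [Function.update_of_ne hwv]
      · refine Finset.prod_congr rfl fun e he => ?_
        rw [Function.update_of_ne (hne1 e he).1, Function.update_of_ne (hne1 e he).2]
    · intro s
      have h1 : e0.1 ≠ v := fun h => by
        have := hlt e0 he0
        rw [h] at this
        exact lt_irrefl _ this
      have h2 : ∀ y, Function.update s v y e0.1 = s e0.1 := fun y => Function.update_of_ne h1 _ _
      have h3 : ∀ y, Function.update s v y e0.2 = y := fun y => by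
        rw [← hv]; exact Function.update_self _ _ _
      simp_rw [h2, h3]
      exact C.fo_ker_sum _ _ _
    · intro s
      have h3 : ∀ y, Function.update s v y v = y := fun y => Function.update_self _ _ _
      simp_rw [h3]
      exact C.fo_law_sum _

/-- **Forest inequality.** -/
theorem info_forest_le {E : Finset (S × S)} {lev : S → ℕ} {C : Chain U} {ρ : (S → U) → ℝ}
    (hρ : ∀ s, 0 ≤ ρ s) (hρ1 : ∑ s, ρ s = 1)
    (hv : ∀ (v : S) (f : U → ℝ), ∑ s, ρ s * f (s v) = ∑ x, C.law (lev v) x * f x)
    (he : ∀ e ∈ E, ∀ f : U → U → ℝ,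
      ∑ s, ρ s * f (s e.1) (s e.2) = ∑ x, ∑ y, C.pair (lev e.1) (lev e.2) x y * f x y)
    (hlt : ∀ e ∈ E, lev e.1 < lev e.2) (hin : ∀ e ∈ E, ∀ e' ∈ E, e.2 = e'.2 → e = e') :
    ∑ e ∈ E, C.info (lev e.1) (lev e.2) ≤ corr lev C ρ := by
  classical
  -- supports
  have hlaw0 : ∀ s, ρ s ≠ 0 → ∀ v, C.law (lev v) (s v) ≠ 0 := by
    intro s hs v h0
    have h1 := hv v fun x => if x = s v then 1 else 0
    simp only [mul_ite, mul_one, mul_zero, Finset.sum_ite_eq', Finset.mem_univ, if_true,
      h0] at h1
    have h2 := (Finset.sum_eq_zero_iff_of_nonneg fun z _ => by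
      split_ifs
      · exact hρ z
      · exact le_rfl).1 h1 s (Finset.mem_univ s)
    simp only [if_true] at h2
    exact hs h2
  have hker0 : ∀ s, ρ s ≠ 0 → ∀ e ∈ E,
      C.ker (lev e.1) (lev e.2 - lev e.1) (s e.1) (s e.2) ≠ 0 := by
    intro s hs e hee h0
    have h1 := he e hee fun x y => if x = s e.1 ∧ y = s e.2 then 1 else 0
    have h3 : ∑ x, ∑ y, C.pair (lev e.1) (lev e.2) x y *
        (if x = s e.1 ∧ y = s e.2 then (1 : ℝ) else 0) = 0 := by
      refine Finset.sum_eq_zero fun x _ => Finset.sum_eq_zero fun y _ => ?_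
      split_ifs with h
      · rw [h.1, h.2, Chain.pair, h0]; ring
      · ring
    rw [h3] at h1
    have h2 := (Finset.sum_eq_zero_iff_of_nonneg fun z _ => by
      refine mul_nonneg (hρ z) ?_
      split_ifs <;> norm_num).1 h1 s (Finset.mem_univ s)
    simp only [and_self, if_true, mul_one] at h2
    exact hs h2
  have hq0 : ∀ s, forestLaw E lev C s = 0 → ρ s = 0 := by
    intro s h
    by_contra hs
    rcases mul_eq_zero.1 h with h | h
    · obtain ⟨v, -, h1⟩ := Finset.prod_eq_zero_iff.1 h
      exact hlaw0 s hs v h1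
    · obtain ⟨e, hee, h1⟩ := Finset.prod_eq_zero_iff.1 h
      exact hker0 s hs e hee h1
  have hg := gibbs' hρ (forestLaw_nonneg E lev C) hq0 hρ1
    (forestLaw_sum lev C _ E rfl hlt hin).le
  have hlog : ∀ s, ρ s * Real.log (forestLaw E lev C s) = ρ s *
      (∑ v ∈ univ.filter (fun v => v ∉ E.image Prod.snd), Real.log (C.law (lev v) (s v)) +
        ∑ e ∈ E, Real.log (C.ker (lev e.1) (lev e.2 - lev e.1) (s e.1) (s e.2))) := by
    intro s
    by_cases hs : ρ s = 0
    · rw [hs, zero_mul, zero_mul]
    congr 1
    rw [forestLaw, Real.log_mul (Finset.prod_ne_zero_iff.2 fun v _ => hlaw0 s hs v)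
      (Finset.prod_ne_zero_iff.2 fun e hee => hker0 s hs e hee),
      Real.log_prod (fun v _ => hlaw0 s hs v), Real.log_prod (fun e hee => hker0 s hs e hee)]
  have h1 : ∑ s, ρ s * Real.log (forestLaw E lev C s) =
      ∑ v ∈ univ.filter (fun v => v ∉ E.image Prod.snd),
        ∑ x, C.law (lev v) x * Real.log (C.law (lev v) x) +
      ∑ e ∈ E, ∑ x, ∑ y, C.pair (lev e.1) (lev e.2) x y *
        Real.log (C.ker (lev e.1) (lev e.2 - lev e.1) x y) := by
    simp_rw [hlog, mul_add, Finset.sum_add_distrib, Finset.mul_sum]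
    congr 1
    · rw [Finset.sum_comm]
      exact Finset.sum_congr rfl fun v _ => hv v fun x => Real.log (C.law (lev v) x)
    · rw [Finset.sum_comm]
      exact Finset.sum_congr rfl fun e hee => he e hee fun x y =>
        Real.log (C.ker (lev e.1) (lev e.2 - lev e.1) x y)
  have h2 : ∑ v, ∑ x, C.law (lev v) x * Real.log (C.law (lev v) x) =
      ∑ v ∈ univ.filter (fun v => v ∉ E.image Prod.snd),
        ∑ x, C.law (lev v) x * Real.log (C.law (lev v) x) +
      ∑ e ∈ E, ∑ x, C.law (lev e.2) x * Real.log (C.law (lev e.2) x) := by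
    have h3 : ∑ e ∈ E, ∑ x, C.law (lev e.2) x * Real.log (C.law (lev e.2) x) =
        ∑ v ∈ E.image Prod.snd, ∑ x, C.law (lev v) x * Real.log (C.law (lev v) x) := by
      rw [Finset.sum_image fun a ha b hb hab => hin a ha b hb hab]
    rw [h3, ← Finset.sum_filter_add_sum_filter_not univ (fun v => v ∉ E.image Prod.snd)]
    congr 1
    refine Finset.sum_congr ?_ fun _ _ => rfl
    ext v
    simp
  have h4 : corr lev C ρ = ∑ s, ρ s * Real.log (ρ s) -
      ∑ v, ∑ x, C.law (lev v) x * Real.log (C.law (lev v) x) := by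
    unfold corr
    simp_rw [mul_sub, Finset.sum_sub_distrib, Finset.mul_sum]
    congr 1
    rw [Finset.sum_comm]
    exact Finset.sum_congr rfl fun v _ => hv v fun x => Real.log (C.law (lev v) x)
  rw [h4, h2]
  rw [h1] at hg
  have h5 : ∑ e ∈ E, C.info (lev e.1) (lev e.2) =
      ∑ e ∈ E, ∑ x, ∑ y, C.pair (lev e.1) (lev e.2) x y *
        Real.log (C.ker (lev e.1) (lev e.2 - lev e.1) x y) -
      ∑ e ∈ E, ∑ x, C.law (lev e.2) x * Real.log (C.law (lev e.2) x) := by
    rw [← Finset.sum_sub_distrib]
    exact Finset.sum_congr rfl fun e hee => C.info_eq (hlt e hee).le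
  rw [h5]
  linarith

end forest

end Vale.Agent.P050.Lev
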