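import Vale.Agent.P050.Lev.BlockChain
import Vale.Agent.P050.Lev.Glue
import Vale.Agent.P050.Lev.Final
import Vale.Agent.P050.Lev.TreeIneq

/-!
Substitution of a gadget into a levelled graph: the law of the random map.
-/

set_option linter.unusedSectionVars false

namespace Vale.Agent.P050.Lev

open Finset

section types

variable {W : Type} [Fintype W] [DecidableEq W]

/-- the edges between level `0` and the other levels -/
abbrev LowE (EF : Finset (W × W)) (levF : W → ℕ) : Type :=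
  {e : W × W // e ∈ EF ∧ levF e.1 = 0 ∧ levF e.2 ≠ 0}

/-- the block vertices: a copy of `A` for each vertex of level `0`, a copy of `B` for each other
vertex -/
abbrev BlkV (levF : W → ℕ) (A B : Type) : Type :=
  ({w : W // levF w = 0} × A) ⊕ ({w : W // levF w ≠ 0} × B)

/-- the vertices after substitution -/
abbrev SubV (EF : Finset (W × W)) (levF : W → ℕ) (A B M : Type) : Type :=
  BlkV levF A B ⊕ (LowE EF levF × M)

variable {EF : Finset (W × W)} {levF : W → ℕ} {A B M : Type}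

/-- the blocks of the copy of the gadget at the edge `e` -/
def blkInc (e : LowE EF levF) : A ⊕ B → BlkV levF A B
  | Sum.inl a => Sum.inl (⟨e.1.1, e.2.2.1⟩, a)
  | Sum.inr b => Sum.inr (⟨e.1.2, e.2.2.2⟩, b)

/-- the copy of the gadget at the edge `e` -/
def subInc (e : LowE EF levF) : (A ⊕ B) ⊕ M → SubV EF levF A B M :=
  Sum.map (blkInc e) (Prod.mk e)

variable {U : Type}

/-- the values on the blocks -/
def blk (s : BlkV levF A B → U) (w : W) : (A → U) ⊕ (B → U) :=
  if h : levF w = 0 then Sum.inl (fun a => s (Sum.inl (⟨w, h⟩, a)))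
  else Sum.inr (fun b => s (Sum.inr (⟨w, h⟩, b)))

theorem blk_zero (s : BlkV levF A B → U) (w : {w : W // levF w = 0}) :
    blk s w.1 = Sum.inl (fun a => s (Sum.inl (w, a))) := by
  simp [blk, w.2]

theorem blk_pos (s : BlkV levF A B → U) (w : {w : W // levF w ≠ 0}) :
    blk s w.1 = Sum.inr (fun b => s (Sum.inr (w, b))) := by
  simp [blk, w.2]

theorem blk_injective : Function.Injective (blk (levF := levF) (A := A) (B := B) (U := U)) := by
  intro s s' h
  funext x
  rcases x with ⟨w, a⟩ | ⟨w, b⟩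
  · have h1 := congrFun h w.1
    rw [blk_zero, blk_zero, Sum.inl.injEq] at h1
    exact congrFun h1 a
  · have h1 := congrFun h w.1
    rw [blk_pos, blk_pos, Sum.inr.injEq] at h1
    exact congrFun h1 b

/-- `z` has blocks of the right kinds -/
theorem exists_blk {z : W → (A → U) ⊕ (B → U)} (h0 : ∀ w, levF w = 0 → (z w).isLeft)
    (h1 : ∀ w, levF w ≠ 0 → (z w).isRight) : ∃ s : BlkV levF A B → U, blk s = z := by
  have h0' : ∀ w : {w : W // levF w = 0}, ∃ a : A → U, z w = Sum.inl a := fun w => by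
    rcases h : z w with a | b
    · exact ⟨a, rfl⟩
    · have := h0 w w.2
      rw [h] at this
      simp at this
  have h1' : ∀ w : {w : W // levF w ≠ 0}, ∃ b : B → U, z w = Sum.inr b := fun w => by
    rcases h : z w with a | b
    · have := h1 w w.2
      rw [h] at this
      simp at this
    · exact ⟨b, rfl⟩
  choose fa hfa using h0'
  choose fb hfb using h1'
  refine ⟨Sum.elim (fun p => fa p.1 p.2) (fun p => fb p.1 p.2), ?_⟩
  funext w
  by_cases h : levF w = 0
  · rw [blk_zero _ ⟨w, h⟩, hfa ⟨w, h⟩]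
    rfl
  · rw [blk_pos _ ⟨w, h⟩, hfb ⟨w, h⟩]
    rfl

variable [Fintype A] [DecidableEq A] [Fintype B] [DecidableEq B] [Fintype M] [DecidableEq M]
  [Fintype U]

/-- a shortcut for instance search -/
instance : DecidableEq (SubV EF levF A B M) := instDecidableEqSum

/-- a shortcut for instance search -/
instance : Fintype (SubV EF levF A B M) := instFintypeSum _ _

/-- a shortcut for instance search -/
instance : Fintype (SubV EF levF A B M → U) := Pi.instFintype

/-- the law after substitution -/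
noncomputable def subLaw (ν : (W → (A → U) ⊕ (B → U)) → ℝ) (μ : ((A ⊕ B) ⊕ M → U) → ℝ)
    (z : SubV EF levF A B M → U) : ℝ :=
  ν (blk (z ∘ Sum.inl)) * ∏ e : LowE EF levF,
    (μ (z ∘ subInc e) / smarg μ ((z ∘ Sum.inl) ∘ blkInc e))

theorem elim_comp_subInc (s : BlkV levF A B → U) (w : LowE EF levF → M → U) (e : LowE EF levF) :
    (Sum.elim s fun p : LowE EF levF × M => w p.1 p.2) ∘ subInc e =
      Sum.elim (s ∘ blkInc e) (w e) := by
  funext x
  rcases x with x | x <;> rfl

theorem sum_subLaw_aux (ν : (W → (A → U) ⊕ (B → U)) → ℝ) (μ : ((A ⊕ B) ⊕ M → U) → ℝ)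
    (G : (W → (A → U) ⊕ (B → U)) → ℝ) (g : LowE EF levF → ((A ⊕ B) ⊕ M → U) → ℝ) :
    ∑ z : SubV EF levF A B M → U, subLaw ν μ z *
      (G (blk (z ∘ Sum.inl)) * ∏ e, g e (z ∘ subInc e)) =
    ∑ s : BlkV levF A B → U, ν (blk s) * (G (blk s) * ∏ e : LowE EF levF,
      ((∑ m : M → U, μ (Sum.elim (s ∘ blkInc e) m) * g e (Sum.elim (s ∘ blkInc e) m)) /
        smarg μ (s ∘ blkInc e))) := by
  rw [sum_sumArrow']
  refine Finset.sum_congr rfl fun s _ => ?_
  have h1 : ∀ w : LowE EF levF → M → U,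
      (Sum.elim s fun p : LowE EF levF × M => w p.1 p.2) ∘ Sum.inl = s := fun w => rfl
  simp only [subLaw, elim_comp_subInc, h1]
  have h2 := Finset.prod_univ_sum (fun _ : LowE EF levF => (Finset.univ : Finset (M → U)))
    (fun e m => (μ (Sum.elim (s ∘ blkInc e) m) / smarg μ (s ∘ blkInc e)) *
      g e (Sum.elim (s ∘ blkInc e) m))
  rw [Fintype.piFinset_univ] at h2
  have h3 : ∏ e : LowE EF levF,
      ((∑ m : M → U, μ (Sum.elim (s ∘ blkInc e) m) * g e (Sum.elim (s ∘ blkInc e) m)) /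
        smarg μ (s ∘ blkInc e)) = ∏ e : LowE EF levF, ∑ m : M → U,
          (μ (Sum.elim (s ∘ blkInc e) m) / smarg μ (s ∘ blkInc e)) *
            g e (Sum.elim (s ∘ blkInc e) m) := by
    refine Finset.prod_congr rfl fun e _ => ?_
    rw [Finset.sum_div]
    exact Finset.sum_congr rfl fun m _ => by ring
  rw [h3, h2, Finset.mul_sum, Finset.mul_sum]
  refine Finset.sum_congr rfl fun w _ => ?_
  rw [Finset.prod_mul_distrib]
  ring

theorem subLaw_nonneg {ν : (W → (A → U) ⊕ (B → U)) → ℝ} {μ : ((A ⊕ B) ⊕ M → U) → ℝ}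
    (hν : ∀ z, 0 ≤ ν z) (hμ : ∀ z, 0 ≤ μ z) (z : SubV EF levF A B M → U) : 0 ≤ subLaw ν μ z :=
  mul_nonneg (hν _) (Finset.prod_nonneg fun _ _ => div_nonneg (hμ _) (smarg_nonneg hμ _))

theorem mul_log_subLaw (ν : (W → (A → U) ⊕ (B → U)) → ℝ) (μ : ((A ⊕ B) ⊕ M → U) → ℝ)
    (z : SubV EF levF A B M → U) :
    subLaw ν μ z * Real.log (subLaw ν μ z) = subLaw ν μ z * (Real.log (ν (blk (z ∘ Sum.inl))) +
      ∑ e : LowE EF levF, (Real.log (μ (z ∘ subInc e)) -
        Real.log (smarg μ ((z ∘ subInc e) ∘ Sum.inl)))) := by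
  by_cases h0 : subLaw ν μ z = 0
  · rw [h0, zero_mul, zero_mul]
  have h1 : ν (blk (z ∘ Sum.inl)) ≠ 0 := fun h => h0 (by rw [subLaw, h, zero_mul])
  have h2 : ∏ e : LowE EF levF, (μ (z ∘ subInc e) / smarg μ ((z ∘ Sum.inl) ∘ blkInc e)) ≠ 0 :=
    fun h => h0 (by rw [subLaw, h, mul_zero])
  have h3 := fun e => Finset.prod_ne_zero_iff.1 h2 e (mem_univ e)
  have h4 : ∀ e : LowE EF levF, μ (z ∘ subInc e) ≠ 0 := fun e h => h3 e (by rw [h, zero_div])
  have h5 : ∀ e : LowE EF levF, smarg μ ((z ∘ Sum.inl) ∘ blkInc e) ≠ 0 := fun e h =>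
    h3 e (by rw [h, div_zero])
  congr 1
  rw [subLaw, Real.log_mul h1 h2, Real.log_prod (fun e _ => h3 e)]
  congr 1
  refine Finset.sum_congr rfl fun e _ => ?_
  rw [Real.log_div (h4 e) (h5 e)]
  rfl

end types

end Vale.Agent.P050.Lev
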